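import Vale.Agent.P011.H21.Mob
import Mathlib.Tactic.FieldSimp
import Mathlib.Tactic.Ring
import Mathlib.RingTheory.SimpleRing.Basic

/-!
The Cayley transform, conjugations, left multiplications, and the one-step identities, in every
characteristic and for every anisotropic algebra with involution of the second kind.

Letters: `w` in the center `K`, `star w ≠ w`; `cay x = (x + w)(x + w*)⁻¹`; `s1 w = w + w*`;
`nu x = (x + w)(x + w*)`.  `E` is a field with involution and `φ : E →ₐ[K] A` a homomorphism
compatible with the involutions (the image is a commutative subfield stable under the involution).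
-/

set_option linter.unusedSectionVars false
set_option linter.unusedSimpArgs false

namespace Vale.Agent.P011.H21

section

variable {K A : Type*} [Field K] [StarRing K] [Ring A] [StarRing A] [Algebra K A] [StarModule K A]

/-- Left multiplication by `u`. -/
def Lm (u : UA A) : Equiv.Perm (UA A) := Equiv.mulLeft u

theorem Lm_apply (u x : UA A) : Lm u x = u * x := rfl

theorem Lm_mul (u v : UA A) : Lm (u * v) = Lm u * Lm v := by
  ext1 x
  rw [Equiv.Perm.mul_apply, Lm_apply, Lm_apply, Lm_apply, mul_assoc]

theorem Lm_one : Lm (1 : UA A) = 1 := by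
  ext1 x
  rw [Lm_apply, one_mul, Equiv.Perm.one_apply]

theorem Lm_inv (u : UA A) : Lm u⁻¹ = (Lm u)⁻¹ := by
  rw [eq_inv_iff_mul_eq_one, ← Lm_mul, inv_mul_cancel, Lm_one]

/-- `W u` is the conjugation by `u` if `u` is unitary. -/
theorem W_unitary {w : K} (hA : AnisR A) (hw : star w ≠ w) (u x : UA A) :
    W w (u : Aˣ) x = u * x * u⁻¹ := by
  have hd := W_den_unit hA hw (u : Aˣ) x
  have hs := W_spec hA hw (u : Aˣ) x
  refine UA_cancel hd hs ?_
  rw [ci_unitary, sub_self, zero_mul, add_zero, sub_self, zero_add, ← sub_smul, mul_smul_comm,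
    smul_mul_assoc]
  congr 1
  rw [Subgroup.coe_mul, Units.val_mul, mul_assoc, Subgroup.coe_inv, Units.inv_mul, mul_one,
    Subgroup.coe_mul, Units.val_mul]

/-- Translations by symmetric elements fixed by the conjugation by `u` commute with it. -/
theorem T_conj {w : K} (hA : AnisR A) (hw : star w ≠ w) {v : A} (hv : star v = v) (u x : UA A)
    (huv : ((u : Aˣ) : A) * v = v * ((u : Aˣ) : A)) :
    T w v (u * x * u⁻¹) = u * T w v x * u⁻¹ := by
  have h1 := W_T hA hw (u : Aˣ) hv
  have h2 : ((u : Aˣ) : A) * v * star ((u : Aˣ) : A) = v := by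
    rw [huv, mul_assoc, UA_mul_star, mul_one]
  rw [h2] at h1
  have h3 := congrArg (fun p : Equiv.Perm (UA A) => p x) h1
  simp only [Equiv.Perm.mul_apply] at h3
  rw [W_unitary hA hw, W_unitary hA hw] at h3
  exact h3.symm

/-- `x` and `T v x` commute if `v` and `x` commute. -/
theorem T_commute {w : K} (hA : AnisR A) (hw : star w ≠ w) {v : A} (hv : star v = v) (x : UA A)
    (hvx : ((x : Aˣ) : A) * v = v * ((x : Aˣ) : A)) : T w v x * x = x * T w v x := by
  have hd := T_den_unit hA hw hv x
  have hs := T_spec hA hw hv x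
  set y : A := ((x : Aˣ) : A) with hy
  refine UA_cancel hd (Y := y * (-v + (eta w • (1 : A) + v) * y)) ?_ ?_
  · have h1 : y * ((eta w • (1 : A) - v) + v * y) = ((eta w • (1 : A) - v) + v * y) * y := by
      simp only [mul_add, add_mul, mul_sub, sub_mul, smul_mul_assoc, mul_smul_comm, one_mul,
        mul_one]
      rw [hvx, ← mul_assoc y v y, hvx]
    have h2 : y * (-v + (eta w • (1 : A) + v) * y) = (-v + (eta w • (1 : A) + v) * y) * y := by
      simp only [mul_add, add_mul, mul_sub, sub_mul, smul_mul_assoc, mul_smul_comm, one_mul,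
        mul_one, mul_neg, neg_mul]
      rw [hvx, ← mul_assoc y v y, hvx]
    rw [Subgroup.coe_mul, Units.val_mul, mul_assoc, ← hy, h1, ← mul_assoc, hs, h2]
  · rw [Subgroup.coe_mul, Units.val_mul, mul_assoc, hs]

section cay

theorem exists_cay_unitary {w : K} (hA : AnisR A) (hw : star w ≠ w) {x : A} (hx : star x = x) :
    IsUnit (x + star w • (1 : A)) ∧
      ∃ v : UA A, ((v : Aˣ) : A) * (x + star w • (1 : A)) = x + w • (1 : A) := by
  refine exists_unitary hA ?_ ?_
  · rw [star_add, star_add, star_smul, star_smul, star_one, star_star, hx]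
    simp only [mul_add, add_mul, smul_mul_assoc, mul_smul_comm, one_mul, mul_one]
    module
  · intro z h1 h2
    have h3 : eta w • z = (x + w • (1 : A)) * z - (x + star w • (1 : A)) * z := by
      simp only [add_mul, smul_mul_assoc, one_mul, eta, sub_smul]
      abel
    rw [h1, h2, sub_zero] at h3
    have h4 := congrArg (fun y => (eta w)⁻¹ • y) h3
    simpa only [smul_smul, inv_mul_cancel₀ (eta_ne hw), one_smul, smul_zero] using h4

open Classical in
/-- **The Cayley transform** of `x` (junk value if `x` is not symmetric). -/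
noncomputable def cy (w : K) (x : A) : UA A :=
  if h : ∃ v : UA A, ((v : Aˣ) : A) * (x + star w • (1 : A)) = x + w • (1 : A) then h.choose else 1

theorem cy_den {w : K} (hA : AnisR A) (hw : star w ≠ w) {x : A} (hx : star x = x) :
    IsUnit (x + star w • (1 : A)) := (exists_cay_unitary hA hw hx).1

theorem cy_spec {w : K} (hA : AnisR A) (hw : star w ≠ w) {x : A} (hx : star x = x) :
    ((cy w x : Aˣ) : A) * (x + star w • (1 : A)) = x + w • (1 : A) := by
  have h := (exists_cay_unitary hA hw hx).2
  rw [cy, dif_pos h]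
  exact h.choose_spec

theorem T_cy {w : K} (hA : AnisR A) (hw : star w ≠ w) {v x : A} (hv : star v = v)
    (hx : star x = x) : T w v (cy w x) = cy w (x + v) := by
  have hxv : star (x + v) = x + v := by rw [star_add, hx, hv]
  have h1 := T_spec hA hw hv (cy w x)
  have h2 := cy_spec hA hw hx
  refine UA_cancel (cy_den hA hw hxv) ?_ (cy_spec hA hw hxv)
  set y : A := ((cy w x : Aˣ) : A) with hy
  have h3 := congrArg (fun z => z * (x + star w • (1 : A))) h1
  simp only [mul_assoc] at h3
  rw [add_mul, mul_assoc v, h2, add_mul, mul_assoc (eta w • (1 : A) + v), h2] at h3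
  have h4 : (eta w • (1 : A) - v) * (x + star w • (1 : A)) + v * (x + w • (1 : A)) =
      eta w • (x + v + star w • (1 : A)) := by
    simp only [mul_add, add_mul, mul_sub, sub_mul, smul_mul_assoc, mul_smul_comm, one_mul,
      mul_one, mul_neg, neg_mul, eta, smul_sub, smul_smul]
    module
  have h5 : -v * (x + star w • (1 : A)) + (eta w • (1 : A) + v) * (x + w • (1 : A)) =
      eta w • (x + v + w • (1 : A)) := by
    simp only [mul_add, add_mul, mul_sub, sub_mul, smul_mul_assoc, mul_smul_comm, one_mul,
      mul_one, mul_neg, neg_mul, eta, smul_sub, smul_smul]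
    module
  rw [h4, h5, mul_smul_comm] at h3
  have h6 := congrArg (fun y => (eta w)⁻¹ • y) h3
  simpa only [smul_smul, inv_mul_cancel₀ (eta_ne hw), one_smul] using h6

theorem W_cy {w : K} (hA : AnisR A) (hw : star w ≠ w) (e : Aˣ) {x : A} (hx : star x = x) :
    W w e (cy w x) = cy w ((e : A) * x * star (e : A)) := by
  have hxe : star ((e : A) * x * star (e : A)) = (e : A) * x * star (e : A) := star_conj hx
  have h1 := W_spec hA hw e (cy w x)
  have h2 := cy_spec hA hw hx
  refine UA_cancel (cy_den hA hw hxe) ?_ (cy_spec hA hw hxe)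
  set y : A := ((cy w x : Aˣ) : A) with hy
  have h3 := congrArg (fun z => z * (x + star w • (1 : A))) h1
  simp only [mul_assoc] at h3
  rw [add_mul, mul_assoc (star w • ci e - star w • (e : A)), h2, add_mul,
    mul_assoc (w • ci e - star w • (e : A)), h2] at h3
  have h4 : (w • (e : A) - star w • ci e) * (x + star w • (1 : A)) +
      (star w • ci e - star w • (e : A)) * (x + w • (1 : A)) =
      eta w • ((e : A) * x + star w • ci e) := by
    simp only [mul_add, add_mul, mul_sub, sub_mul, smul_mul_assoc, mul_smul_comm, one_mul,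
      mul_one, mul_neg, neg_mul, eta, smul_sub, smul_smul]
    module
  have h5 : (w • (e : A) - w • ci e) * (x + star w • (1 : A)) +
      (w • ci e - star w • (e : A)) * (x + w • (1 : A)) =
      eta w • ((e : A) * x + w • ci e) := by
    simp only [mul_add, add_mul, mul_sub, sub_mul, smul_mul_assoc, mul_smul_comm, one_mul,
      mul_one, mul_neg, neg_mul, eta, smul_sub, smul_smul]
    module
  rw [h4, h5, mul_smul_comm] at h3
  have h6 := congrArg (fun y => (eta w)⁻¹ • y) h3
  simp only [smul_smul, inv_mul_cancel₀ (eta_ne hw), one_smul] at h6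
  have h7 := congrArg (fun z => z * star (e : A)) h6
  simp only [mul_assoc] at h7
  rw [add_mul, smul_mul_assoc, ci_mul_star, add_mul, smul_mul_assoc, ci_mul_star] at h7
  exact h7

/-- Every unitary element `y` such that `y - 1` is a unit is a Cayley transform. -/
theorem exists_cy {w : K} (hA : AnisR A) (hw : star w ≠ w) {y : UA A}
    (hy : IsUnit (((y : Aˣ) : A) - 1)) : ∃ x : A, star x = x ∧ cy w x = y := by
  obtain ⟨g, hg⟩ := hy
  set z : A := ((y : Aˣ) : A) with hz
  -- x = (w - w* y)(y-1)⁻¹
  set x : A := (w • (1 : A) - star w • z) * ((g⁻¹ : Aˣ) : A) with hx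
  have hxg : x * (g : A) = w • (1 : A) - star w • z := by
    rw [hx, mul_assoc, Units.inv_mul, mul_one]
  have hzz : star z * z = 1 := UA_star_mul y
  have hsg : star (g : A) = star z - 1 := by rw [hg, star_sub, star_one]
  have hstar : star x = x := by
    -- star g * star x * g = star g * x * g
    have h1 : star (g : A) * star x = star w • (1 : A) - w • star z := by
      rw [← star_mul, hxg, star_sub, star_smul, star_smul, star_one, star_star]
    have h2 : star (g : A) * star x * (g : A) = star (g : A) * x * (g : A) := by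
      rw [h1, mul_assoc, hxg, hsg, hg]
      simp only [mul_add, add_mul, mul_sub, sub_mul, smul_mul_assoc, mul_smul_comm, one_mul,
        mul_one, hzz]
      module
    have h3 : IsUnit (star (g : A)) := by
      refine ⟨star g, ?_⟩
      rw [Units.coe_star]
    exact h3.mul_left_cancel (g.isUnit.mul_right_cancel h2)
  refine ⟨x, hstar, ?_⟩
  refine UA_cancel (cy_den hA hw hstar) (cy_spec hA hw hstar) ?_
  refine g.isUnit.mul_right_cancel ?_
  rw [mul_assoc, add_mul, hxg, add_mul, hxg, hg]
  simp only [mul_add, add_mul, mul_sub, sub_mul, smul_mul_assoc, mul_smul_comm, one_mul,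
    mul_one]
  module

theorem cy_injective {w : K} (hA : AnisR A) (hw : star w ≠ w) {x x' : A} (hx : star x = x)
    (hx' : star x' = x') (h : cy w x = cy w x') : x = x' := by
  have h1 := cy_spec hA hw hx
  have h2 := cy_spec hA hw hx'
  rw [h] at h1
  set y : A := ((cy w x' : Aˣ) : A) with hy
  have h3 : (y - 1) * (x + star w • (1 : A)) = eta w • (1 : A) := by
    rw [sub_mul, h1, one_mul, eta, sub_smul]
    abel
  have h4 : (y - 1) * (x' + star w • (1 : A)) = eta w • (1 : A) := by
    rw [sub_mul, h2, one_mul, eta, sub_smul]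
    abel
  have h5 : IsUnit (y - 1) := by
    refine hA.fin _ fun z hz => ?_
    obtain ⟨g, hg⟩ := cy_den hA hw hx
    -- y - 1 = eta (x + w*)⁻¹
    have h6 : y - 1 = eta w • ((g⁻¹ : Aˣ) : A) := by
      have h7 := congrArg (fun t => t * ((g⁻¹ : Aˣ) : A)) h3
      simp only [mul_assoc] at h7
      rwa [← hg, Units.mul_inv, mul_one, smul_mul_assoc, one_mul] at h7
    rw [h6, smul_mul_assoc] at hz
    have h8 := congrArg (fun t => (g : A) * ((eta w)⁻¹ • t)) hz
    simpa only [smul_smul, inv_mul_cancel₀ (eta_ne hw), one_smul, smul_zero, mul_zero,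
      ← mul_assoc, Units.mul_inv, one_mul] using h8
  have h6 := h5.mul_left_cancel (h3.trans h4.symm)
  exact add_right_cancel h6

end cay

end

end Vale.Agent.P011.H21
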