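import Vale.Agent.P011.H21.GenPos

/-!
The Cayley chart of the unitary group of a division algebra with involution, in every
characteristic, and sequences of unitary elements of given colour in general position.
-/

open Module

set_option linter.unusedSectionVars false

namespace Vale.Agent.P011.H21

section sym

variable {F D : Type*} [Field F] [DivisionRing D] [Algebra F D] [StarRing D]

/-- The symmetric elements. -/
def symF (F D : Type*) [Field F] [DivisionRing D] [Algebra F D] [StarRing D]
    (hst : ∀ (a : F) (x : D), star (a • x) = a • star x) : Submodule F D where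
  carrier := {x | star x = x}
  add_mem' {x y} hx hy := by
    simp only [Set.mem_ofPred_eq] at hx hy ⊢
    rw [star_add, hx, hy]
  zero_mem' := star_zero D
  smul_mem' a x hx := by
    simp only [Set.mem_ofPred_eq] at hx ⊢
    rw [hst, hx]

variable {hst : ∀ (a : F) (x : D), star (a • x) = a • star x}

theorem mem_symF {x : D} : x ∈ symF F D hst ↔ star x = x := Iff.rfl

theorem star_coe (e : symF F D hst) : star (e : D) = e := e.2

instance : Nontrivial (symF F D hst) :=
  ⟨⟨0, ⟨1, star_one D⟩, fun h => zero_ne_one (congrArg Subtype.val h)⟩⟩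

variable {w : D}

theorem star_central (hw : ∀ x, w * x = x * w) (x : D) : star w * x = x * star w := by
  have := congrArg star (hw (star x))
  rwa [star_mul, star_mul, star_star, eq_comm] at this

theorem add_ne_zero_of_sym (hw' : star w ≠ w) (e : symF F D hst) : (e : D) + w ≠ 0 := by
  intro h
  apply hw'
  have h1 : w = -(e : D) := by rw [eq_neg_iff_add_eq_zero, add_comm]; exact h
  rw [h1, star_neg, star_coe]

theorem add_star_ne_zero_of_sym (hw' : star w ≠ w) (e : symF F D hst) : (e : D) + star w ≠ 0 :=
  add_ne_zero_of_sym (by rw [star_star]; exact hw'.symm) e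

/-- The Cayley transform. -/
noncomputable def cay (w e : D) : D := (e + w) * (e + star w)⁻¹

theorem cay_sub_one (hw' : star w ≠ w) (e : symF F D hst) :
    cay w (e : D) - 1 = (w - star w) * ((e : D) + star w)⁻¹ := by
  have h1 := add_star_ne_zero_of_sym (hst := hst) hw' e
  rw [cay, sub_eq_iff_eq_add, eq_comm]
  conv_lhs => rw [← mul_inv_cancel₀ h1, ← add_mul]
  congr 1
  abel

theorem star_cay_mul (hw : ∀ x, w * x = x * w) (hw' : star w ≠ w) (e : symF F D hst) :
    star (cay w (e : D)) * cay w (e : D) = 1 := by
  have h1 := add_star_ne_zero_of_sym (hst := hst) hw' e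
  have h2 := add_ne_zero_of_sym (hst := hst) hw' e
  have hc : ((e : D) + w) * ((e : D) + star w) = ((e : D) + star w) * ((e : D) + w) := by
    have h3 := star_central hw (e : D)
    have h4 := star_central hw w
    rw [mul_add, mul_add, add_mul, add_mul, add_mul, add_mul, hw (e : D), h3, h4]
    abel
  rw [cay, star_mul, star_inv₀, star_add, star_add, star_star, star_coe, ← mul_assoc,
    mul_assoc (((e : D) + w)⁻¹), ← hc, ← mul_assoc, inv_mul_cancel₀ h2, one_mul,
    mul_inv_cancel₀ h1]

/-- Every unitary element other than one is a Cayley transform. -/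
theorem exists_cay (hst : ∀ (a : F) (x : D), star (a • x) = a • star x)
    (hw : ∀ x, w * x = x * w) (hw' : star w ≠ w) {g : D} (hg : star g * g = 1)
    (hg1 : g ≠ 1) : ∃ e : symF F D hst, g = cay w (e : D) := by
  have h1 : 1 - g ≠ 0 := fun h => hg1 (sub_eq_zero.mp h).symm
  have hgu : g ≠ 0 := by
    rintro rfl
    rw [mul_zero] at hg
    exact zero_ne_one hg
  have hsg : star g = g⁻¹ := eq_inv_of_mul_eq_one_left hg
  set e : D := (1 - g)⁻¹ * (g * star w - w) with he
  have hmul : (1 - g) * e = g * star w - w := by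
    rw [he, mul_inv_cancel_left₀ h1]
  have hsw := star_central hw
  have hq : Commute (1 - g) (g * star w - w) := by
    have h2 : Commute g (star w) := (hsw g).symm
    have h3 : Commute g w := (hw g).symm
    exact (((Commute.refl g).mul_right h2).sub_right h3 |>.neg_left.add_left
      (Commute.one_left _) |> fun h => by
        have h4 : -g + 1 = 1 - g := by abel
        rwa [h4] at h)
  have hse : star e = e := by
    have h2 : star (1 - g) = 1 - g⁻¹ := by rw [star_sub, star_one, hsg]
    have h3 : star (1 - g) ≠ 0 := by rwa [Ne, star_eq_zero]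
    have h4 : star e = (w * g⁻¹ - star w) * (star (1 - g))⁻¹ := by
      rw [he, star_mul, star_inv₀, star_sub (g * star w), star_mul, star_star, hsg]
    rw [h4, mul_inv_eq_iff_eq_mul₀ h3, h2]
    have h5 : 1 - g⁻¹ = (1 - g) * (-g⁻¹) := by
      rw [sub_mul, one_mul, mul_neg, mul_inv_cancel₀ hgu]
      abel
    have h6 : e * (1 - g) = g * star w - w := by
      rw [he, mul_assoc, ← hq.eq, inv_mul_cancel_left₀ h1]
    rw [h5, ← mul_assoc, h6, mul_neg, sub_mul, mul_assoc, hsw, mul_inv_cancel_left₀ hgu, neg_sub]
  refine ⟨⟨e, hse⟩, ?_⟩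
  have h6 : e + star w ≠ 0 := add_star_ne_zero_of_sym (hst := hst) hw' ⟨e, hse⟩
  have h7 := hmul
  rw [sub_mul, one_mul, sub_eq_sub_iff_add_eq_add] at h7
  change g = (e + w) * (e + star w)⁻¹
  rw [eq_mul_inv_iff_mul_eq₀ h6, mul_add, h7, add_comm]

theorem cay_inj (hw' : star w ≠ w) {e e' : symF F D hst}
    (h : cay w (e : D) = cay w (e' : D)) : e = e' := by
  have h1 := cay_sub_one hw' e
  rw [h, cay_sub_one hw' e'] at h1
  have h2 : w - star w ≠ 0 := fun h => hw' (sub_eq_zero.mp h).symm
  have h3 := inv_injective (mul_left_cancel₀ h2 h1)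
  exact Subtype.ext (add_right_cancel h3).symm

variable {G : Type*} [Group G] {ι : G →* D}

theorem isPolyMap_add_const (a : D) :
    IsPolyMap F fun e : symF F D hst => (e : D) + a :=
  (isPolyMap_linear (symF F D hst).subtype).add (isPolyMap_const a)

/-- **The Cayley chart** of a group with a faithful homomorphism onto the unitary elements. -/
theorem chart_cay (hst : ∀ (a : F) (x : D), star (a • x) = a • star x)
    (hw : ∀ x, w * x = x * w) (hw' : star w ≠ w) (hinj : Function.Injective ι)
    (hG : ∀ x : D, (∃ g, ι g = x) ↔ star x * x = 1) :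
    Chart (F := F) (E := symF F D hst) ι (fun e => (e : D) + w) (fun e => (e : D) + star w) where
  inj := hinj
  polyα := isPolyMap_add_const w
  polyβ := isPolyMap_add_const (star w)
  ne := fun e => add_star_ne_zero_of_sym hw' e
  mem := fun e => by
    obtain ⟨g, hg⟩ := (hG (cay w (e : D))).mpr (star_cay_mul hw hw' e)
    refine ⟨g, fun h1 => ?_, hg⟩
    have h2 := cay_sub_one hw' e
    rw [← hg, h1, map_one, sub_self, eq_comm, mul_eq_zero] at h2
    rcases h2 with h2 | h2
    · exact hw' (sub_eq_zero.mp h2).symm
    · exact inv_ne_zero (add_star_ne_zero_of_sym hw' e) h2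
  surj := fun g hg => exists_cay hst hw hw' ((hG (ι g)).mp ⟨g, rfl⟩)
    fun h => hg (hinj (h.trans (map_one ι).symm))
  uinj := fun _ _ h => cay_inj hw' h

/-- A subalgebra of finite dimension of a division algebra is closed under inverses. -/
theorem inv_mem_of_subalgebra [FiniteDimensional F D] (T : Subalgebra F D) {x : D} (hx : x ∈ T) :
    x⁻¹ ∈ T := by
  by_cases hx0 : x = 0
  · rw [hx0, inv_zero]
    exact T.zero_mem
  have h1 : Function.Injective (LinearMap.mulLeft F (⟨x, hx⟩ : T)) := by
    intro y z h
    have h2 : x * (y : D) = x * z := congrArg Subtype.val h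
    exact Subtype.ext (mul_left_cancel₀ hx0 h2)
  obtain ⟨y, hy⟩ := (LinearMap.injective_iff_surjective.mp h1) 1
  have h2 : x * (y : D) = 1 := congrArg Subtype.val hy
  rw [inv_eq_of_mul_eq_one_right h2]
  exact y.2

/-- The unitary elements span the algebra. -/
theorem span_unitary [FiniteDimensional F D] (hst : ∀ (a : F) (x : D), star (a • x) = a • star x)
    (hw : ∀ x, w * x = x * w) (hw' : star w ≠ w)
    (hG : ∀ x : D, (∃ g, ι g = x) ↔ star x * x = 1) :
    Submodule.span F (Set.range ι) = ⊤ := by
  have hspan : ∀ x, x ∈ Submodule.span F (Set.range ι) ↔ x ∈ Algebra.adjoin F (Set.range ι) := by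
    have h1 : Submonoid.closure (Set.range ι) = MonoidHom.mrange ι := by
      have : (Set.range ι) = (MonoidHom.mrange ι : Set D) := rfl
      rw [this, Submonoid.closure_eq]
    intro x
    rw [← Subalgebra.mem_toSubmodule, Algebra.adjoin_eq_span, h1]
    rfl
  rw [eq_top_iff]
  rintro x -
  rw [hspan]
  set T := Algebra.adjoin F (Set.range ι) with hT
  have h2 : w - star w ≠ 0 := fun h => hw' (sub_eq_zero.mp h).symm
  have hu : ∀ e : symF F D hst, cay w (e : D) ∈ T := fun e => by
    obtain ⟨g, hg⟩ := (hG (cay w (e : D))).mpr (star_cay_mul hw hw' e)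
    rw [← hg]
    exact Algebra.subset_adjoin ⟨g, rfl⟩
  have h3 : ∀ e : symF F D hst, ((e : D) + star w) * (w - star w)⁻¹ ∈ T := fun e => by
    have h4 : cay w (e : D) - 1 ∈ T := sub_mem (hu e) (one_mem T)
    rw [cay_sub_one hw' e] at h4
    have h5 := inv_mem_of_subalgebra T h4
    rwa [mul_inv_rev, inv_inv] at h5
  have h4 : ∀ e : symF F D hst, (e : D) * (w - star w)⁻¹ ∈ T := fun e => by
    have h5 := sub_mem (h3 e) (h3 0)
    rwa [← sub_mul, add_sub_add_right_eq_sub, ZeroMemClass.coe_zero, sub_zero] at h5
  have h5 : w - star w ∈ T := by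
    have h6 := inv_mem_of_subalgebra T (h4 ⟨1, star_one D⟩)
    rwa [one_mul, inv_inv] at h6
  have h6 : ∀ e : symF F D hst, (e : D) ∈ T := fun e => by
    have h7 := mul_mem (h4 e) h5
    rwa [inv_mul_cancel_right₀ h2] at h7
  have h7 : star w ∈ T := by
    have h8 := mul_mem (h3 0) h5
    rwa [inv_mul_cancel_right₀ h2, ZeroMemClass.coe_zero, zero_add] at h8
  have h8 : w ∈ T := by
    have := add_mem h5 h7
    rwa [sub_add_cancel] at this
  -- `x = (x - w e) + w e`
  have hc := star_central hw
  have hcd : ∀ y : D, (w - star w)⁻¹ * y = y * (w - star w)⁻¹ := fun y => by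
    have h9 : Commute (w - star w) y := by
      rw [Commute, SemiconjBy, sub_mul, mul_sub, hw, hc]
    exact (h9.inv_left₀).eq
  obtain ⟨e, he⟩ : ∃ e : D, e = (x - star x) * (w - star w)⁻¹ := ⟨_, rfl⟩
  have hes : star e = e := by
    have h9 : star (w - star w) = -(w - star w) := by rw [star_sub, star_star, neg_sub]
    rw [he, star_mul, star_inv₀, h9, star_sub, star_star, inv_neg, neg_mul, hcd, ← neg_mul, neg_sub]
  have hem : e * (w - star w) = x - star x := by rw [he, inv_mul_cancel_right₀ h2]
  have hs : star (x - w * e) = x - w * e := by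
    rw [star_sub, star_mul, hes, ← hc, sub_eq_sub_iff_sub_eq_sub, ← neg_inj, neg_sub, ← hem, neg_sub,
      ← sub_mul, mul_sub, ← hw e, ← hc e, sub_mul]
  have h9 : x = (x - w * e) + w * e := by rw [sub_add_cancel]
  rw [h9]
  exact add_mem (h6 ⟨_, hs⟩) (mul_mem h8 (h6 ⟨e, hes⟩))

/-- The skew part divided by `w - star w`. -/
noncomputable def skw (hst : ∀ (a : F) (x : D), star (a • x) = a • star x)
    (hw : ∀ x, w * x = x * w) : D →ₗ[F] symF F D hst where
  toFun x := ⟨(x - star x) * (w - star w)⁻¹, by
    have hc := star_central hw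
    have hcd : ∀ y : D, (w - star w)⁻¹ * y = y * (w - star w)⁻¹ := fun y => by
      have h9 : Commute (w - star w) y := by
        rw [Commute, SemiconjBy, sub_mul, mul_sub, hw, hc]
      exact (h9.inv_left₀).eq
    have h9 : star (w - star w) = -(w - star w) := by rw [star_sub, star_star, neg_sub]
    rw [mem_symF, star_mul, star_inv₀, h9, star_sub, star_star, inv_neg, neg_mul, hcd, ← neg_mul,
      neg_sub]⟩
  map_add' x y := Subtype.ext (by
    simp only [star_add, Submodule.coe_add]
    rw [← add_mul]
    congr 1
    abel)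
  map_smul' a x := Subtype.ext (by
    simp only [hst, RingHom.id_apply, Submodule.coe_smul]
    rw [← smul_sub, smul_mul_assoc])

theorem skw_coe (hst : ∀ (a : F) (x : D), star (a • x) = a • star x)
    (hw : ∀ x, w * x = x * w) (x : D) :
    (skw hst hw x : D) = (x - star x) * (w - star w)⁻¹ := rfl

theorem skw_surj (hst : ∀ (a : F) (x : D), star (a • x) = a • star x)
    (hw : ∀ x, w * x = x * w) (hw' : star w ≠ w) : Function.Surjective (skw hst hw) := by
  intro e
  refine ⟨w * e, Subtype.ext ?_⟩
  have h2 : w - star w ≠ 0 := fun h => hw' (sub_eq_zero.mp h).symm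
  rw [skw_coe, star_mul, star_coe, mul_inv_eq_iff_eq_mul₀ h2, mul_sub, hw]

/-- **Elements of given colour in general position.** `G` is the unitary group of a division
algebra `D` with involution, of finite dimension over an infinite field `F` of symmetric elements,
`w` a central element which is not symmetric, `c` a homomorphism from `G` to a finite group. For
every `t₀` there is a sequence of elements `t i` of the same colour as `t₀` such that of the
symmetric elements `(t i - (t i)⁻¹) / (w - star w)` any `N` are linearly independent over `F`, where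
`N` is the dimension of the space of symmetric elements. -/
theorem exists_colour_seq [Infinite F] [FiniteDimensional F D]
    (hst : ∀ (a : F) (x : D), star (a • x) = a • star x)
    (hw : ∀ x, w * x = x * w) (hw' : star w ≠ w) (hinj : Function.Injective ι)
    (hG : ∀ x : D, (∃ g, ι g = x) ↔ star x * x = 1) {R : Type*} [Group R] [Finite R]
    (c : G →* R) (t₀ : G) :
    ∃ t : ℕ → G, (∀ i, c (t i) = c t₀) ∧ ∀ s : Finset ℕ, s.card ≤ finrank F (symF F D hst) →
      LinearIndepOn F (fun i => (ι (t i) - star (ι (t i))) * (w - star w)⁻¹) s := by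
  have hchart := chart_cay hst hw hw' hinj hG
  have hsp : Submodule.span F (Set.range fun g => skw hst hw (ι g)) = ⊤ := by
    have h1 : (Set.range fun g => skw hst hw (ι g)) = (skw hst hw) '' (Set.range ι) := by
      rw [← Set.range_comp]
      rfl
    rw [h1, Submodule.span_image, span_unitary hst hw hw' hG, Submodule.map_top,
      LinearMap.range_eq_top.mpr (skw_surj hst hw hw')]
  obtain ⟨t, ht, hs⟩ := hchart.exists_seq c t₀ (Module.finBasis F (symF F D hst))
    (S := fun _ => Set.univ) (fun _ => Set.infinite_univ) Set.univ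
    (fun e _ => by
      obtain ⟨g, -, hg⟩ := hchart.mem e
      exact ⟨g, Set.mem_univ _, hg⟩) (skw hst hw) hsp
  refine ⟨t, fun i => ?_, fun s hcard => ?_⟩
  · obtain ⟨x, -, y, -, hxy, h⟩ := ht i
    rw [h, map_mul, map_mul, map_inv, hxy, inv_mul_cancel_right]
  · exact (hs s hcard).map_injOn (symF F D hst).subtype Subtype.val_injective.injOn

/-- The version with a local condition: `W` is a set of group elements which contains the Cayley
transforms of a box with infinite sides; the elements are of the form `t₀ x⁻¹ y` with `x` and `y`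
of the same colour in `W`. -/
theorem exists_colour_seq_near [Infinite F] [FiniteDimensional F D]
    (hst : ∀ (a : F) (x : D), star (a • x) = a • star x)
    (hw : ∀ x, w * x = x * w) (hw' : star w ≠ w) (hinj : Function.Injective ι)
    (hG : ∀ x : D, (∃ g, ι g = x) ↔ star x * x = 1) {R : Type*} [Group R] [Finite R]
    (c : G →* R) (t₀ : G) {o : Type*} [Finite o] (b : Basis o F (symF F D hst)) {S : o → Set F}
    (hS : ∀ i, (S i).Infinite) (W : Set G)
    (hW : ∀ e, (∀ i, b.repr e i ∈ S i) → ∃ g ∈ W, ι g = cay w (e : D)) :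
    ∃ t : ℕ → G, (∀ i, c (t i) = c t₀ ∧ ∃ x ∈ W, ∃ y ∈ W, c x = c y ∧ t i = t₀ * x⁻¹ * y) ∧
      ∀ s : Finset ℕ, s.card ≤ finrank F (symF F D hst) →
      LinearIndepOn F (fun i => (ι (t i) - star (ι (t i))) * (w - star w)⁻¹) s := by
  have hchart := chart_cay hst hw hw' hinj hG
  have hsp : Submodule.span F (Set.range fun g => skw hst hw (ι g)) = ⊤ := by
    have h1 : (Set.range fun g => skw hst hw (ι g)) = (skw hst hw) '' (Set.range ι) := by
      rw [← Set.range_comp]
      rfl
    rw [h1, Submodule.span_image, span_unitary hst hw hw' hG, Submodule.map_top,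
      LinearMap.range_eq_top.mpr (skw_surj hst hw hw')]
  obtain ⟨t, ht, hs⟩ := hchart.exists_seq c t₀ b hS W hW (skw hst hw) hsp
  refine ⟨t, fun i => ⟨?_, ht i⟩, fun s hcard => ?_⟩
  · obtain ⟨x, -, y, -, hxy, h⟩ := ht i
    rw [h, map_mul, map_mul, map_inv, hxy, inv_mul_cancel_right]
  · exact (hs s hcard).map_injOn (symF F D hst).subtype Subtype.val_injective.injOn

end sym

end Vale.Agent.P011.H21
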