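import Vale.Agent.P011.H21.CayChart

/-!
The gauge of a finite dimensional division algebra attached to an absolute value of the ground
field and a basis.
-/

open Module

set_option linter.unusedSectionVars false

namespace Vale.Agent.P011.H21

section gauge

variable {F D : Type*} [Field F] [DivisionRing D] [Algebra F D] {o : Type*} [Fintype o]

/-- The gauge. -/
noncomputable def gg (b : Basis o F D) (a : AbsoluteValue F ℝ) (x : D) : ℝ :=
  ∑ j, a (b.repr x j)

variable (b : Basis o F D) (a : AbsoluteValue F ℝ)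

theorem gg_nonneg (x : D) : 0 ≤ gg b a x := Finset.sum_nonneg fun _ _ => a.nonneg _

theorem coord_le_gg (x : D) (j : o) : a (b.repr x j) ≤ gg b a x :=
  Finset.single_le_sum (f := fun j => a (b.repr x j)) (fun _ _ => a.nonneg _) (Finset.mem_univ j)

theorem gg_zero : gg b a 0 = 0 := by simp [gg]

theorem gg_add (x y : D) : gg b a (x + y) ≤ gg b a x + gg b a y := by
  rw [gg, gg, gg, ← Finset.sum_add_distrib]
  refine Finset.sum_le_sum fun j _ => ?_
  rw [map_add, Finsupp.add_apply]
  exact a.add_le _ _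

theorem gg_neg (x : D) : gg b a (-x) = gg b a x := by
  simp [gg]

theorem gg_sub (x y : D) : gg b a (x - y) ≤ gg b a x + gg b a y := by
  rw [sub_eq_add_neg, ← gg_neg b a y]
  exact gg_add b a _ _

theorem gg_sub_comm (x y : D) : gg b a (x - y) = gg b a (y - x) := by
  rw [← gg_neg, neg_sub]

theorem gg_smul (r : F) (x : D) : gg b a (r • x) = a r * gg b a x := by
  rw [gg, gg, Finset.mul_sum]
  refine Finset.sum_congr rfl fun j _ => ?_
  rw [map_smul, Finsupp.smul_apply, smul_eq_mul, map_mul]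

theorem gg_sum {κ : Type*} (s : Finset κ) (f : κ → D) :
    gg b a (∑ i ∈ s, f i) ≤ ∑ i ∈ s, gg b a (f i) := by
  classical
  induction s using Finset.induction_on with
  | empty => simp [gg_zero]
  | insert i s hi ih =>
    rw [Finset.sum_insert hi, Finset.sum_insert hi]
    exact (gg_add b a _ _).trans (by linarith)

theorem eq_zero_of_gg {x : D} (h : gg b a x = 0) : x = 0 := by
  apply b.repr.injective
  ext j
  rw [map_zero, Finsupp.zero_apply]
  have h1 := coord_le_gg b a x j
  rw [h] at h1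
  exact (a.eq_zero).mp (le_antisymm h1 (a.nonneg _))

/-- The gauge is submultiplicative up to a constant. -/
theorem exists_gg_mul : ∃ C : ℝ, 1 ≤ C ∧ ∀ x y, gg b a (x * y) ≤ C * gg b a x * gg b a y := by
  refine ⟨1 + ∑ i, ∑ j, gg b a (b i * b j), ?_, fun x y => ?_⟩
  · have : 0 ≤ ∑ i, ∑ j, gg b a (b i * b j) :=
      Finset.sum_nonneg fun _ _ => Finset.sum_nonneg fun _ _ => gg_nonneg b a _
    linarith
  · have h1 : x * y = ∑ i, ∑ j, (b.repr x i * b.repr y j) • (b i * b j) := by
      conv_lhs => rw [← b.sum_repr x, ← b.sum_repr y, Finset.sum_mul_sum]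
      simp_rw [smul_mul_smul_comm]
    have h2 : ∀ i j, gg b a (b i * b j) ≤ 1 + ∑ i, ∑ j, gg b a (b i * b j) := fun i j => by
      have h3 : gg b a (b i * b j) ≤ ∑ j, gg b a (b i * b j) :=
        Finset.single_le_sum (f := fun j => gg b a (b i * b j)) (fun _ _ => gg_nonneg b a _)
          (Finset.mem_univ j)
      have h4 : ∑ j, gg b a (b i * b j) ≤ ∑ i, ∑ j, gg b a (b i * b j) :=
        Finset.single_le_sum (f := fun i => ∑ j, gg b a (b i * b j))
          (fun _ _ => Finset.sum_nonneg fun _ _ => gg_nonneg b a _) (Finset.mem_univ i)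
      linarith
    calc gg b a (x * y) ≤ ∑ i, ∑ j, gg b a ((b.repr x i * b.repr y j) • (b i * b j)) := by
          rw [h1]
          exact (gg_sum b a _ _).trans (Finset.sum_le_sum fun i _ => gg_sum b a _ _)
      _ ≤ ∑ i, ∑ j, (a (b.repr x i) * a (b.repr y j)) *
            (1 + ∑ i, ∑ j, gg b a (b i * b j)) := by
          refine Finset.sum_le_sum fun i _ => Finset.sum_le_sum fun j _ => ?_
          rw [gg_smul, map_mul]
          exact mul_le_mul_of_nonneg_left (h2 i j) (mul_nonneg (a.nonneg _) (a.nonneg _))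
      _ = (1 + ∑ i, ∑ j, gg b a (b i * b j)) * gg b a x * gg b a y := by
          simp_rw [← Finset.sum_mul]
          rw [← Finset.sum_mul_sum, ← gg, ← gg]
          ring

/-- Inverses near one. -/
theorem gg_inv {C : ℝ} (hC : ∀ x y, gg b a (x * y) ≤ C * gg b a x * gg b a y)
    {x : D} (hx : C * gg b a x ≤ 1 / 2) :
    1 - x ≠ 0 ∧ gg b a (1 - x)⁻¹ ≤ 2 * gg b a 1 := by
  have h0 : 1 - x ≠ 0 := by
    intro h
    have h1 : x = 1 := (sub_eq_zero.mp h).symm
    rw [h1] at hx
    have h2 := hC 1 1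
    rw [mul_one] at h2
    have h3 := gg_nonneg b a 1
    have h4 : gg b a 1 = 0 := by
      nlinarith
    exact one_ne_zero (eq_zero_of_gg b a h4)
  refine ⟨h0, ?_⟩
  have h1 : (1 - x)⁻¹ = 1 + x * (1 - x)⁻¹ := by
    have h2 : (1 - x) * (1 - x)⁻¹ = 1 := mul_inv_cancel₀ h0
    rw [sub_mul, one_mul, sub_eq_iff_eq_add] at h2
    exact h2
  have h2 := gg_add b a 1 (x * (1 - x)⁻¹)
  rw [← h1] at h2
  have h3 := hC x (1 - x)⁻¹
  have h4 := gg_nonneg b a (1 - x)⁻¹
  nlinarith

/-- Unitary (or any) elements near one: the inverse. -/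
theorem gg_inv' {C : ℝ} (hC : ∀ x y, gg b a (x * y) ≤ C * gg b a x * gg b a y)
    {x : D} (hx : C * gg b a (x - 1) ≤ 1 / 2) :
    x ≠ 0 ∧ gg b a x⁻¹ ≤ 2 * gg b a 1 := by
  have h1 := gg_inv b a hC (x := 1 - x) (by rwa [gg_sub_comm])
  rwa [sub_sub_cancel] at h1

end gauge

end Vale.Agent.P011.H21
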