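import Vale.Agent.P011.H21.PolyFun

/-!
General position in a colour class.

`D` is a division algebra of finite dimension over an infinite field `F` (any characteristic), `G`
a group with a faithful homomorphism `ι` to `D` whose elements `≠ 1` are parametrised by a vector
space `E` through `u e = α e * (β e)⁻¹` with polynomial maps `α`, `β` (the Cayley chart), and
`c` a homomorphism from `G` to a finite group. A finite number of polynomial conditions, none of
which fails on the whole of `G`, can be satisfied by an element of given colour, also in a given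
open set.
-/

open Module

set_option linter.unusedSectionVars false

namespace Vale.Agent.P011.H21

section rat

variable {F : Type*} [Field F] {E : Type*} [AddCommGroup E] [Module F E] {D : Type*}
  [DivisionRing D] [Algebra F D]

/-- Rational functions whose denominator is a power of the norm of `β`. -/
def RatFun (β : E → D) (φ : E → F) : Prop :=
  ∃ d : ℕ, (fun e => nf F (β e) ^ d * φ e) ∈ PolyFun F E

variable [FiniteDimensional F D] {β : E → D}

theorem nfβ_mem (hβ : IsPolyMap F β) : (fun e => nf F (β e)) ∈ PolyFun F E :=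
  hβ.comp_mem (exists_adj F D).1

theorem RatFun.of_poly {φ : E → F} (hφ : φ ∈ PolyFun F E) : RatFun β φ :=
  ⟨0, by simpa using hφ⟩

theorem RatFun.mul {φ ψ : E → F} (hφ : RatFun β φ) (hψ : RatFun β ψ) :
    RatFun β fun e => φ e * ψ e := by
  obtain ⟨d, hd⟩ := hφ
  obtain ⟨d', hd'⟩ := hψ
  refine ⟨d + d', ?_⟩
  have : (fun e => nf F (β e) ^ (d + d') * (φ e * ψ e)) =
      (fun e => nf F (β e) ^ d * φ e) * fun e => nf F (β e) ^ d' * ψ e := by
    funext e
    simp only [Pi.mul_apply]
    ring
  rw [this]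
  exact mul_mem hd hd'

theorem RatFun.add (hβ : IsPolyMap F β) {φ ψ : E → F} (hφ : RatFun β φ) (hψ : RatFun β ψ) :
    RatFun β fun e => φ e + ψ e := by
  obtain ⟨d, hd⟩ := hφ
  obtain ⟨d', hd'⟩ := hψ
  refine ⟨d + d', ?_⟩
  have : (fun e => nf F (β e) ^ (d + d') * (φ e + ψ e)) =
      (fun e => nf F (β e)) ^ d' * (fun e => nf F (β e) ^ d * φ e) +
      (fun e => nf F (β e)) ^ d * (fun e => nf F (β e) ^ d' * ψ e) := by
    funext e
    simp only [Pi.mul_apply, Pi.add_apply, Pi.pow_apply]
    ring
  rw [this]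
  exact add_mem (mul_mem (pow_mem (nfβ_mem hβ) _) hd) (mul_mem (pow_mem (nfβ_mem hβ) _) hd')

/-- The composite of a polynomial function with `h * (α e * (β e)⁻¹)`. -/
theorem RatFun.comp {α : E → D} (hα : IsPolyMap F α) (hβ : IsPolyMap F β) (hβ0 : ∀ e, β e ≠ 0)
    (h : D) {P : D → F} (hP : P ∈ PolyFun F D) :
    RatFun β fun e => P (h * (α e * (β e)⁻¹)) := by
  induction hP using Algebra.adjoin_induction with
  | mem P hP =>
    obtain ⟨l, rfl⟩ := hP
    obtain ⟨ad, had, hadx⟩ := (exists_adj F D).2
    refine ⟨1, ?_⟩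
    have h1 : ∀ e, nf F (β e) • (β e)⁻¹ = ad (β e) := by
      intro e
      have := hadx (β e)
      calc nf F (β e) • (β e)⁻¹ = (β e)⁻¹ * algebraMap F D (nf F (β e)) := by
            rw [Algebra.smul_def, Algebra.commutes]
        _ = ad (β e) := by rw [← this, ← mul_assoc, inv_mul_cancel₀ (hβ0 e), one_mul]
    have h2 : (fun e => nf F (β e) ^ 1 * l (h * (α e * (β e)⁻¹))) =
        fun e => l (h * (α e * ad (β e))) := by
      funext e
      rw [pow_one, ← smul_eq_mul, ← map_smul, ← mul_smul_comm, ← mul_smul_comm, h1]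
    rw [h2]
    have h3 : IsPolyMap F fun e => ad (β e) := fun l => hβ.comp_mem (had l)
    exact ((isPolyMap_const h).mul (hα.mul h3)) l
  | algebraMap a => exact RatFun.of_poly (const_mem a)
  | add f g _ _ hf hg => exact hf.add hβ hg
  | mul f g _ _ hf hg => exact hf.mul hg

/-- Finitely many rational functions, none of which is zero, do not all fail on a box. -/
theorem exists_ne_of_ratFun (hβ0 : ∀ e, β e ≠ 0) {ι κ : Type*} [Finite ι] (b : Basis ι F E)
    {S : ι → Set F} (hS : ∀ i, (S i).Infinite) (s : Finset κ) (φ : κ → E → F)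
    (hφ : ∀ j ∈ s, RatFun β (φ j)) (hne : ∀ j ∈ s, ∃ e, φ j e ≠ 0) :
    ∃ e, (∀ i, b.repr e i ∈ S i) ∧ ∀ j ∈ s, φ j e ≠ 0 := by
  by_contra hcon
  push Not at hcon
  choose! d hd using hφ
  obtain ⟨j, hj, h0⟩ := eq_zero_of_prod b hS s (fun j e => nf F (β e) ^ d j * φ j e) hd
    (fun e he => by
      obtain ⟨j, hj, h⟩ := hcon e he
      exact Finset.prod_eq_zero hj (by simp [h]))
  obtain ⟨e, he⟩ := hne j hj
  exact he ((mul_eq_zero.mp (h0 e)).resolve_left (pow_ne_zero _ (nf_ne_zero (hβ0 e))))

end rat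

section chart

variable {F : Type*} [Field F] {E : Type*} [AddCommGroup E] [Module F E] {D : Type*}
  [DivisionRing D] [Algebra F D] {G : Type*} [Group G]

/-- A rational chart of the nontrivial elements of the group `G`. -/
structure Chart (ι : G →* D) (α β : E → D) : Prop where
  /-- faithful -/
  inj : Function.Injective ι
  /-- the numerator is polynomial -/
  polyα : IsPolyMap F α
  /-- the denominator is polynomial -/
  polyβ : IsPolyMap F β
  /-- the denominator does not vanish -/
  ne : ∀ e, β e ≠ 0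
  /-- the values are nontrivial elements -/
  mem : ∀ e, ∃ g : G, g ≠ 1 ∧ ι g = α e * (β e)⁻¹
  /-- all nontrivial elements occur -/
  surj : ∀ g : G, g ≠ 1 → ∃ e, ι g = α e * (β e)⁻¹
  /-- injectivity -/
  uinj : ∀ e e', α e * (β e)⁻¹ = α e' * (β e')⁻¹ → e = e'

variable {ι : G →* D} {α β : E → D}

variable [FiniteDimensional F D] [FiniteDimensional F E] [Infinite F] [Nontrivial E]

/-- A polynomial function which does not vanish on `G` does not vanish on `G` without a point. -/
theorem Chart.exists_ne (h : Chart (F := F) ι α β) {P : D → F} (hP : P ∈ PolyFun F D)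
    (hne : ∃ g, P (ι g) ≠ 0) (g₁ : G) : ∃ g, g ≠ g₁ ∧ P (ι g) ≠ 0 := by
  obtain ⟨g, hg⟩ := hne
  by_cases hgg : g = g₁
  swap
  · exact ⟨g, hgg, hg⟩
  subst hgg
  obtain ⟨x, hx1, -⟩ := h.mem 0
  obtain ⟨e₀, he₀⟩ := h.surj x⁻¹ (inv_ne_one.mpr hx1)
  obtain ⟨v, hv⟩ := _root_.exists_ne (0 : E)
  obtain ⟨l, hl⟩ : ∃ l : E →ₗ[F] F, l v ≠ 0 := by
    by_contra hcon
    push Not at hcon
    exact hv ((Module.forall_dual_apply_eq_zero_iff F v).mp hcon)
  have h1 := exists_ne_of_ratFun (β := β) h.ne (Module.finBasis F E) (S := fun _ => Set.univ)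
    (fun _ => Set.infinite_univ) (Finset.univ : Finset Bool)
    (fun j => if j then fun e => P (ι (g * x) * (α e * (β e)⁻¹)) else fun e => l e - l e₀)
    (fun j _ => by
      cases j
      · simp only [Bool.false_eq_true, if_false]
        exact RatFun.of_poly (sub_mem (linear_mem l) (const_mem _))
      · simp only [if_true]
        exact RatFun.comp h.polyα h.polyβ h.ne _ hP)
    (fun j _ => by
      cases j
      · simp only [Bool.false_eq_true, if_false]
        exact ⟨e₀ + v, by simpa using hl⟩
      · simp only [if_true]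
        exact ⟨e₀, by rw [← he₀, ← map_mul, mul_inv_cancel_right]; exact hg⟩)
  obtain ⟨e, -, he⟩ := h1
  have h2 := he true (Finset.mem_univ _)
  have h3 := he false (Finset.mem_univ _)
  simp only [if_true] at h2
  simp only [Bool.false_eq_true, if_false] at h3
  obtain ⟨y, -, hy⟩ := h.mem e
  refine ⟨g * x * y, fun h4 => h3 ?_, ?_⟩
  · have h5 : y = x⁻¹ := by
      have : g * (x * y) = g * 1 := by rw [← mul_assoc, h4, mul_one]
      exact eq_inv_of_mul_eq_one_right (mul_left_cancel this)
    have h6 : e = e₀ := h.uinj _ _ (by rw [← hy, ← he₀, h5])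
    rw [h6, sub_self]
  · rw [map_mul, hy]
    exact h2

/-- **General position.** Among the elements `t₀ x⁻¹ y`, with `x` and `y` of the same colour in a
set which contains the image of a box with infinite sides, there is one at which finitely many
given polynomial functions, none of which vanishes on `G`, do not vanish. -/
theorem Chart.genpos (h : Chart (F := F) ι α β) {R : Type*} [Group R] [Finite R] (c : G →* R)
    (t₀ : G) {o : Type*} [Finite o] (b : Basis o F E) {S : o → Set F}
    (hS : ∀ i, (S i).Infinite) (W : Set G)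
    (hW : ∀ e, (∀ i, b.repr e i ∈ S i) → ∃ g ∈ W, ι g = α e * (β e)⁻¹)
    {κ : Type*} [Finite κ] (P : κ → D → F) (hP : ∀ j, P j ∈ PolyFun F D)
    (hne : ∀ j, ∃ g : G, P j (ι g) ≠ 0) :
    ∃ x ∈ W, ∃ y ∈ W, c x = c y ∧ ∀ j, P j (ι (t₀ * x⁻¹ * y)) ≠ 0 := by
  classical
  have := Fintype.ofFinite R
  have := Fintype.ofFinite κ
  have hsec : ∀ r : c '' W, ∃ x ∈ W, c x = r := fun r => r.2
  choose s hsW hs using hsec
  have := Fintype.ofFinite (c '' W)
  obtain ⟨e, heS, he⟩ := exists_ne_of_ratFun (β := β) h.ne b hS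
    (Finset.univ : Finset (κ × (c '' W)))
    (fun j e => P j.1 (ι (t₀ * (s j.2)⁻¹) * (α e * (β e)⁻¹)))
    (fun j _ => RatFun.comp h.polyα h.polyβ h.ne _ (hP j.1))
    (fun j _ => by
      obtain ⟨g, hg1, hg⟩ := h.exists_ne (hP j.1) (hne j.1) (t₀ * (s j.2)⁻¹)
      obtain ⟨e, he⟩ := h.surj ((t₀ * (s j.2)⁻¹)⁻¹ * g) (fun h1 => hg1 (by
        rw [← mul_one (t₀ * (s j.2)⁻¹), ← h1, mul_inv_cancel_left]))
      exact ⟨e, by rw [← he, ← map_mul, mul_inv_cancel_left]; exact hg⟩)
  obtain ⟨y, hyW, hy⟩ := hW e heS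
  refine ⟨s ⟨c y, Set.mem_image_of_mem c hyW⟩, hsW _, y, hyW, hs _, fun j => ?_⟩
  rw [map_mul, hy]
  exact he (j, ⟨c y, Set.mem_image_of_mem c hyW⟩) (Finset.mem_univ _)

/-- **General position without local conditions.** -/
theorem Chart.genpos' (h : Chart (F := F) ι α β) {R : Type*} [Group R] [Finite R] (c : G →* R)
    (t₀ : G) {κ : Type*} [Finite κ] (P : κ → D → F) (hP : ∀ j, P j ∈ PolyFun F D)
    (hne : ∀ j, ∃ g : G, P j (ι g) ≠ 0) : ∃ t, c t = c t₀ ∧ ∀ j, P j (ι t) ≠ 0 := by
  obtain ⟨x, -, y, -, hxy, hj⟩ := h.genpos c t₀ (Module.finBasis F E)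
    (S := fun _ => Set.univ) (fun _ => Set.infinite_univ) Set.univ
    (fun e _ => by
      obtain ⟨g, -, hg⟩ := h.mem e
      exact ⟨g, Set.mem_univ _, hg⟩) P hP hne
  refine ⟨t₀ * x⁻¹ * y, ?_, hj⟩
  rw [map_mul, map_mul, map_inv, hxy, inv_mul_cancel_right]

/-- **A sequence of elements in general position.** `π` is a linear map on `D` such that `π(G)`
spans its target. There is a sequence of elements `t₀ x⁻¹ y`, with `x` and `y` of the same colour
in `W`, such that any `N = dim V` of the `π(t i)` are linearly independent. -/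
theorem Chart.exists_seq (h : Chart (F := F) ι α β) {R : Type*} [Group R] [Finite R] (c : G →* R)
    (t₀ : G) {o : Type*} [Finite o] (b : Basis o F E) {S : o → Set F}
    (hS : ∀ i, (S i).Infinite) (W : Set G)
    (hW : ∀ e, (∀ i, b.repr e i ∈ S i) → ∃ g ∈ W, ι g = α e * (β e)⁻¹)
    {V : Type*} [AddCommGroup V] [Module F V] [FiniteDimensional F V] (π : D →ₗ[F] V)
    (hπ : Submodule.span F (Set.range fun g => π (ι g)) = ⊤) :
    ∃ t : ℕ → G, (∀ i, ∃ x ∈ W, ∃ y ∈ W, c x = c y ∧ t i = t₀ * x⁻¹ * y) ∧
      ∀ s : Finset ℕ, s.card ≤ finrank F V → LinearIndepOn F (fun i => π (ι (t i))) s := by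
  classical
  -- the next element
  have hnext : ∀ T : Finset G, ∃ g : G, (∃ x ∈ W, ∃ y ∈ W, c x = c y ∧ g = t₀ * x⁻¹ * y) ∧
      ∀ s ⊆ T, s.card < finrank F V →
        π (ι g) ∉ Submodule.span F ((fun g => π (ι g)) '' (s : Set G)) := by
    intro T
    have hl : ∀ s : {s : Finset G // s ⊆ T ∧ s.card < finrank F V}, ∃ l : V →ₗ[F] F, l ≠ 0 ∧
        Submodule.span F ((fun g => π (ι g)) '' (s.1 : Set G)) ≤ LinearMap.ker l := by
      intro s
      refine Submodule.exists_le_ker_of_lt_top _ (lt_top_iff_ne_top.mpr fun h1 => ?_)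
      have h2 : finrank F V ≤ s.1.card := by
        have h3 : finrank F (⊤ : Submodule F V) ≤ s.1.card := by
          rw [← h1, ← Finset.coe_image]
          exact (finrank_span_finset_le_card _).trans Finset.card_image_le
        rwa [finrank_top] at h3
      exact absurd s.2.2 (not_lt.mpr h2)
    choose l hl0 hlk using hl
    have : Finite {s : Finset G // s ⊆ T ∧ s.card < finrank F V} := by
      refine Finite.of_injective (β := T.powerset)
        (fun s => ⟨s.1, Finset.mem_powerset.mpr s.2.1⟩) fun s s' h => ?_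
      exact Subtype.ext (by simpa using h)
    obtain ⟨x, hx, y, hy, hxy, hj⟩ := h.genpos c t₀ b hS W hW
      (fun s x => l s (π x)) (fun s => linear_mem (l s ∘ₗ π)) (fun s => by
        by_contra hcon
        push Not at hcon
        apply hl0 s
        ext v
        have hv : v ∈ Submodule.span F (Set.range fun g => π (ι g)) := by
          rw [hπ]
          trivial
        induction hv using Submodule.span_induction with
        | mem v hv =>
          obtain ⟨g, rfl⟩ := hv
          exact hcon g
        | zero => simp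
        | add v w _ _ hv hw => rw [map_add, hv, hw]; simp
        | smul a v _ hv => rw [map_smul, hv]; simp)
    refine ⟨t₀ * x⁻¹ * y, ⟨x, hx, y, hy, hxy, rfl⟩, fun s hs hcard hmem => ?_⟩
    exact hj ⟨s, hs, hcard⟩ (hlk ⟨s, hs, hcard⟩ hmem)
  choose next hnext1 hnext2 using hnext
  let L : ℕ → Finset G := fun n => Nat.rec ∅ (fun _ T => insert (next T) T) n
  have hLs : ∀ n, L (n + 1) = insert (next (L n)) (L n) := fun n => rfl
  have hmem : ∀ n m, m < n → next (L m) ∈ L n := by
    intro n
    induction n with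
    | zero => intro m hm; omega
    | succ n ih =>
      intro m hm
      rw [hLs]
      rcases Nat.lt_succ_iff_lt_or_eq.mp hm with h1 | h1
      · exact Finset.mem_insert_of_mem (ih m h1)
      · rw [h1]
        exact Finset.mem_insert_self _ _
  refine ⟨fun n => next (L n), fun i => hnext1 _, fun s => ?_⟩
  induction s using Finset.induction_on_max with
  | empty => intro _; simp
  | insert a s ha ih =>
    intro hcard
    have hna : a ∉ s := fun h1 => (ha a h1).false
    rw [Finset.card_insert_of_notMem hna] at hcard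
    rw [Finset.coe_insert]
    refine (ih (by omega)).insert ?_
    have h1 := hnext2 (L a) (s.image fun i => next (L i))
      (fun x hx => by
        obtain ⟨i, hi, rfl⟩ := Finset.mem_image.mp hx
        exact hmem _ _ (ha i hi))
      (lt_of_le_of_lt Finset.card_image_le (by omega))
    rw [Finset.coe_image, Set.image_image] at h1
    exact h1

end chart

end Vale.Agent.P011.H21
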