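import Vale.Agent.P011.H21.Near

/-!
Unitary elements close to one with prescribed skew part.
-/

open Module

set_option linter.unusedSectionVars false

namespace Vale.Agent.P011.H21

section macroM

variable {F D : Type*} [Field F] [DivisionRing D] [Algebra F D] {o : Type*} [Fintype o]
  (b : Basis o F D) (a : AbsoluteValue F ℝ) [StarRing D]

/-- The successive approximations to the solution of `2 s = Z (1 - d s ^ 2)`. -/
noncomputable def itr (F : Type*) {D : Type*} [Field F] [DivisionRing D] [Algebra F D] (δ Z : D) :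
    ℕ → D
  | 0 => 0
  | n + 1 => (2⁻¹ : F) • (Z * (1 - δ * δ * (itr F δ Z n * itr F δ Z n)))

theorem itr_succ (δ Z : D) (n : ℕ) : itr F δ Z (n + 1) =
    (2⁻¹ : F) • (Z * (1 - δ * δ * (itr F δ Z n * itr F δ Z n))) := rfl

theorem itr_commute {δ Z : D} (hδ : ∀ x, δ * x = x * δ) (n : ℕ) : Commute Z (itr F δ Z n) := by
  induction n with
  | zero => exact Commute.zero_right Z
  | succ n ih =>
    rw [itr_succ]
    refine Commute.smul_right ?_ _
    have h1 : Commute Z (δ * δ) := by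
      have h2 : Commute Z δ := (hδ Z).symm
      exact h2.mul_right h2
    exact (Commute.refl Z).mul_right ((Commute.one_right Z).sub_right
      (h1.mul_right (ih.mul_right ih)))

theorem star_itr (hst : ∀ (r : F) (x : D), star (r • x) = r • star x) {δ Z : D}
    (hδ : ∀ x, δ * x = x * δ) (hδs : star δ = -δ) (hZ : star Z = Z) (n : ℕ) :
    star (itr F δ Z n) = itr F δ Z n := by
  induction n with
  | zero => exact star_zero D
  | succ n ih =>
    have h1 : Commute Z (1 - δ * δ * (itr F δ Z n * itr F δ Z n)) := by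
      have h2 : Commute Z (δ * δ) := by
        have h2 : Commute Z δ := (hδ Z).symm
        exact h2.mul_right h2
      have h3 := itr_commute (F := F) (Z := Z) hδ n
      exact (Commute.one_right Z).sub_right (h2.mul_right (h3.mul_right h3))
    have h3 : star (δ * δ * (itr F δ Z n * itr F δ Z n)) =
        δ * δ * (itr F δ Z n * itr F δ Z n) := by
      have h4 : Commute (δ * δ) (itr F δ Z n * itr F δ Z n) := by
        have h5 : ∀ x, Commute (δ * δ) x := fun x =>
          Commute.mul_left (hδ x) (hδ x)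
        exact h5 _
      rw [star_mul, star_mul, star_mul, ih, hδs, neg_mul_neg]
      exact h4.eq.symm
    rw [itr_succ, hst, star_mul, hZ, star_sub, star_one, h3, h1.eq]

variable {b a}

theorem itr_bound {C : ℝ} (hC1 : 1 ≤ C) (hC : ∀ x y, gg b a (x * y) ≤ C * gg b a x * gg b a y)
    {δ Z : D} (hη : C ^ 3 * gg b a (δ * δ) * (2 * a (2⁻¹ : F)) ^ 2 * (gg b a Z) ^ 2 ≤ 1 / 2)
    (n : ℕ) : gg b a (itr F δ Z n) ≤ 2 * a (2⁻¹ : F) * gg b a Z := by
  have hZ0 := gg_nonneg b a Z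
  have ha0 := a.nonneg (2⁻¹ : F)
  induction n with
  | zero =>
    rw [itr, gg_zero]
    positivity
  | succ n ih =>
    rw [itr_succ, gg_smul, mul_sub, mul_one]
    have h0 := gg_nonneg b a (itr F δ Z n)
    have hδ0 := gg_nonneg b a (δ * δ)
    have h1 := hC (itr F δ Z n) (itr F δ Z n)
    have h2 := hC (δ * δ) (itr F δ Z n * itr F δ Z n)
    have h3 := hC Z (δ * δ * (itr F δ Z n * itr F δ Z n))
    have h4 := gg_sub b a Z (Z * (δ * δ * (itr F δ Z n * itr F δ Z n)))
    have h5 : gg b a (itr F δ Z n * itr F δ Z n) ≤ C * (2 * a (2⁻¹ : F) * gg b a Z) ^ 2 := by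
      refine h1.trans ?_
      rw [mul_assoc, ← pow_two]
      exact mul_le_mul_of_nonneg_left (pow_le_pow_left₀ h0 ih 2) (by linarith)
    have h6 : gg b a (δ * δ * (itr F δ Z n * itr F δ Z n)) ≤
        C * gg b a (δ * δ) * (C * (2 * a (2⁻¹ : F) * gg b a Z) ^ 2) :=
      h2.trans (mul_le_mul_of_nonneg_left h5 (by positivity))
    have h7 : gg b a (Z * (δ * δ * (itr F δ Z n * itr F δ Z n))) ≤
        C * gg b a Z * (C * gg b a (δ * δ) * (C * (2 * a (2⁻¹ : F) * gg b a Z) ^ 2)) :=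
      h3.trans (mul_le_mul_of_nonneg_left h6 (by positivity))
    have h8 : C * gg b a Z * (C * gg b a (δ * δ) * (C * (2 * a (2⁻¹ : F) * gg b a Z) ^ 2)) =
        gg b a Z * (C ^ 3 * gg b a (δ * δ) * (2 * a (2⁻¹ : F)) ^ 2 * (gg b a Z) ^ 2) := by ring
    have h9 : gg b a (Z - Z * (δ * δ * (itr F δ Z n * itr F δ Z n))) ≤ 2 * gg b a Z := by
      nlinarith
    calc a (2⁻¹ : F) * gg b a (Z - Z * (δ * δ * (itr F δ Z n * itr F δ Z n)))
        ≤ a (2⁻¹ : F) * (2 * gg b a Z) := mul_le_mul_of_nonneg_left h9 ha0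
      _ = 2 * a (2⁻¹ : F) * gg b a Z := by ring

theorem itr_diff {C : ℝ} (hC1 : 1 ≤ C) (hC : ∀ x y, gg b a (x * y) ≤ C * gg b a x * gg b a y)
    {δ Z : D} (hη : C ^ 3 * gg b a (δ * δ) * (2 * a (2⁻¹ : F)) ^ 2 * (gg b a Z) ^ 2 ≤ 1 / 2)
    (n : ℕ) : gg b a (itr F δ Z (n + 1) - itr F δ Z n) ≤
      (1 / 2) ^ n * (2 * a (2⁻¹ : F) * gg b a Z) := by
  have hZ0 := gg_nonneg b a Z
  have ha0 := a.nonneg (2⁻¹ : F)
  induction n with
  | zero =>
    have h1 := itr_bound hC1 hC hη 1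
    rw [pow_zero, one_mul]
    have h2 : itr F δ Z (0 + 1) - itr F δ Z 0 = itr F δ Z 1 := sub_zero _
    rwa [h2]
  | succ n ih =>
    set s := itr F δ Z n with hs
    set s' := itr F δ Z (n + 1) with hs'
    have h1 : itr F δ Z (n + 1 + 1) - s' =
        -((2⁻¹ : F) • (Z * (δ * δ * (s' * (s' - s) + (s' - s) * s)))) := by
      have e1 : itr F δ Z (n + 1 + 1) = (2⁻¹ : F) • (Z * (1 - δ * δ * (s' * s'))) := rfl
      have e2 : s' = (2⁻¹ : F) • (Z * (1 - δ * δ * (s * s))) := rfl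
      have e3 : s' * (s' - s) + (s' - s) * s = s' * s' - s * s := by
        rw [mul_sub, sub_mul]
        abel
      rw [e3]
      conv_lhs => rw [e1]; arg 2; rw [e2]
      rw [← smul_sub, ← smul_neg, ← mul_sub, ← mul_neg]
      congr 2
      rw [mul_sub (δ * δ)]
      abel
    have hs0 := itr_bound hC1 hC hη n
    have hs1 := itr_bound hC1 hC hη (n + 1)
    rw [← hs] at hs0
    rw [← hs'] at hs1
    have hd0 := gg_nonneg b a (s' - s)
    have hδ0 := gg_nonneg b a (δ * δ)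
    have h2 : gg b a (s' * (s' - s) + (s' - s) * s) ≤
        C * (2 * (2 * a (2⁻¹ : F) * gg b a Z)) * gg b a (s' - s) := by
      refine (gg_add b a _ _).trans ?_
      have h3 := hC s' (s' - s)
      have h4 := hC (s' - s) s
      have h5 : C * gg b a s' * gg b a (s' - s) ≤
          C * (2 * a (2⁻¹ : F) * gg b a Z) * gg b a (s' - s) :=
        mul_le_mul_of_nonneg_right (mul_le_mul_of_nonneg_left hs1 (by linarith)) hd0
      have h6 : C * gg b a (s' - s) * gg b a s ≤
          C * gg b a (s' - s) * (2 * a (2⁻¹ : F) * gg b a Z) :=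
        mul_le_mul_of_nonneg_left hs0 (by positivity)
      nlinarith
    have h3 := hC (δ * δ) (s' * (s' - s) + (s' - s) * s)
    have h4 := hC Z (δ * δ * (s' * (s' - s) + (s' - s) * s))
    have h5 : gg b a (δ * δ * (s' * (s' - s) + (s' - s) * s)) ≤ C * gg b a (δ * δ) *
        (C * (2 * (2 * a (2⁻¹ : F) * gg b a Z)) * gg b a (s' - s)) :=
      h3.trans (mul_le_mul_of_nonneg_left h2 (by positivity))
    have h6 : gg b a (Z * (δ * δ * (s' * (s' - s) + (s' - s) * s))) ≤ C * gg b a Z *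
        (C * gg b a (δ * δ) * (C * (2 * (2 * a (2⁻¹ : F) * gg b a Z)) * gg b a (s' - s))) :=
      h4.trans (mul_le_mul_of_nonneg_left h5 (by positivity))
    rw [h1, gg_neg, gg_smul]
    calc a (2⁻¹ : F) * gg b a (Z * (δ * δ * (s' * (s' - s) + (s' - s) * s)))
        ≤ a (2⁻¹ : F) * (C * gg b a Z *
        (C * gg b a (δ * δ) * (C * (2 * (2 * a (2⁻¹ : F) * gg b a Z)) * gg b a (s' - s)))) :=
          mul_le_mul_of_nonneg_left h6 ha0
      _ = (C ^ 3 * gg b a (δ * δ) * (2 * a (2⁻¹ : F)) ^ 2 * (gg b a Z) ^ 2) *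
          gg b a (s' - s) := by ring
      _ ≤ 1 / 2 * ((1 / 2) ^ n * (2 * a (2⁻¹ : F) * gg b a Z)) :=
          mul_le_mul hη ih hd0 (by norm_num)
      _ = (1 / 2) ^ (n + 1) * (2 * a (2⁻¹ : F) * gg b a Z) := by ring

/-- **Unitary elements with prescribed skew part**, close to one. -/
theorem exists_macro (b : Basis o F D) (a : AbsoluteValue F ℝ) (h2 : (2 : F) ≠ 0)
    (hst : ∀ (r : F) (x : D), star (r • x) = r • star x) {δ : D}
    (hδ : ∀ x, δ * x = x * δ) (hδs : star δ = -δ) (hδ0 : δ ≠ 0) :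
    ∃ η₀ : ℝ, 0 < η₀ ∧ ∃ K : ℝ, 0 ≤ K ∧ ∀ Z : D, star Z = Z → gg b a Z ≤ η₀ → ∀ ε : ℝ, 0 < ε →
      ∃ t : D, star t * t = 1 ∧ gg b a (t - 1) ≤ K * gg b a Z ∧
        gg b a ((t - star t) * (δ - star δ)⁻¹ - Z) < ε := by
  obtain ⟨C, hC1, hC⟩ := exists_gg_mul b a
  have ha0 := a.nonneg (2⁻¹ : F)
  have hδδ0 := gg_nonneg b a (δ * δ)
  have hδg0 := gg_nonneg b a δ
  have h10 := gg_nonneg b a (1 : D)
  -- the two constants
  set A : ℝ := C ^ 3 * gg b a (δ * δ) * (2 * a (2⁻¹ : F)) ^ 2 with hA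
  set B : ℝ := C * (C * gg b a δ * (2 * a (2⁻¹ : F))) with hB
  have hA0 : 0 ≤ A := by positivity
  have hB0 : 0 ≤ B := by positivity
  obtain ⟨η₀, hη0, hη1, hη2⟩ : ∃ η₀ : ℝ, 0 < η₀ ∧ A * η₀ ^ 2 ≤ 1 / 2 ∧ B * η₀ ≤ 1 / 2 := by
    refine ⟨1 / (2 * (A + B + 1)), by positivity, ?_, ?_⟩
    · rw [div_pow, one_pow, mul_one_div, div_le_div_iff₀ (by positivity) (by norm_num)]
      nlinarith
    · rw [mul_one_div, div_le_div_iff₀ (by positivity) (by norm_num)]
      nlinarith
  refine ⟨η₀, hη0, C * (a 2 * (C * gg b a δ * (2 * a (2⁻¹ : F)))) * (2 * gg b a 1),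
    by have := a.nonneg (2 : F); positivity, fun Z hZ hZη ε hε => ?_⟩
  have hZ0 := gg_nonneg b a Z
  have hη : C ^ 3 * gg b a (δ * δ) * (2 * a (2⁻¹ : F)) ^ 2 * (gg b a Z) ^ 2 ≤ 1 / 2 := by
    refine le_trans ?_ hη1
    exact mul_le_mul_of_nonneg_left (pow_le_pow_left₀ hZ0 hZη 2) hA0
  -- a good approximation
  obtain ⟨n, hn⟩ : ∃ n : ℕ, C * (a 2 * ((1 / 2) ^ n * (2 * a (2⁻¹ : F) * gg b a Z))) *
      (2 * gg b a 1) < ε := by
    have h3 : Filter.Tendsto (fun n : ℕ => C * (a 2 * ((1 / 2 : ℝ) ^ n *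
        (2 * a (2⁻¹ : F) * gg b a Z))) * (2 * gg b a 1)) Filter.atTop
        (nhds (C * (a 2 * (0 * (2 * a (2⁻¹ : F) * gg b a Z))) * (2 * gg b a 1))) :=
      ((((tendsto_pow_atTop_nhds_zero_of_lt_one (by norm_num) (by norm_num)).mul_const _).const_mul
        _).const_mul _).mul_const _
    have h4 : C * (a 2 * (0 * (2 * a (2⁻¹ : F) * gg b a Z))) * (2 * gg b a 1) < ε := by
      simpa using hε
    exact (h3.eventually_lt_const h4).exists
  have hsb := itr_bound (F := F) hC1 hC hη n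
  have hsd := itr_diff (F := F) hC1 hC hη n
  have hss := star_itr hst hδ hδs hZ n
  have hscZ := itr_commute (F := F) (Z := Z) hδ n
  have hsucc : itr F δ Z (n + 1) = (2⁻¹ : F) • (Z * (1 - δ * δ * (itr F δ Z n * itr F δ Z n))) :=
    rfl
  set s' := itr F δ Z (n + 1) with hs'
  set s := itr F δ Z n with hs
  have hs0 := gg_nonneg b a s
  -- `q = 1 - δ s`, `p = 1 + δ s`
  have hδs1 : C * gg b a (δ * s) ≤ 1 / 2 := by
    refine le_trans ?_ hη2
    calc C * gg b a (δ * s) ≤ C * (C * gg b a δ * gg b a s) :=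
          mul_le_mul_of_nonneg_left (hC _ _) (by linarith)
      _ ≤ C * (C * gg b a δ * (2 * a (2⁻¹ : F) * η₀)) := by
          refine mul_le_mul_of_nonneg_left (mul_le_mul_of_nonneg_left (hsb.trans ?_)
            (by positivity)) (by linarith)
          exact mul_le_mul_of_nonneg_left hZη (by positivity)
      _ = B * η₀ := by rw [hB]; ring
  obtain ⟨hq0, hqi⟩ := gg_inv b a hC hδs1
  obtain ⟨hp0, -⟩ := gg_inv b a hC (x := -(δ * s)) (by rwa [gg_neg])
  rw [sub_neg_eq_add] at hp0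
  have hxx : δ * s * (δ * s) = δ * δ * (s * s) := by
    rw [mul_assoc, ← mul_assoc s, ← hδ s, mul_assoc δ s, ← mul_assoc]
  set q := 1 - δ * s with hq
  set p := 1 + δ * s with hp
  have hpq : p * q = 1 - δ * δ * (s * s) := by
    rw [← hxx, hp, hq]
    noncomm_ring
  have hqp : q * p = 1 - δ * δ * (s * s) := by
    rw [← hxx, hp, hq]
    noncomm_ring
  have hstx : star (δ * s) = -(δ * s) := by
    rw [star_mul, hss, hδs, mul_neg, hδ]
  have hstp : star p = q := by
    rw [hp, star_add, star_one, hstx, hq, sub_eq_add_neg]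
  have hstq : star q = p := by
    rw [hq, star_sub, star_one, hstx, hp, sub_neg_eq_add]
  have hstT : star (p * q⁻¹) = p⁻¹ * q := by
    rw [star_mul, star_inv₀, hstp, hstq]
  have hm0 : p * q ≠ 0 := mul_ne_zero hp0 hq0
  -- the bound for the inverse of `p q`
  have hmi : gg b a (p * q)⁻¹ ≤ 2 * gg b a 1 := by
    have h3 : C * gg b a (δ * δ * (s * s)) ≤ 1 / 2 := by
      have h4 := hC (δ * δ) (s * s)
      have h5 := hC s s
      have h6 : gg b a s * gg b a s ≤
          (2 * a (2⁻¹ : F) * gg b a Z) * (2 * a (2⁻¹ : F) * gg b a Z) :=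
        mul_le_mul hsb hsb hs0 (by positivity)
      calc C * gg b a (δ * δ * (s * s)) ≤ C * (C * gg b a (δ * δ) * gg b a (s * s)) :=
            mul_le_mul_of_nonneg_left h4 (by linarith)
        _ ≤ C * (C * gg b a (δ * δ) * (C * gg b a s * gg b a s)) :=
            mul_le_mul_of_nonneg_left (mul_le_mul_of_nonneg_left h5 (by positivity))
              (by linarith)
        _ = C * (C * gg b a (δ * δ) * C) * (gg b a s * gg b a s) := by ring
        _ ≤ C * (C * gg b a (δ * δ) * C) *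
              ((2 * a (2⁻¹ : F) * gg b a Z) * (2 * a (2⁻¹ : F) * gg b a Z)) :=
            mul_le_mul_of_nonneg_left h6 (by positivity)
        _ = C ^ 3 * gg b a (δ * δ) * (2 * a (2⁻¹ : F)) ^ 2 * (gg b a Z) ^ 2 := by ring
        _ ≤ 1 / 2 := hη
    have h4 := (gg_inv b a hC h3).2
    rwa [← hpq] at h4
  refine ⟨p * q⁻¹, ?_, ?_, ?_⟩
  · rw [hstT, mul_assoc, ← mul_assoc q, hqp, ← hpq, mul_assoc, mul_inv_cancel₀ hq0, mul_one,
      inv_mul_cancel₀ hp0]
  · -- the distance from one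
    have h3 : p * q⁻¹ - 1 = ((2 : F) • (δ * s)) * q⁻¹ := by
      rw [sub_eq_iff_eq_add]
      have h4 : (1 : D) = q * q⁻¹ := (mul_inv_cancel₀ hq0).symm
      conv_rhs => rw [h4]
      rw [← add_mul, hp, hq, two_smul]
      congr 1
      abel
    rw [h3]
    have h4 := hC ((2 : F) • (δ * s)) q⁻¹
    rw [gg_smul] at h4
    have h5 := hC δ s
    have ha2 := a.nonneg (2 : F)
    have h6 : gg b a (δ * s) ≤ C * gg b a δ * (2 * a (2⁻¹ : F) * gg b a Z) :=
      h5.trans (mul_le_mul_of_nonneg_left hsb (by positivity))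
    refine h4.trans ?_
    calc C * (a 2 * gg b a (δ * s)) * gg b a q⁻¹
        ≤ C * (a 2 * (C * gg b a δ * (2 * a (2⁻¹ : F) * gg b a Z))) * (2 * gg b a 1) := by
          refine mul_le_mul ?_ hqi (gg_nonneg b a _) (by positivity)
          exact mul_le_mul_of_nonneg_left (mul_le_mul_of_nonneg_left h6 ha2) (by linarith)
      _ = C * (a 2 * (C * gg b a δ * (2 * a (2⁻¹ : F)))) * (2 * gg b a 1) * gg b a Z := by ring
  · -- the skew part
    have hδδ : δ - star δ = (2 : F) • δ := by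
      rw [hδs, two_smul]
      abel
    have h2δ : (2 : F) • δ ≠ 0 := smul_ne_zero h2 hδ0
    have hcδ : ∀ x, Commute ((2 : F) • δ) x := fun x => Commute.smul_left (hδ x) _
    have h4s : p * p - q * q = ((2 : F) • s) * ((2 : F) • δ) := by
      rw [hp, hq, smul_mul_smul_comm, ← hδ]
      have h3 : ((2 : F) * 2) • (δ * s) = (δ * s) + (δ * s) + (δ * s) + (δ * s) := by
        rw [mul_smul, two_smul, two_smul]
        abel
      rw [h3]
      noncomm_ring
    have hTm : (p * q⁻¹ - star (p * q⁻¹)) * (p * q) = p * p - q * q := by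
      rw [hstT, sub_mul]
      congr 1
      · rw [hpq, ← hqp, mul_assoc, inv_mul_cancel_left₀ hq0]
      · rw [mul_assoc, ← mul_assoc q, hqp, ← hpq, mul_assoc p, inv_mul_cancel_left₀ hp0]
    have hZm : Z * (p * q) = (2 : F) • s' := by
      rw [hsucc, smul_smul, mul_inv_cancel₀ h2, one_smul, hpq]
    have hmain : (p * q⁻¹ - star (p * q⁻¹)) * (δ - star δ)⁻¹ - Z =
        ((2 : F) • (s - s')) * (p * q)⁻¹ := by
      rw [eq_mul_inv_iff_mul_eq₀ hm0, sub_mul, hZm, smul_sub, hδδ]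
      congr 1
      rw [mul_assoc, ((hcδ (p * q)).inv_left₀).eq, ← mul_assoc, hTm, h4s,
        mul_inv_cancel_right₀ h2δ]
    rw [hmain]
    refine lt_of_le_of_lt ?_ hn
    have h4 := hC ((2 : F) • (s - s')) (p * q)⁻¹
    rw [gg_smul, gg_sub_comm] at h4
    refine h4.trans ?_
    have ha2 := a.nonneg (2 : F)
    refine mul_le_mul ?_ hmi (gg_nonneg b a _) (by positivity)
    exact mul_le_mul_of_nonneg_left (mul_le_mul_of_nonneg_left hsd ha2) (by linarith)

end macroM

end Vale.Agent.P011.H21
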