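import Vale.Agent.P011.H21.MacroSeq

/-!
The macroscopic move over the rational numbers, with `p`-adic congruences in coordinates.
-/

open Module

set_option linter.unusedSectionVars false

namespace Vale.Agent.P011.H21

variable {D : Type*} [DivisionRing D] [Algebra ℚ D] [StarRing D] {G : Type*} [Group G]
  {ι : G →* D} {R : Type*} [Group R] {p : ℕ} [Fact p.Prime]

theorem padic_apply (x : ℚ) : Rat.AbsoluteValue.padic p x = ((padicNorm p x : ℚ) : ℝ) := rfl

theorem padic_p : Rat.AbsoluteValue.padic p (p : ℚ) = (p : ℝ)⁻¹ := by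
  rw [padic_apply]
  have := padicNorm.padicNorm_p_of_prime (p := p)
  rw [this]
  push_cast
  rfl

theorem padic_p_pow (e : ℕ) : Rat.AbsoluteValue.padic p ((p : ℚ) ^ e) = ((p : ℝ)⁻¹) ^ e := by
  rw [map_pow, padic_p]

theorem padic_int_le_one (n : ℤ) : Rat.AbsoluteValue.padic p (n : ℚ) ≤ 1 := by
  rw [padic_apply]
  exact_mod_cast padicNorm.of_int (p := p) n

variable [FiniteDimensional ℚ D]

/-- **The macroscopic move at a prime**, over the rational numbers. For `e ≥ e₀`, all `i`, every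
class `ζ` of the symmetric elements modulo `p ^ i` and every colour `ρ` which occurs arbitrarily
close to one at `p`, there is a sequence of unitary elements of colour `ρ`, congruent to one
modulo `p ^ (e - e₀)`, whose skew part is `p ^ e * ζ` modulo `p ^ (e + i)`, and such that any
`N = dim Sym` of the skew parts are linearly independent over `ℚ`. -/
theorem macro_seq [Finite R]
    (hst : ∀ (r : ℚ) (x : D), star (r • x) = r • star x) {δ : D}
    (hδ : ∀ x, δ * x = x * δ) (hδs : star δ = -δ) (hδ0 : δ ≠ 0)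
    (hinj : Function.Injective ι) (hG : ∀ x : D, (∃ g, ι g = x) ↔ star x * x = 1)
    (c : G →* R) {M N : ℕ} (bD : Basis (Fin M) ℚ D) (b : Basis (Fin N) ℚ (symF ℚ D hst)) :
    ∃ e₀ : ℕ, ∀ e ≥ e₀, ∀ i : ℕ, ∀ ζ : Fin N → ℤ, ∀ ρ : R,
      (∀ m : ℕ, ∃ u, c u = ρ ∧
        ∀ j, padicNorm p (bD.repr (ι u - 1) j) ≤ (p : ℚ) ^ (-(m : ℤ))) →
      ∃ t : ℕ → G, (∀ n, c (t n) = ρ) ∧
        (∀ n j, padicNorm p (bD.repr (ι (t n) - 1) j) ≤ (p : ℚ) ^ (-((e : ℤ) - e₀))) ∧
        (∀ n j, padicNorm p (b.repr (skw hst hδ (ι (t n))) j - (p : ℚ) ^ e * ζ j) ≤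
          (p : ℚ) ^ (-((e : ℤ) + i))) ∧
        ∀ s : Finset ℕ, s.card ≤ N →
          LinearIndepOn ℚ (fun n => skw hst hδ (ι (t n))) s := by
  have hp1 : (1 : ℝ) < p := by exact_mod_cast (Fact.out : p.Prime).one_lt
  have hp0 : (0 : ℝ) < p := by linarith
  have hpq : (p : ℚ) ≠ 0 := by exact_mod_cast (Fact.out : p.Prime).ne_zero
  set a := Rat.AbsoluteValue.padic p with ha
  have haz : a (p : ℚ) < 1 := by
    rw [ha, padic_p]
    exact inv_lt_one_of_one_lt₀ hp1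
  have hN : finrank ℚ (symF ℚ D hst) = N := by
    rw [finrank_eq_card_basis b, Fintype.card_fin]
  obtain ⟨η₀, hη0, K, hK, hmac⟩ := exists_macro_seq bD a (two_ne_zero) hst hδ hδs hδ0 hinj hG c
    hpq haz
  -- the coordinates of a symmetric element
  have hcoord : ∃ L : ℝ, 0 ≤ L ∧ ∀ (y : symF ℚ D hst) j, a (b.repr y j) ≤ L * gg bD a (y : D) := by
    have h1 : ∀ j, ∃ L : ℝ, 0 ≤ L ∧ ∀ y : symF ℚ D hst, a (b.repr y j) ≤ L * gg bD a (y : D) := by
      intro j
      obtain ⟨φ, hφ⟩ := (b.coord j).exists_extend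
      obtain ⟨L, hL, h⟩ := exists_gg_functional bD a φ
      refine ⟨L, hL, fun y => ?_⟩
      have h2 : b.repr y j = φ (y : D) := by
        rw [← b.coord_apply, ← hφ]
        rfl
      rw [h2]
      exact h _
    choose L hL h using h1
    refine ⟨∑ j, L j, Finset.sum_nonneg fun j _ => hL j, fun y j => (h j y).trans ?_⟩
    exact mul_le_mul_of_nonneg_right
      (Finset.single_le_sum (f := L) (fun j _ => hL j) (Finset.mem_univ j)) (gg_nonneg bD a _)
  obtain ⟨L, hL, hcoord⟩ := hcoord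
  -- the gauge of integral combinations
  set Y : ℝ := ∑ j, gg bD a (b j : D) with hY
  have hY0 : 0 ≤ Y := Finset.sum_nonneg fun j _ => gg_nonneg bD a _
  have hpow : Filter.Tendsto (fun e : ℕ => ((p : ℝ)⁻¹) ^ e * (Y + 1)) Filter.atTop
      (nhds (0 * (Y + 1))) :=
    (tendsto_pow_atTop_nhds_zero_of_lt_one (by positivity) (inv_lt_one_of_one_lt₀ hp1)).mul_const _
  rw [zero_mul] at hpow
  obtain ⟨e₁, he₁⟩ := (hpow.eventually_lt_const hη0).exists
  obtain ⟨e₂, he₂⟩ := pow_unbounded_of_one_lt (K * Y + 1) hp1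
  refine ⟨max e₁ e₂, fun e he i ζ ρ hρ => ?_⟩
  have he1 : e₁ ≤ e := (le_max_left _ _).trans he
  have he2 : e₂ ≤ max e₁ e₂ := le_max_right _ _
  set Zs : symF ℚ D hst := ∑ j, ((p : ℚ) ^ e * ζ j) • b j with hZs
  have hZg : gg bD a (Zs : D) ≤ ((p : ℝ)⁻¹) ^ e * Y := by
    have h1 : (Zs : D) = ∑ j, ((p : ℚ) ^ e * ζ j) • (b j : D) := by
      rw [hZs]
      exact map_sum (symF ℚ D hst).subtype _ _
    rw [h1, hY, Finset.mul_sum]
    refine (gg_sum bD a _ _).trans (Finset.sum_le_sum fun j _ => ?_)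
    rw [gg_smul, map_mul, map_pow, ha, padic_p]
    have h2 := padic_int_le_one (p := p) (ζ j)
    have h3 : 0 ≤ ((p : ℝ)⁻¹) ^ e := by positivity
    have h4 := gg_nonneg bD (Rat.AbsoluteValue.padic p) (b j : D)
    nlinarith [mul_nonneg h3 h4]
  have hZη : gg bD a (Zs : D) ≤ η₀ := by
    refine hZg.trans (le_trans ?_ he₁.le)
    have h1 : ((p : ℝ)⁻¹) ^ e ≤ ((p : ℝ)⁻¹) ^ e₁ :=
      pow_le_pow_of_le_one (by positivity) (inv_lt_one_of_one_lt₀ hp1).le he1
    exact mul_le_mul h1 (by linarith) hY0 (by positivity)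
  have hNC : NearCol bD a c ι ρ := by
    intro ε hε
    have h1 : Filter.Tendsto (fun m : ℕ => (Fintype.card (Fin M) : ℝ) * ((p : ℝ)⁻¹) ^ m)
        Filter.atTop (nhds ((Fintype.card (Fin M) : ℝ) * 0)) :=
      (tendsto_pow_atTop_nhds_zero_of_lt_one (by positivity)
        (inv_lt_one_of_one_lt₀ hp1)).const_mul _
    rw [mul_zero] at h1
    obtain ⟨m, hm⟩ := (h1.eventually_lt_const hε).exists
    obtain ⟨u, hu, hu1⟩ := hρ m
    refine ⟨u, hu, lt_of_le_of_lt ?_ hm⟩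
    have h2 : ∀ j ∈ (Finset.univ : Finset (Fin M)), a (bD.repr (ι u - 1) j) ≤
        ((p : ℝ)⁻¹) ^ m := fun j _ => by
      have h3 := hu1 j
      rw [ha, padic_apply]
      have h4 : ((padicNorm p (bD.repr (ι u - 1) j) : ℚ) : ℝ) ≤
          (((p : ℚ) ^ (-(m : ℤ)) : ℚ) : ℝ) := by exact_mod_cast h3
      refine h4.trans (le_of_eq ?_)
      push_cast
      rw [zpow_neg, zpow_natCast, inv_pow]
    have h3 := Finset.sum_le_card_nsmul _ _ _ h2
    rw [Finset.card_univ, nsmul_eq_mul] at h3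
    exact h3
  set ε : ℝ := ((p : ℝ)⁻¹) ^ (e + i) / (L + 1) with hε
  have hε0 : 0 < ε := by positivity
  have hεe : ε ≤ ((p : ℝ)⁻¹) ^ e := by
    have h1 : ((p : ℝ)⁻¹) ^ (e + i) ≤ ((p : ℝ)⁻¹) ^ e :=
      pow_le_pow_of_le_one (by positivity) (inv_lt_one_of_one_lt₀ hp1).le (by omega)
    refine le_trans ?_ h1
    rw [hε]
    exact div_le_self (by positivity) (by linarith)
  obtain ⟨t, ht, ht1, ht2, hgp⟩ := hmac (Zs : D) Zs.2 hZη ρ hNC ε hε0
  refine ⟨t, ht, fun n j => ?_, fun n j => ?_, fun s hs => ?_⟩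
  · have h1 : a (bD.repr (ι (t n) - 1) j) ≤ (K * Y + 1) * ((p : ℝ)⁻¹) ^ e := by
      have h2 := coord_le_gg bD a (ι (t n) - 1) j
      have h3 := ht1 n
      have h4 : K * gg bD a (Zs : D) ≤ K * (((p : ℝ)⁻¹) ^ e * Y) :=
        mul_le_mul_of_nonneg_left hZg hK
      nlinarith
    have h2 : a (bD.repr (ι (t n) - 1) j) ≤ (p : ℝ) ^ (-((e : ℤ) - (max e₁ e₂ : ℕ))) := by
      refine h1.trans ?_
      have h3 : (p : ℝ) ^ (-((e : ℤ) - (max e₁ e₂ : ℕ))) =
          (p : ℝ) ^ (max e₁ e₂) * ((p : ℝ)⁻¹) ^ e := by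
        rw [neg_sub, zpow_sub₀ hp0.ne', zpow_natCast, zpow_natCast, inv_pow, div_eq_mul_inv]
      rw [h3]
      refine mul_le_mul_of_nonneg_right (he₂.le.trans ?_) (by positivity)
      exact pow_le_pow_right₀ hp1.le he2
    rw [ha, padic_apply] at h2
    have h5 : ((padicNorm p (bD.repr (ι (t n) - 1) j) : ℚ) : ℝ) ≤
        (((p : ℚ) ^ (-((e : ℤ) - (max e₁ e₂ : ℕ))) : ℚ) : ℝ) := by
      rw [Rat.cast_zpow, Rat.cast_natCast]
      exact h2
    exact Rat.cast_le.mp h5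
  · have h1 : a (b.repr (skw hst hδ (ι (t n)) - Zs) j) ≤ ((p : ℝ)⁻¹) ^ (e + i) := by
      refine (hcoord _ j).trans ?_
      have h2 := ht2 n
      have h3 : ((skw hst hδ (ι (t n)) - Zs : symF ℚ D hst) : D) =
          (ι (t n) - star (ι (t n))) * (δ - star δ)⁻¹ - (Zs : D) := rfl
      rw [h3]
      calc L * gg bD a ((ι (t n) - star (ι (t n))) * (δ - star δ)⁻¹ - (Zs : D))
          ≤ L * ε := mul_le_mul_of_nonneg_left h2.le hL
        _ ≤ ((p : ℝ)⁻¹) ^ (e + i) := by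
            rw [hε, mul_div_assoc', div_le_iff₀ (by positivity)]
            have : 0 ≤ ((p : ℝ)⁻¹) ^ (e + i) := by positivity
            nlinarith
    have h2 : b.repr (skw hst hδ (ι (t n)) - Zs) j =
        b.repr (skw hst hδ (ι (t n))) j - (p : ℚ) ^ e * ζ j := by
      rw [map_sub, Finsupp.sub_apply]
      congr 1
      rw [hZs, b.repr_sum_self]
    rw [h2, ha, padic_apply] at h1
    have h3 : ((padicNorm p (b.repr (skw hst hδ (ι (t n))) j - (p : ℚ) ^ e * ζ j) : ℚ) : ℝ) ≤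
        (((p : ℚ) ^ (-((e : ℤ) + i)) : ℚ) : ℝ) := by
      refine h1.trans (le_of_eq ?_)
      rw [Rat.cast_zpow, Rat.cast_natCast, zpow_neg, inv_pow]
      congr 1
    exact Rat.cast_le.mp h3
  · have h1 := hgp s (by rw [hN]; exact hs)
    have h2 : (fun i => (ι (t i) - star (ι (t i))) * (δ - star δ)⁻¹) =
        (symF ℚ D hst).subtype ∘ fun n => skw hst hδ (ι (t n)) := rfl
    rw [h2] at h1
    exact LinearIndepOn.of_comp _ h1

end Vale.Agent.P011.H21
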