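import Vale.Agent.P011.H21.Macro

/-!
Sequences of unitary elements of given colour in general position, close to one and with
prescribed approximate skew part.
-/

open Module

set_option linter.unusedSectionVars false

namespace Vale.Agent.P011.H21

section lin

variable {F D : Type*} [Field F] [DivisionRing D] [Algebra F D] {o : Type*} [Fintype o]
  (b : Basis o F D) (a : AbsoluteValue F ℝ)

theorem exists_gg_linear (φ : D → D) (hadd : ∀ x y, φ (x + y) = φ x + φ y)
    (hsmul : ∀ (r : F) x, φ (r • x) = r • φ x) : ∃ K : ℝ, 0 ≤ K ∧ ∀ x, gg b a (φ x) ≤ K * gg b a x := by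
  obtain ⟨ψ, hψ⟩ : ∃ ψ : D →ₗ[F] D, ∀ x, ψ x = φ x := ⟨⟨⟨φ, hadd⟩, hsmul⟩, fun _ => rfl⟩
  refine ⟨∑ j, gg b a (φ (b j)), Finset.sum_nonneg fun _ _ => gg_nonneg b a _, fun x => ?_⟩
  have h1 : φ x = ∑ j, b.repr x j • φ (b j) := by
    rw [← hψ]
    conv_lhs => rw [← b.sum_repr x]
    rw [map_sum]
    refine Finset.sum_congr rfl fun j _ => ?_
    rw [map_smul, hψ]
  rw [h1]
  refine (gg_sum b a _ _).trans ?_
  rw [Finset.sum_mul]
  refine Finset.sum_le_sum fun j _ => ?_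
  rw [gg_smul, mul_comm]
  exact mul_le_mul_of_nonneg_left (coord_le_gg b a x j) (gg_nonneg b a _)

theorem exists_gg_functional (φ : D →ₗ[F] F) :
    ∃ K : ℝ, 0 ≤ K ∧ ∀ x, a (φ x) ≤ K * gg b a x := by
  refine ⟨∑ j, a (φ (b j)), Finset.sum_nonneg fun _ _ => a.nonneg _, fun x => ?_⟩
  have h1 : φ x = ∑ j, b.repr x j * φ (b j) := by
    conv_lhs => rw [← b.sum_repr x]
    rw [map_sum]
    simp
  rw [h1]
  refine (a.sum_le _ _).trans ?_
  rw [Finset.sum_mul]
  refine Finset.sum_le_sum fun j _ => ?_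
  rw [map_mul, mul_comm]
  exact mul_le_mul_of_nonneg_left (coord_le_gg b a x j) (a.nonneg _)

end lin

section seq

variable {F D : Type*} [Field F] [DivisionRing D] [Algebra F D] {o : Type*} [Fintype o]
  (b : Basis o F D) (a : AbsoluteValue F ℝ) [StarRing D] {G : Type*} [Group G] {ι : G →* D}
  {R : Type*} [Group R] (c : G →* R)

/-- The colours which occur arbitrarily close to one. -/
def NearCol (ι : G →* D) (ρ : R) : Prop := ∀ ε : ℝ, 0 < ε → ∃ u, c u = ρ ∧ gg b a (ι u - 1) < ε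

variable {b a c}

theorem NearCol.inv_mul {ρ ρ' : R} (h : NearCol b a c ι ρ) (h' : NearCol b a c ι ρ') :
    NearCol b a c ι (ρ⁻¹ * ρ') := by
  intro ε hε
  obtain ⟨C, hC1, hC⟩ := exists_gg_mul b a
  have h10 := gg_nonneg b a (1 : D)
  obtain ⟨B, hB⟩ : ∃ B : ℝ, B = C * (C * gg b a (1 : D) * (2 * gg b a 1)) * 2 := ⟨_, rfl⟩
  have hB0 : 0 ≤ B := by rw [hB]; positivity
  obtain ⟨η, hη0, hη1, hη2⟩ : ∃ η : ℝ, 0 < η ∧ C * η ≤ 1 / 2 ∧ B * η < ε := by
    refine ⟨min (1 / (2 * C)) (ε / (2 * (B + 1))), by positivity, ?_, ?_⟩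
    · calc C * min (1 / (2 * C)) (ε / (2 * (B + 1))) ≤ C * (1 / (2 * C)) :=
            mul_le_mul_of_nonneg_left (min_le_left _ _) (by linarith)
        _ = 1 / 2 := by field_simp
    · have h1 := min_le_right (1 / (2 * C)) (ε / (2 * (B + 1)))
      have h2 : B * (ε / (2 * (B + 1))) ≤ ε / 2 := by
        rw [mul_div_assoc', div_le_div_iff₀ (by positivity) (by norm_num)]
        nlinarith
      calc B * min (1 / (2 * C)) (ε / (2 * (B + 1))) ≤ B * (ε / (2 * (B + 1))) :=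
            mul_le_mul_of_nonneg_left h1 hB0
        _ ≤ ε / 2 := h2
        _ < ε := by linarith
  obtain ⟨u, hu, hug⟩ := h η hη0
  obtain ⟨u', hu', hug'⟩ := h' η hη0
  refine ⟨u⁻¹ * u', by rw [map_mul, map_inv, hu, hu'], ?_⟩
  have h1 : ι (u⁻¹ * u') = 1 * (ι u)⁻¹ * ι u' := by
    rw [map_mul, one_mul]
    congr 1
    apply eq_inv_of_mul_eq_one_left
    rw [← map_mul, inv_mul_cancel, map_one]
  rw [h1]
  refine lt_of_le_of_lt (gg_twist b hC1 hC hug hug' hη1) ?_
  calc C * (C * gg b a 1 * (2 * gg b a 1)) * (2 * η) = B * η := by rw [hB]; ring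
    _ < ε := hη2

/-- Elements very close to one have such a colour. -/
theorem exists_nearCol [Finite R] (b : Basis o F D) (a : AbsoluteValue F ℝ) (ι : G →* D)
    (c : G →* R) : ∃ ε : ℝ, 0 < ε ∧ ∀ u, gg b a (ι u - 1) < ε → NearCol b a c ι (c u) := by
  classical
  have h1 : ∀ ρ : R, ∃ ε : ℝ, 0 < ε ∧ (∀ u, c u = ρ → gg b a (ι u - 1) < ε →
      NearCol b a c ι ρ) := by
    intro ρ
    by_cases h : NearCol b a c ι ρ
    · exact ⟨1, one_pos, fun _ _ _ => h⟩
    · rw [NearCol] at h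
      push Not at h
      obtain ⟨ε, hε, h⟩ := h
      exact ⟨ε, hε, fun u hu hlt => absurd hlt (not_lt.mpr (h u hu))⟩
  choose e he0 he using h1
  obtain ⟨ρ₀, hρ₀⟩ := Finite.exists_min e
  exact ⟨e ρ₀, he0 ρ₀, fun u hu => he (c u) u rfl (lt_of_lt_of_le hu (hρ₀ (c u)))⟩

/-- **The macroscopic move.** For every symmetric `Z` close to zero and every colour which occurs
arbitrarily close to one there is a sequence of elements of this colour, in general position,
close to one, whose skew part is as close as one likes to `Z`. -/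
theorem exists_macro_seq [Infinite F] [FiniteDimensional F D] [Finite R] (b : Basis o F D)
    (a : AbsoluteValue F ℝ) (h2 : (2 : F) ≠ 0)
    (hst : ∀ (r : F) (x : D), star (r • x) = r • star x) {δ : D}
    (hδ : ∀ x, δ * x = x * δ) (hδs : star δ = -δ) (hδ0 : δ ≠ 0)
    (hinj : Function.Injective ι) (hG : ∀ x : D, (∃ g, ι g = x) ↔ star x * x = 1)
    (c : G →* R) {z : F} (hz : z ≠ 0) (hz1 : a z < 1) :
    ∃ η₀ : ℝ, 0 < η₀ ∧ ∃ K : ℝ, 0 ≤ K ∧ ∀ Z : D, star Z = Z → gg b a Z ≤ η₀ →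
      ∀ ρ : R, NearCol b a c ι ρ → ∀ ε : ℝ, 0 < ε → ∃ t : ℕ → G, (∀ n, c (t n) = ρ) ∧
        (∀ n, gg b a (ι (t n) - 1) < K * gg b a Z + ε) ∧
        (∀ n, gg b a ((ι (t n) - star (ι (t n))) * (δ - star δ)⁻¹ - Z) < ε) ∧
        ∀ s : Finset ℕ, s.card ≤ finrank F (symF F D hst) →
          LinearIndepOn F (fun i => (ι (t i) - star (ι (t i))) * (δ - star δ)⁻¹) s := by
  obtain ⟨η₀, hη0, K, hK, hmac⟩ := exists_macro b a h2 hst hδ hδs hδ0
  obtain ⟨ε₁, hε1, hnear⟩ := exists_nearCol b a ι c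
  obtain ⟨C, hC1, hC⟩ := exists_gg_mul b a
  obtain ⟨K₂, hK2, hlin⟩ := exists_gg_linear b a
    (fun x => (x - star x) * (δ - star δ)⁻¹) (fun x y => by
      simp only [star_add]
      rw [← add_mul]
      congr 1
      abel) (fun r x => by
      simp only [hst]
      rw [← smul_sub, smul_mul_assoc])
  have hδ' : star δ ≠ δ := by
    intro h
    have h3 : (2 : F) • δ = 0 := by
      rw [two_smul]
      nth_rewrite 1 [← h]
      rw [hδs, neg_add_cancel]
    exact (smul_ne_zero h2 hδ0) h3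
  refine ⟨min η₀ (ε₁ / (2 * (K + 1))), by positivity, K, hK, fun Z hZ hZη ρ hρ ε hε => ?_⟩
  have hZ0 := gg_nonneg b a Z
  -- the first approximation
  obtain ⟨x, hx, hx1, hx2⟩ := hmac Z hZ (hZη.trans (min_le_left _ _)) (ε / 2) (by positivity)
  obtain ⟨t', ht'⟩ := (hG x).mpr hx
  have hcol : NearCol b a c ι (c t') := by
    apply hnear
    rw [ht']
    refine lt_of_le_of_lt hx1 ?_
    have h3 := hZη.trans (min_le_right _ _)
    have h4 : K * gg b a Z ≤ K * (ε₁ / (2 * (K + 1))) := mul_le_mul_of_nonneg_left h3 hK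
    have h5 : K * (ε₁ / (2 * (K + 1))) ≤ ε₁ / 2 := by
      rw [mul_div_assoc', div_le_div_iff₀ (by positivity) (by norm_num)]
      nlinarith
    linarith
  -- the correction of the colour
  obtain ⟨ε', hε', hε'1, hε'2⟩ : ∃ ε' : ℝ, 0 < ε' ∧ ε' ≤ ε ∧ K₂ * ε' ≤ ε / 2 := by
    refine ⟨min ε (ε / (2 * (K₂ + 1))), by positivity, min_le_left _ _, ?_⟩
    have h3 := mul_le_mul_of_nonneg_left (min_le_right ε (ε / (2 * (K₂ + 1)))) hK2
    have h4 : K₂ * (ε / (2 * (K₂ + 1))) ≤ ε / 2 := by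
      rw [mul_div_assoc', div_le_div_iff₀ (by positivity) (by norm_num)]
      nlinarith
    linarith
  have htg0 := gg_nonneg b a (ι t')
  obtain ⟨u, hu, hug⟩ := (hcol.inv_mul hρ) (ε' / (2 * (C * gg b a (ι t') + 1))) (by positivity)
  have hclose : gg b a (ι (t' * u) - ι t') < ε' / 2 := by
    have h3 : ι (t' * u) - ι t' = ι t' * (ι u - 1) := by rw [map_mul, mul_sub, mul_one]
    rw [h3]
    refine lt_of_le_of_lt (hC _ _) ?_
    have h4 : C * gg b a (ι t') * gg b a (ι u - 1) ≤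
        C * gg b a (ι t') * (ε' / (2 * (C * gg b a (ι t') + 1))) :=
      mul_le_mul_of_nonneg_left hug.le (by positivity)
    have h5 : C * gg b a (ι t') * (ε' / (2 * (C * gg b a (ι t') + 1))) < ε' / 2 := by
      have h6 : 0 ≤ C * gg b a (ι t') := by positivity
      rw [mul_div_assoc', div_lt_div_iff₀ (by positivity) (by norm_num)]
      nlinarith
    linarith
  obtain ⟨t, ht, htc, hgp⟩ := exists_colour_seq_close (a := fun _ : Unit => a) b hst hδ hδ' hinj hG
    c hz (fun _ => hz1) (t' * u) (ε := ε' / 2) (by positivity)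
  have hd : ∀ n, gg b a (ι (t n) - x) < ε' := fun n => by
    have h3 : ι (t n) - x = (ι (t n) - ι (t' * u)) + (ι (t' * u) - ι t') := by
      rw [ht']
      abel
    rw [h3]
    have h4 := gg_add b a (ι (t n) - ι (t' * u)) (ι (t' * u) - ι t')
    have h5 := htc n ()
    linarith
  refine ⟨t, fun n => ?_, fun n => ?_, fun n => ?_, hgp⟩
  · rw [ht n, map_mul, hu, mul_inv_cancel_left]
  · have h3 : ι (t n) - 1 = (x - 1) + (ι (t n) - x) := by abel
    rw [h3]
    have h4 := gg_add b a (x - 1) (ι (t n) - x)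
    have h5 := hd n
    linarith
  · have h3 : (ι (t n) - star (ι (t n))) * (δ - star δ)⁻¹ - Z =
        ((x - star x) * (δ - star δ)⁻¹ - Z) +
          ((ι (t n) - x) - star (ι (t n) - x)) * (δ - star δ)⁻¹ := by
      rw [star_sub, sub_add_eq_add_sub, ← add_mul]
      congr 2
      abel
    rw [h3]
    have h4 := gg_add b a ((x - star x) * (δ - star δ)⁻¹ - Z)
      (((ι (t n) - x) - star (ι (t n) - x)) * (δ - star δ)⁻¹)
    have h5 := hlin (ι (t n) - x)
    have h6 : K₂ * gg b a (ι (t n) - x) ≤ K₂ * ε' := mul_le_mul_of_nonneg_left (hd n).le hK2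
    linarith

end seq

end Vale.Agent.P011.H21
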