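import Mathlib.Analysis.LocallyConvex.Bounded
import Mathlib.Analysis.Convex.Combination
import Mathlib.GroupTheory.Solvable
import Mathlib.Topology.Algebra.Module.Basic
import Mathlib.Order.Filter.Ultrafilter.Defs
import Mathlib.Topology.Compactness.Compact
import Mathlib.Analysis.SpecificLimits.Basic

/-!
# Markov-Kakutani for solvable groups

Continuous affine self-maps of a nonempty compact convex subset of a Hausdorff
topological vector space.  First one map, then a commuting family, then a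
solvable group.
-/

open Set Filter Topology Pointwise

namespace P011.H21.MK

lemma iter_mem {E : Type*} {C : Set E} {T : E → E} (hT : MapsTo T C C) {x0 : E} (hx : x0 ∈ C)
    (n : ℕ) : T^[n] x0 ∈ C := by
  induction n with
  | zero => simpa using hx
  | succ n ih =>
    rw [Function.iterate_succ_apply']
    exact hT ih

/-- The set of fixed points in `C`. -/
def fixIn {E : Type*} (C : Set E) (T : E → E) : Set E := {x | x ∈ C ∧ T x = x}

lemma fixIn_subset {E : Type*} (C : Set E) (T : E → E) : fixIn C T ⊆ C := fun _ h => h.1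

variable {E : Type*} [AddCommGroup E] [Module ℝ E]

/-- `T` is affine on `C` and maps `C` into `C`. -/
structure AffOn (C : Set E) (T : E → E) : Prop where
  maps : MapsTo T C C
  aff : ∀ x ∈ C, ∀ y ∈ C, ∀ a b : ℝ, 0 ≤ a → 0 ≤ b → a + b = 1 →
    T (a • x + b • y) = a • T x + b • T y

/-- Running averages of the orbit of `x0`. -/
noncomputable def avg (T : E → E) (x0 : E) : ℕ → E
  | 0 => x0
  | (n + 1) => (((n : ℝ) + 1) / ((n : ℝ) + 2)) • avg T x0 n +
      (1 / ((n : ℝ) + 2)) • T^[n + 1] x0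

lemma coeff_sum (n : ℕ) : (((n : ℝ) + 1) / ((n : ℝ) + 2)) + (1 / ((n : ℝ) + 2)) = 1 := by
  have h : ((n : ℝ) + 2) ≠ 0 := by positivity
  field_simp
  ring

lemma avg_mem {C : Set E} (hconv : Convex ℝ C) {T : E → E} (hT : MapsTo T C C) {x0 : E}
    (hx : x0 ∈ C) (n : ℕ) : avg T x0 n ∈ C := by
  induction n with
  | zero => simpa [avg] using hx
  | succ n ih =>
    refine hconv ih (iter_mem hT hx (n + 1)) ?_ ?_ (coeff_sum n)
    · positivity
    · positivity

lemma map_avg {C : Set E} (hconv : Convex ℝ C) {T : E → E} (hT : AffOn C T) {x0 : E}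
    (hx : x0 ∈ C) (n : ℕ) :
    T (avg T x0 n) = avg T x0 n + (1 / ((n : ℝ) + 1)) • (T^[n + 1] x0 - x0) := by
  induction n with
  | zero => simp [avg]
  | succ n ih =>
    have h2 : ((n : ℝ) + 2) ≠ 0 := by positivity
    have h1 : ((n : ℝ) + 1) ≠ 0 := by positivity
    have e := hT.aff (avg T x0 n) (avg_mem hconv hT.maps hx n) (T^[n + 1] x0)
      (iter_mem hT.maps hx (n + 1)) (((n : ℝ) + 1) / ((n : ℝ) + 2)) (1 / ((n : ℝ) + 2))
      (by positivity) (by positivity) (coeff_sum n)
    have e2 : avg T x0 (n + 1) = (((n : ℝ) + 1) / ((n : ℝ) + 2)) • avg T x0 n +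
      (1 / ((n : ℝ) + 2)) • T^[n + 1] x0 := rfl
    rw [e2, e, ih]
    have e3 : T^[n + 1 + 1] x0 = T (T^[n + 1] x0) := Function.iterate_succ_apply' _ _ _
    rw [e3]
    have e4 : ((n : ℝ) + 1) / ((n : ℝ) + 2) * (1 / ((n : ℝ) + 1)) = 1 / ((n : ℝ) + 2) := by
      field_simp
    have e5 : (((n + 1 : ℕ) : ℝ) + 1) = (n : ℝ) + 2 := by push_cast; ring
    rw [e5, smul_add, smul_smul, e4]
    module

lemma fixIn_convex {C : Set E} (hconv : Convex ℝ C) {T : E → E} (hT : AffOn C T) :
    Convex ℝ (fixIn C T) := by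
  intro x hx y hy a b ha hb hab
  refine ⟨hconv hx.1 hy.1 ha hb hab, ?_⟩
  rw [hT.aff x hx.1 y hy.1 a b ha hb hab, hx.2, hy.2]

/-- Restriction of an affine self-map to a smaller invariant set. -/
lemma AffOn.mono {C D : Set E} {T : E → E} (hT : AffOn C T) (hD : D ⊆ C) (hm : MapsTo T D D) :
    AffOn D T :=
  ⟨hm, fun x hx y hy => hT.aff x (hD hx) y (hD hy)⟩

variable [TopologicalSpace E] [IsTopologicalAddGroup E] [ContinuousSMul ℝ E] [T2Space E]

/-- One continuous affine self-map of a nonempty compact convex set has a fixed point. -/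
theorem exists_fixed_one {C : Set E} (hC : IsCompact C) (hne : C.Nonempty) (hconv : Convex ℝ C)
    {T : E → E} (hcont : ContinuousOn T C) (hT : AffOn C T) : ∃ x ∈ C, T x = x := by
  obtain ⟨x0, hx0⟩ := hne
  set u : ℕ → E := avg T x0 with hu
  have hmem : ∀ n, u n ∈ C := fun n => avg_mem hconv hT.maps hx0 n
  let F : Filter ℕ := (Filter.hyperfilter ℕ : Filter ℕ)
  have hFle : F ≤ atTop := by
    have := Filter.hyperfilter_le_cofinite (α := ℕ)
    rwa [Nat.cofinite_eq_atTop] at this
  -- limit point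
  obtain ⟨x, hx, hlim⟩ := hC.ultrafilter_le_nhds ((Filter.hyperfilter ℕ).map u) (by
    rw [Ultrafilter.coe_map, Filter.le_principal_iff]
    exact Filter.mem_map.2 (Filter.univ_mem' hmem))
  have hlim' : Tendsto u F (𝓝 x) := hlim
  have hTlim : Tendsto (fun n => T (u n)) F (𝓝 (T x)) := by
    have h1 : Tendsto u F (𝓝[C] x) :=
      tendsto_nhdsWithin_iff.2 ⟨hlim', Filter.univ_mem' hmem⟩
    exact (hcont x hx).tendsto.comp h1
  have hcc : IsCompact (C - C) := by
    have h1 := (hC.prod hC).image (continuous_sub (G := E))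
    refine (Set.ext fun z => ?_ : (fun p : E × E => p.1 - p.2) '' (C ×ˢ C) = C - C) ▸ h1
    simp [Set.mem_sub]
  have hb : Bornology.IsVonNBounded ℝ (C - C) := hcc.isVonNBounded ℝ
  have hzero : Tendsto (fun n : ℕ => (1 / ((n : ℝ) + 1)) • (T^[n + 1] x0 - x0)) F (𝓝 0) := by
    have h2 : Tendsto (fun n : ℕ => (1 / ((n : ℝ) + 1))) F (𝓝 0) :=
      (tendsto_one_div_add_atTop_nhds_zero_nat (𝕜 := ℝ)).mono_left hFle
    exact hb.smul_tendsto_zero (Filter.univ_mem' (fun n =>
      Set.sub_mem_sub (iter_mem hT.maps hx0 (n + 1)) hx0)) h2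
  have hsum : Tendsto (fun n => T (u n)) F (𝓝 (x + 0)) := by
    have := hlim'.add hzero
    refine this.congr (fun n => ?_)
    rw [map_avg hconv hT hx0 n]
  refine ⟨x, hx, ?_⟩
  rw [add_zero] at hsum
  exact tendsto_nhds_unique hTlim hsum

omit [AddCommGroup E] [Module ℝ E] [IsTopologicalAddGroup E] [ContinuousSMul ℝ E] in
lemma fixIn_compact {C : Set E} (hC : IsCompact C) {T : E → E} (hcont : ContinuousOn T C) :
    IsCompact (fixIn C T) := by
  have hcl : IsClosed (fixIn C T) := by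
    have h1 : ContinuousOn (fun x => (T x, x)) C := hcont.prodMk continuousOn_id
    have h2 := h1.preimage_isClosed_of_isClosed hC.isClosed isClosed_diagonal
    have : fixIn C T = C ∩ (fun x => (T x, x)) ⁻¹' (diagonal E) := by
      ext x
      simp [fixIn, Set.mem_diagonal_iff]
    rw [this]
    exact h2
  exact hC.of_isClosed_subset hcl (fixIn_subset C T)

/-- Markov-Kakutani for a commuting family. -/
theorem exists_fixed_comm {ι : Type*} {C : Set E} (hC : IsCompact C) (hne : C.Nonempty)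
    (hconv : Convex ℝ C) (T : ι → E → E) (hcont : ∀ i, ContinuousOn (T i) C)
    (hT : ∀ i, AffOn C (T i)) (hcomm : ∀ i j, ∀ x ∈ C, T i (T j x) = T j (T i x)) :
    ∃ x ∈ C, ∀ i, T i x = x := by
  classical
  -- finite subfamilies
  have key : ∀ s : Finset ι, ({x | x ∈ C ∧ ∀ i ∈ s, T i x = x} : Set E).Nonempty ∧
      IsCompact ({x | x ∈ C ∧ ∀ i ∈ s, T i x = x} : Set E) ∧
      Convex ℝ ({x | x ∈ C ∧ ∀ i ∈ s, T i x = x} : Set E) := by
    intro s
    induction s using Finset.induction_on with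
    | empty => simpa using ⟨hne, hC, hconv⟩
    | insert j s hj ih =>
      obtain ⟨ihne, ihc, ihv⟩ := ih
      set D : Set E := {x | x ∈ C ∧ ∀ i ∈ s, T i x = x} with hD
      have hDC : D ⊆ C := fun x hx => hx.1
      have hm : MapsTo (T j) D D := by
        intro x hx
        refine ⟨(hT j).maps hx.1, fun i hi => ?_⟩
        rw [hcomm i j x hx.1, hx.2 i hi]
      have hA : AffOn D (T j) := (hT j).mono hDC hm
      have e : ({x | x ∈ C ∧ ∀ i ∈ insert j s, T i x = x} : Set E) = fixIn D (T j) := by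
        ext x
        simp only [Finset.mem_insert, forall_eq_or_imp, mem_ofPred_eq, fixIn, hD]
        tauto
      rw [e]
      refine ⟨?_, fixIn_compact ihc ((hcont j).mono hDC), fixIn_convex ihv hA⟩
      obtain ⟨x, hx, hfx⟩ := exists_fixed_one ihc ihne ihv ((hcont j).mono hDC) hA
      exact ⟨x, hx, hfx⟩
  -- compactness
  have hne' : (C ∩ ⋂ i, fixIn C (T i)).Nonempty := by
    refine hC.inter_iInter_nonempty (fun i => fixIn C (T i))
      (fun i => (fixIn_compact hC (hcont i)).isClosed) (fun u => ?_)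
    obtain ⟨x, hx⟩ := (key u).1
    refine ⟨x, hx.1, ?_⟩
    simp only [mem_iInter]
    intro i hi
    exact ⟨hx.1, hx.2 i hi⟩
  obtain ⟨x, hx, hfx⟩ := hne'
  refine ⟨x, hx, fun i => ?_⟩
  exact (mem_iInter.1 hfx i).2

section group

variable {G : Type*} [Group G]

/-- One step: `N` normal containing all commutators, with a fixed point of `N` in `C`. -/
theorem exists_fixed_step {C : Set E} (hC : IsCompact C)
    (hconv : Convex ℝ C) (T : G → E → E) (hcont : ∀ g, ContinuousOn (T g) C)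
    (hT : ∀ g, AffOn C (T g))
    (hmul : ∀ g h, ∀ x ∈ C, T (g * h) x = T g (T h x))
    (H N : Subgroup G) (hN : ∀ g ∈ H, ∀ h ∈ N, g * h * g⁻¹ ∈ N)
    (hHN : ∀ g ∈ H, ∀ h ∈ H, g * h * g⁻¹ * h⁻¹ ∈ N)
    (hfix : ∃ x ∈ C, ∀ g ∈ N, T g x = x) : ∃ x ∈ C, ∀ g ∈ H, T g x = x := by
  classical
  set D : Set E := {x | x ∈ C ∧ ∀ g ∈ N, T g x = x} with hD
  have hDC : D ⊆ C := fun x hx => hx.1
  have hDe : D = C ∩ ⋂ g : N, fixIn C (T g) := by
    ext x
    simp only [hD, mem_ofPred_eq, mem_inter_iff, mem_iInter, fixIn, Subtype.forall]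
    constructor
    · rintro ⟨h1, h2⟩
      exact ⟨h1, fun g hg => ⟨h1, h2 g hg⟩⟩
    · rintro ⟨h1, h2⟩
      exact ⟨h1, fun g hg => (h2 g hg).2⟩
  have hDc : IsCompact D := by
    rw [hDe]
    exact hC.inter_right (isClosed_iInter fun g => (fixIn_compact hC (hcont g)).isClosed)
  have hDv : Convex ℝ D := by
    rw [hDe]
    exact hconv.inter (convex_iInter fun g => fixIn_convex hconv (hT g))
  have hDne : D.Nonempty := hfix
  have hmaps : ∀ g ∈ H, MapsTo (T g) D D := by
    intro g hg x hx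
    refine ⟨(hT g).maps hx.1, fun h hh => ?_⟩
    have h1 : h * g = g * (g⁻¹ * h * g) := by group
    have h2 : g⁻¹ * h * g ∈ N := by
      have := hN g⁻¹ (H.inv_mem hg) h hh
      simpa using this
    rw [← hmul h g x hx.1, h1, hmul _ _ x hx.1, hx.2 _ h2]
  obtain ⟨x, hx, hfx⟩ := exists_fixed_comm hDc hDne hDv (fun g : H => T g)
    (fun g => (hcont g).mono hDC) (fun g => (hT g).mono hDC (hmaps g g.2)) (by
      rintro ⟨g, hg⟩ ⟨h, hh⟩ x hx
      simp only
      have h1 : g * h = h * g * (g⁻¹ * h⁻¹ * g * h) := by group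
      have h2 : g⁻¹ * h⁻¹ * g * h ∈ N := by
        have := hHN g⁻¹ (H.inv_mem hg) h⁻¹ (H.inv_mem hh)
        simpa using this
      rw [← hmul g h x hx.1, h1, hmul _ _ x hx.1, hx.2 _ h2, hmul _ _ x hx.1])
  exact ⟨x, hDC hx, fun g hg => hfx ⟨g, hg⟩⟩

/-- Markov-Kakutani for solvable groups. -/
theorem exists_fixed_solvable [Group.IsSolvable G] {C : Set E} (hC : IsCompact C) (hne : C.Nonempty)
    (hconv : Convex ℝ C) (T : G → E → E) (hcont : ∀ g, ContinuousOn (T g) C)
    (hT : ∀ g, AffOn C (T g)) (hone : ∀ x ∈ C, T 1 x = x)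
    (hmul : ∀ g h, ∀ x ∈ C, T (g * h) x = T g (T h x)) :
    ∃ x ∈ C, ∀ g, T g x = x := by
  obtain ⟨n, hn⟩ := (Group.isSolvable_def G).1 inferInstance
  have key : ∀ k, k ≤ n → ∃ x ∈ C, ∀ g ∈ derivedSeries G (n - k), T g x = x := by
    intro k
    induction k with
    | zero =>
      intro _
      obtain ⟨x, hx⟩ := hne
      refine ⟨x, hx, fun g hg => ?_⟩
      rw [Nat.sub_zero, hn, Subgroup.mem_bot] at hg
      rw [hg, hone x hx]
    | succ k ih =>
      intro hk
      have e : n - k = (n - (k + 1)) + 1 := by omega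
      refine exists_fixed_step hC hconv T hcont hT hmul (derivedSeries G (n - (k + 1)))
        (derivedSeries G (n - k)) ?_ ?_ (ih (by omega))
      · intro g _ h hh
        exact (derivedSeries_normal G (n - k)).conj_mem h hh g
      · intro g hg h hh
        rw [e, derivedSeries_succ]
        exact Subgroup.commutator_mem_commutator hg hh
  obtain ⟨x, hx, hfx⟩ := key n le_rfl
  refine ⟨x, hx, fun g => hfx g ?_⟩
  simp

/-- Metabelian form: `A` a normal subgroup whose elements commute, with commutative quotient. -/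
theorem exists_fixed_metabelian {C : Set E} (hC : IsCompact C) (hne : C.Nonempty)
    (hconv : Convex ℝ C) (T : G → E → E) (hcont : ∀ g, ContinuousOn (T g) C)
    (hT : ∀ g, AffOn C (T g)) (hone : ∀ x ∈ C, T 1 x = x)
    (hmul : ∀ g h, ∀ x ∈ C, T (g * h) x = T g (T h x))
    (A : Subgroup G) (hA : ∀ g ∈ A, ∀ h ∈ A, g * h = h * g)
    (hG : ∀ g h : G, g * h * g⁻¹ * h⁻¹ ∈ A) :
    ∃ x ∈ C, ∀ g, T g x = x := by
  have h0 : ∃ x ∈ C, ∀ g ∈ (⊥ : Subgroup G), T g x = x := by
    obtain ⟨x, hx⟩ := hne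
    refine ⟨x, hx, fun g hg => ?_⟩
    rw [Subgroup.mem_bot] at hg
    rw [hg, hone x hx]
  have h1 := exists_fixed_step hC hconv T hcont hT hmul A ⊥
    (by
      intro g _ h hh
      rw [Subgroup.mem_bot] at hh
      simp [hh])
    (by
      intro g hg h hh
      rw [Subgroup.mem_bot, hA g hg h hh]
      group) h0
  obtain ⟨x, hx, hfx⟩ := exists_fixed_step hC hconv T hcont hT hmul ⊤ A
    (by
      intro g _ h hh
      have := hG g h
      have h2 := A.mul_mem this hh
      simpa using h2)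
    (fun g _ h _ => hG g h) h1
  exact ⟨x, hx, fun g => hfx g (Subgroup.mem_top g)⟩

end group

end P011.H21.MK
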