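import Mathlib.Algebra.Star.Module
import Mathlib.Algebra.Algebra.Basic
import Mathlib.Algebra.Star.SelfAdjoint
import Mathlib.GroupTheory.Commutator.Basic
import Mathlib.Tactic.Module
import Mathlib.Tactic.NoncommRing
import Mathlib.Algebra.Group.Subgroup.Basic

/-!
Permutations of the unitary group of an anisotropic algebra with involution of the second kind,
in every characteristic: translations `T v` (`v` symmetric), `W e` (`e` a unit) in the Cayley
chart `x ↦ (x + w)(x + w*)⁻¹`, and their laws.
-/

set_option linter.unusedSectionVars false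
set_option linter.unusedSimpArgs false

namespace Vale.Agent.P011.H21

/-- The group of the unitary elements. -/
def UA (A : Type*) [Ring A] [StarRing A] : Subgroup Aˣ where
  carrier := {g | (g : A) * star (g : A) = 1}
  mul_mem' := by
    intro a b h1 h3
    change ((a * b : Aˣ) : A) * star ((a * b : Aˣ) : A) = 1
    rw [Units.val_mul, star_mul, mul_assoc, ← mul_assoc (b : A), h3, one_mul, h1]
  one_mem' := by
    change ((1 : Aˣ) : A) * star ((1 : Aˣ) : A) = 1
    rw [Units.val_one, star_one, one_mul]
  inv_mem' := by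
    intro a h1
    have h3 : star (a : A) = ((a⁻¹ : Aˣ) : A) := by
      rw [← Units.mul_right_inj a, h1, Units.mul_inv]
    change ((a⁻¹ : Aˣ) : A) * star ((a⁻¹ : Aˣ) : A) = 1
    rw [← h3, star_star, h3, Units.inv_mul]

/-- Anisotropy, and injective left multiplications are bijective (finite dimension). -/
structure AnisR (A : Type*) [Ring A] [StarRing A] : Prop where
  an : ∀ x : A, star x * x = 0 → x = 0
  fin : ∀ x : A, (∀ z, x * z = 0 → z = 0) → IsUnit x

theorem anisR_of_divisionRing {D : Type*} [DivisionRing D] [StarRing D] : AnisR D where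
  an x h := by
    rcases mul_eq_zero.mp h with h | h
    · exact star_eq_zero.mp h
    · exact h
  fin x h := by
    refine isUnit_iff_ne_zero.mpr fun hx => ?_
    exact one_ne_zero (h 1 (by rw [hx, zero_mul]))

section basic

variable {A : Type*} [Ring A] [StarRing A]

theorem mem_UA {g : Aˣ} : g ∈ UA A ↔ (g : A) * star (g : A) = 1 := Iff.rfl

theorem UA_mul_star (u : UA A) : ((u : Aˣ) : A) * star ((u : Aˣ) : A) = 1 := u.2

theorem UA_star_eq (u : UA A) : star ((u : Aˣ) : A) = (((u⁻¹ : UA A) : Aˣ) : A) := by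
  rw [← Units.mul_right_inj (u : Aˣ), UA_mul_star u, Subgroup.coe_inv, Units.mul_inv]

theorem UA_star_mul (u : UA A) : star ((u : Aˣ) : A) * ((u : Aˣ) : A) = 1 := by
  rw [UA_star_eq, Subgroup.coe_inv, Units.inv_mul]

theorem UA_ext {u v : UA A} (h : ((u : Aˣ) : A) = ((v : Aˣ) : A)) : u = v :=
  Subtype.ext (Units.ext h)

/-- A quotient of two elements of equal norm is unitary. -/
theorem exists_unitary (hA : AnisR A) {X Y : A} (hXY : star X * X = star Y * Y)
    (hinj : ∀ z, X * z = 0 → Y * z = 0 → z = 0) :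
    IsUnit X ∧ ∃ v : UA A, ((v : Aˣ) : A) * X = Y := by
  have hX : IsUnit X := by
    refine hA.fin X fun z hz => hinj z hz ?_
    apply hA.an
    have h1 : star (Y * z) * (Y * z) = star z * (star Y * Y) * z := by
      rw [star_mul]; noncomm_ring
    rw [h1, ← hXY]
    have h2 : star z * (star X * X) * z = star z * star X * (X * z) := by noncomm_ring
    rw [h2, hz, mul_zero]
  refine ⟨hX, ?_⟩
  obtain ⟨x, rfl⟩ := hX
  set V : A := Y * ((x⁻¹ : Aˣ) : A) with hV
  have hVX : V * (x : A) = Y := by rw [hV, mul_assoc, Units.inv_mul, mul_one]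
  have hxs : star ((x⁻¹ : Aˣ) : A) * star (x : A) = 1 := by
    rw [← star_mul, Units.mul_inv, star_one]
  have h1 : star V * V = 1 := by
    rw [hV, star_mul]
    have h2 : star ((x⁻¹ : Aˣ) : A) * star Y * (Y * ((x⁻¹ : Aˣ) : A)) =
        star ((x⁻¹ : Aˣ) : A) * (star Y * Y) * ((x⁻¹ : Aˣ) : A) := by noncomm_ring
    rw [h2, ← hXY]
    have h3 : star ((x⁻¹ : Aˣ) : A) * (star (x : A) * (x : A)) * ((x⁻¹ : Aˣ) : A) =
        (star ((x⁻¹ : Aˣ) : A) * star (x : A)) * ((x : A) * ((x⁻¹ : Aˣ) : A)) := by noncomm_ring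
    rw [h3, hxs, Units.mul_inv, one_mul]
  have hVu : IsUnit V := by
    refine hA.fin V fun z hz => ?_
    have h2 : z = star V * (V * z) := by rw [← mul_assoc, h1, one_mul]
    rw [h2, hz, mul_zero]
  obtain ⟨v, hv⟩ := hVu
  have h4 : (v : A) * star (v : A) = 1 := by
    have h5 : star (v : A) = ((v⁻¹ : Aˣ) : A) := by
      rw [← Units.mul_left_inj v, Units.inv_mul, hv, h1]
    rw [h5, Units.mul_inv]
  exact ⟨⟨v, h4⟩, by rw [← hVX, ← hv]⟩

theorem UA_cancel {u v : UA A} {X Y : A} (hX : IsUnit X) (h1 : ((u : Aˣ) : A) * X = Y)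
    (h2 : ((v : Aˣ) : A) * X = Y) : u = v := by
  apply UA_ext
  exact hX.mul_right_cancel (h1.trans h2.symm)

theorem comp_spec {a1 b1 c1 e1 a2 b2 c2 e2 u v v' : A}
    (h2 : v * (a2 + b2 * u) = c2 + e2 * u) (h1 : v' * (a1 + b1 * v) = c1 + e1 * v) :
    v' * ((a1 * a2 + b1 * c2) + (a1 * b2 + b1 * e2) * u) =
      (c1 * a2 + e1 * c2) + (c1 * b2 + e1 * e2) * u := by
  have hX : (a1 * a2 + b1 * c2) + (a1 * b2 + b1 * e2) * u = (a1 + b1 * v) * (a2 + b2 * u) := by
    rw [add_mul (a1) (b1 * v), mul_assoc b1 v, h2]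
    noncomm_ring
  have hY : (c1 * a2 + e1 * c2) + (c1 * b2 + e1 * e2) * u = (c1 + e1 * v) * (a2 + b2 * u) := by
    rw [add_mul (c1) (e1 * v), mul_assoc e1 v, h2]
    noncomm_ring
  rw [hX, hY, ← mul_assoc, h1]

end basic

section mob

variable {K A : Type*} [Field K] [StarRing K] [Ring A] [StarRing A] [Algebra K A] [StarModule K A]

/-- The matrix `(a b; c e)` preserves the form up to the multiplier `m`. -/
structure Pres (a b c e : A) (m : K) : Prop where
  h1 : star a * a - star c * c = m • (1 : A)
  h2 : star e * e - star b * b = m • (1 : A)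
  h3 : star a * b = star c * e
  hm : m ≠ 0

theorem Pres.exists {a b c e : A} {m : K} (h : Pres a b c e m) (hA : AnisR A) (u : UA A) :
    IsUnit (a + b * ((u : Aˣ) : A)) ∧
      ∃ v : UA A, ((v : Aˣ) : A) * (a + b * ((u : Aˣ) : A)) = c + e * ((u : Aˣ) : A) := by
  set x : A := ((u : Aˣ) : A) with hx
  have hu : star x * x = 1 := UA_star_mul u
  have h3' : star b * a = star e * c := by
    have := congrArg star h.h3
    rwa [star_mul, star_star, star_mul, star_star] at this
  refine exists_unitary hA ?_ ?_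
  · have e1 : star (a + b * x) * (a + b * x) =
        star a * a + star a * b * x + star x * (star b * a) + star x * (star b * b) * x := by
      rw [star_add, star_mul]; noncomm_ring
    have e2 : star (c + e * x) * (c + e * x) =
        star c * c + star c * e * x + star x * (star e * c) + star x * (star e * e) * x := by
      rw [star_add, star_mul]; noncomm_ring
    have e3 : star a * a = star c * c + m • (1 : A) := by rw [← h.h1]; abel
    have e4 : star e * e = star b * b + m • (1 : A) := by rw [← h.h2]; abel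
    rw [e1, e2, e3, e4, h.h3, h3']
    have e5 : star x * (star b * b + m • (1 : A)) * x = star x * (star b * b) * x + m • (1 : A) := by
      rw [mul_add, add_mul, mul_smul_comm, mul_one, smul_mul_assoc, hu]
    rw [e5]
    abel
  · intro z hz1 hz2
    have e1 : star a * ((a + b * x) * z) = (star a * a) * z + (star a * b) * x * z := by
      noncomm_ring
    have e2 : star c * ((c + e * x) * z) = (star c * c) * z + (star c * e) * x * z := by
      noncomm_ring
    rw [hz1, mul_zero] at e1
    rw [hz2, mul_zero] at e2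
    have e3 : (star a * a - star c * c) * z = 0 := by
      have e4 : (star a * a - star c * c) * z = ((star a * a) * z + (star a * b) * x * z) -
          ((star c * c) * z + (star c * e) * x * z) := by
        rw [h.h3]; noncomm_ring
      rw [e4, ← e1, ← e2, sub_zero]
    rw [h.h1, smul_mul_assoc, one_mul] at e3
    have e5 : m⁻¹ • (m • z) = m⁻¹ • (0 : A) := by rw [e3]
    rwa [smul_smul, inv_mul_cancel₀ h.hm, one_smul, smul_zero] at e5

/-- The basic comparison lemma: the composite of two matrices is a central multiple of a third. -/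
theorem eq_of_comp {a1 b1 c1 e1 a2 b2 c2 e2 a b c e : A} {u v v' v'' : UA A} {z : K}
    (h2 : ((v : Aˣ) : A) * (a2 + b2 * ((u : Aˣ) : A)) = c2 + e2 * ((u : Aˣ) : A))
    (h1 : ((v' : Aˣ) : A) * (a1 + b1 * ((v : Aˣ) : A)) = c1 + e1 * ((v : Aˣ) : A))
    (h3 : ((v'' : Aˣ) : A) * (a + b * ((u : Aˣ) : A)) = c + e * ((u : Aˣ) : A))
    (hX : IsUnit (a + b * ((u : Aˣ) : A))) (hz : z ≠ 0)
    (ea : a1 * a2 + b1 * c2 = z • a) (eb : a1 * b2 + b1 * e2 = z • b)
    (ec : c1 * a2 + e1 * c2 = z • c) (ee : c1 * b2 + e1 * e2 = z • e) : v' = v'' := by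
  have h4 := comp_spec h2 h1
  rw [ea, eb, ec, ee, smul_mul_assoc, smul_mul_assoc, ← smul_add, ← smul_add, mul_smul_comm] at h4
  have h5 : ((v' : Aˣ) : A) * (a + b * ((u : Aˣ) : A)) = c + e * ((u : Aˣ) : A) := by
    have h6 := congrArg (fun y => z⁻¹ • y) h4
    simpa only [smul_smul, inv_mul_cancel₀ hz, one_smul] using h6
  exact UA_cancel hX h5 h3

/-- The constant `w - w*`. -/
def eta (w : K) : K := w - star w

theorem star_eta (w : K) : star (eta w) = -eta w := by
  rw [eta, star_sub, star_star]; ring

theorem eta_ne {w : K} (hw : star w ≠ w) : eta w ≠ 0 := fun h => hw (sub_eq_zero.mp h).symm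

section T

theorem presT {w : K} (hw : star w ≠ w) {v : A} (hv : star v = v) :
    Pres (eta w • (1 : A) - v) v (-v) (eta w • (1 : A) + v) (-(eta w) ^ 2) where
  h1 := by
    rw [star_sub, star_smul, star_one, hv, star_neg, hv, star_eta]
    simp only [mul_add, add_mul, mul_sub, sub_mul, smul_mul_assoc, mul_smul_comm, one_mul, mul_one,
      mul_neg, neg_mul]
    module
  h2 := by
    rw [star_add, star_smul, star_one, hv, star_eta]
    simp only [mul_add, add_mul, mul_sub, sub_mul, smul_mul_assoc, mul_smul_comm, one_mul, mul_one,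
      mul_neg, neg_mul]
    module
  h3 := by
    rw [star_sub, star_smul, star_one, hv, star_neg, hv, star_eta]
    simp only [mul_add, add_mul, mul_sub, sub_mul, smul_mul_assoc, mul_smul_comm, one_mul, mul_one,
      mul_neg, neg_mul]
    module
  hm := neg_ne_zero.mpr (pow_ne_zero 2 (eta_ne hw))

theorem T_den_unit {w : K} (hA : AnisR A) (hw : star w ≠ w) {v : A} (hv : star v = v)
    (u : UA A) : IsUnit ((eta w • (1 : A) - v) + v * ((u : Aˣ) : A)) :=
  ((presT hw hv).exists hA u).1

open Classical in
/-- The translation by `v` as a map (junk value if `v` is not symmetric). -/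
noncomputable def Tfun (w : K) (v : A) (u : UA A) : UA A :=
  if h : ∃ v' : UA A, ((v' : Aˣ) : A) * ((eta w • (1 : A) - v) + v * ((u : Aˣ) : A)) =
    -v + (eta w • (1 : A) + v) * ((u : Aˣ) : A) then h.choose else u

theorem Tfun_spec {w : K} (hA : AnisR A) (hw : star w ≠ w) {v : A} (hv : star v = v) (u : UA A) :
    ((Tfun w v u : Aˣ) : A) * ((eta w • (1 : A) - v) + v * ((u : Aˣ) : A)) =
      -v + (eta w • (1 : A) + v) * ((u : Aˣ) : A) := by
  have h := ((presT hw hv).exists hA u).2
  rw [Tfun, dif_pos h]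
  exact h.choose_spec

theorem Tfun_add {w : K} (hA : AnisR A) (hw : star w ≠ w) {v v' : A} (hv : star v = v)
    (hv' : star v' = v') (u : UA A) : Tfun w v (Tfun w v' u) = Tfun w (v + v') u := by
  have hvv : star (v + v') = v + v' := by rw [star_add, hv, hv']
  refine eq_of_comp (Tfun_spec hA hw hv' u) (Tfun_spec hA hw hv _) (Tfun_spec hA hw hvv u)
    (T_den_unit hA hw hvv u) (eta_ne hw) ?_ ?_ ?_ ?_
  all_goals
    simp only [mul_add, add_mul, mul_sub, sub_mul, smul_mul_assoc, mul_smul_comm, one_mul, mul_one,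
      mul_neg, neg_mul]
    module

theorem Tfun_zero {w : K} (hA : AnisR A) (hw : star w ≠ w) (u : UA A) :
    Tfun w (0 : A) u = u := by
  refine UA_cancel (T_den_unit hA hw (star_zero A) u) (Tfun_spec hA hw (star_zero A) u) ?_
  rw [zero_mul, add_zero, sub_zero, add_zero, neg_zero, zero_add, mul_smul_comm, mul_one,
    smul_mul_assoc, one_mul]

open Classical in
/-- **The translation by `v`**, a permutation of the unitary group. -/
noncomputable def T (w : K) (v : A) : Equiv.Perm (UA A) :=
  if h : AnisR A ∧ star w ≠ w ∧ star v = v then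
    { toFun := Tfun w v
      invFun := Tfun w (-v)
      left_inv := fun u => by
        have hv : star (-v) = -v := by rw [star_neg, h.2.2]
        rw [Tfun_add h.1 h.2.1 hv h.2.2, neg_add_cancel, Tfun_zero h.1 h.2.1]
      right_inv := fun u => by
        have hv : star (-v) = -v := by rw [star_neg, h.2.2]
        rw [Tfun_add h.1 h.2.1 h.2.2 hv, add_neg_cancel, Tfun_zero h.1 h.2.1] }
  else 1

theorem T_apply {w : K} (hA : AnisR A) (hw : star w ≠ w) {v : A} (hv : star v = v) (u : UA A) :
    T w v u = Tfun w v u := by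
  rw [T, dif_pos ⟨hA, hw, hv⟩]
  rfl

theorem T_spec {w : K} (hA : AnisR A) (hw : star w ≠ w) {v : A} (hv : star v = v) (u : UA A) :
    ((T w v u : Aˣ) : A) * ((eta w • (1 : A) - v) + v * ((u : Aˣ) : A)) =
      -v + (eta w • (1 : A) + v) * ((u : Aˣ) : A) := by
  rw [T_apply hA hw hv]
  exact Tfun_spec hA hw hv u

theorem T_add {w : K} (hA : AnisR A) (hw : star w ≠ w) {v v' : A} (hv : star v = v)
    (hv' : star v' = v') : T w (v + v') = T w v * T w v' := by
  have hvv : star (v + v') = v + v' := by rw [star_add, hv, hv']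
  ext1 u
  rw [Equiv.Perm.mul_apply, T_apply hA hw hv', T_apply hA hw hv, T_apply hA hw hvv,
    Tfun_add hA hw hv hv']

theorem T_zero {w : K} (hA : AnisR A) (hw : star w ≠ w) : T w (0 : A) = 1 := by
  ext1 u
  rw [T_apply hA hw (star_zero A), Tfun_zero hA hw, Equiv.Perm.one_apply]

theorem T_neg {w : K} (hA : AnisR A) (hw : star w ≠ w) {v : A} (hv : star v = v) :
    T w (-v) = (T w v)⁻¹ := by
  have hv' : star (-v) = -v := by rw [star_neg, hv]
  rw [eq_inv_iff_mul_eq_one, ← T_add hA hw hv' hv, neg_add_cancel, T_zero hA hw]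

theorem T_comm {w : K} (hA : AnisR A) (hw : star w ≠ w) {v v' : A} (hv : star v = v)
    (hv' : star v' = v') : T w v * T w v' = T w v' * T w v := by
  rw [← T_add hA hw hv hv', ← T_add hA hw hv' hv, add_comm]

theorem T_one' {w : K} (hA : AnisR A) (hw : star w ≠ w) {v : A} (hv : star v = v) :
    T w v 1 = 1 := by
  refine UA_cancel (T_den_unit hA hw hv 1) (T_spec hA hw hv 1) ?_
  rw [Subgroup.coe_one, Units.val_one, one_mul, mul_one, mul_one]
  abel

end T

section W

/-- The conjugate inverse. -/
def ci (e : Aˣ) : A := star ((e⁻¹ : Aˣ) : A)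

theorem star_mul_ci (e : Aˣ) : star (e : A) * ci e = 1 := by
  rw [ci, ← star_mul, Units.inv_mul, star_one]

theorem ci_mul_star (e : Aˣ) : ci e * star (e : A) = 1 := by
  rw [ci, ← star_mul, Units.mul_inv, star_one]

theorem star_ci (e : Aˣ) : star (ci e) = ((e⁻¹ : Aˣ) : A) := star_star _

theorem ci_mul (e e' : Aˣ) : ci (e * e') = ci e * ci e' := by
  rw [ci, ci, ci, mul_inv_rev, Units.val_mul, star_mul]

theorem ci_one : ci (1 : Aˣ) = (1 : A) := by
  rw [ci, inv_one, Units.val_one, star_one]

theorem ci_unitary (u : UA A) : ci (u : Aˣ) = ((u : Aˣ) : A) := by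
  have h := congrArg star (UA_star_eq u)
  rw [star_star] at h
  rw [ci, ← Subgroup.coe_inv, ← h]

theorem presW {w : K} (hw : star w ≠ w) (e : Aˣ) :
    Pres (w • (e : A) - star w • ci e) (star w • ci e - star w • (e : A))
      (w • (e : A) - w • ci e) (w • ci e - star w • (e : A)) (-(eta w) ^ 2) where
  h1 := by
    rw [star_sub, star_sub, star_smul, star_smul, star_smul, star_ci, star_star]
    simp only [mul_sub, sub_mul, smul_mul_assoc, mul_smul_comm, star_mul_ci, Units.inv_mul,
      smul_sub, smul_smul, eta]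
    module
  h2 := by
    rw [star_sub, star_sub, star_smul, star_smul, star_smul, star_ci, star_star]
    simp only [mul_sub, sub_mul, smul_mul_assoc, mul_smul_comm, star_mul_ci, Units.inv_mul,
      smul_sub, smul_smul, eta, star_smul, star_star]
    module
  h3 := by
    rw [star_sub, star_sub, star_smul, star_smul, star_smul, star_ci, star_star]
    simp only [mul_sub, sub_mul, smul_mul_assoc, mul_smul_comm, star_mul_ci, Units.inv_mul,
      smul_sub, smul_smul, eta, star_smul, star_star]
    module
  hm := neg_ne_zero.mpr (pow_ne_zero 2 (eta_ne hw))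

theorem W_den_unit {w : K} (hA : AnisR A) (hw : star w ≠ w) (e : Aˣ) (u : UA A) :
    IsUnit ((w • (e : A) - star w • ci e) +
      (star w • ci e - star w • (e : A)) * ((u : Aˣ) : A)) :=
  ((presW hw e).exists hA u).1

open Classical in
/-- The map `W e`. -/
noncomputable def Wfun (w : K) (e : Aˣ) (u : UA A) : UA A :=
  if h : ∃ v' : UA A, ((v' : Aˣ) : A) * ((w • (e : A) - star w • ci e) +
      (star w • ci e - star w • (e : A)) * ((u : Aˣ) : A)) =
    (w • (e : A) - w • ci e) + (w • ci e - star w • (e : A)) * ((u : Aˣ) : A)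
  then h.choose else u

theorem Wfun_spec {w : K} (hA : AnisR A) (hw : star w ≠ w) (e : Aˣ) (u : UA A) :
    ((Wfun w e u : Aˣ) : A) * ((w • (e : A) - star w • ci e) +
      (star w • ci e - star w • (e : A)) * ((u : Aˣ) : A)) =
      (w • (e : A) - w • ci e) + (w • ci e - star w • (e : A)) * ((u : Aˣ) : A) := by
  have h := ((presW hw e).exists hA u).2
  rw [Wfun, dif_pos h]
  exact h.choose_spec

theorem Wfun_mul {w : K} (hA : AnisR A) (hw : star w ≠ w) (e e' : Aˣ) (u : UA A) :
    Wfun w e (Wfun w e' u) = Wfun w (e * e') u := by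
  refine eq_of_comp (Wfun_spec hA hw e' u) (Wfun_spec hA hw e _) (Wfun_spec hA hw (e * e') u)
    (W_den_unit hA hw (e * e') u) (eta_ne hw) ?_ ?_ ?_ ?_
  all_goals
    rw [ci_mul, Units.val_mul]
    simp only [mul_add, add_mul, mul_sub, sub_mul, smul_mul_assoc, mul_smul_comm, one_mul, mul_one,
      mul_neg, neg_mul, eta, smul_sub, smul_smul]
    module

theorem Wfun_one {w : K} (hA : AnisR A) (hw : star w ≠ w) (u : UA A) :
    Wfun w (1 : Aˣ) u = u := by
  refine UA_cancel (W_den_unit hA hw 1 u) (Wfun_spec hA hw 1 u) ?_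
  rw [ci_one, Units.val_one, sub_self, zero_mul, add_zero, sub_self, zero_add, ← sub_smul,
    mul_smul_comm, mul_one, smul_mul_assoc, one_mul]

/-- **The permutation `W e`** of the unitary group. -/
noncomputable def W (w : K) (e : Aˣ) : Equiv.Perm (UA A) :=
  open Classical in
  if h : AnisR A ∧ star w ≠ w then
    { toFun := Wfun w e
      invFun := Wfun w e⁻¹
      left_inv := fun u => by
        rw [Wfun_mul h.1 h.2, inv_mul_cancel, Wfun_one h.1 h.2]
      right_inv := fun u => by
        rw [Wfun_mul h.1 h.2, mul_inv_cancel, Wfun_one h.1 h.2] }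
  else 1

theorem W_apply {w : K} (hA : AnisR A) (hw : star w ≠ w) (e : Aˣ) (u : UA A) :
    W w e u = Wfun w e u := by
  rw [W, dif_pos ⟨hA, hw⟩]
  rfl

theorem W_spec {w : K} (hA : AnisR A) (hw : star w ≠ w) (e : Aˣ) (u : UA A) :
    ((W w e u : Aˣ) : A) * ((w • (e : A) - star w • ci e) +
      (star w • ci e - star w • (e : A)) * ((u : Aˣ) : A)) =
      (w • (e : A) - w • ci e) + (w • ci e - star w • (e : A)) * ((u : Aˣ) : A) := by
  rw [W_apply hA hw]
  exact Wfun_spec hA hw e u

theorem W_mul {w : K} (hA : AnisR A) (hw : star w ≠ w) (e e' : Aˣ) :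
    W w (e * e') = W w e * W w e' := by
  ext1 u
  rw [Equiv.Perm.mul_apply, W_apply hA hw, W_apply hA hw, W_apply hA hw, Wfun_mul hA hw]

theorem W_one {w : K} (hA : AnisR A) (hw : star w ≠ w) : W w (1 : Aˣ) = 1 := by
  ext1 u
  rw [W_apply hA hw, Wfun_one hA hw, Equiv.Perm.one_apply]

theorem W_inv {w : K} (hA : AnisR A) (hw : star w ≠ w) (e : Aˣ) :
    W w e⁻¹ = (W w e)⁻¹ := by
  rw [eq_inv_iff_mul_eq_one, ← W_mul hA hw, inv_mul_cancel, W_one hA hw]

theorem W_one' {w : K} (hA : AnisR A) (hw : star w ≠ w) (e : Aˣ) : W w e 1 = 1 := by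
  refine UA_cancel (W_den_unit hA hw e 1) (W_spec hA hw e 1) ?_
  rw [Subgroup.coe_one, Units.val_one, one_mul, mul_one, mul_one]
  abel

theorem star_conj {e v : A} (hv : star v = v) : star (e * v * star e) = e * v * star e := by
  rw [star_mul, star_mul, star_star, hv, mul_assoc]

/-- `W e` normalizes the translations. -/
theorem W_T {w : K} (hA : AnisR A) (hw : star w ≠ w) (e : Aˣ) {v : A} (hv : star v = v) :
    W w e * T w v = T w ((e : A) * v * star (e : A)) * W w e := by
  have hv' : star ((e : A) * v * star (e : A)) = (e : A) * v * star (e : A) := star_conj hv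
  ext1 u
  rw [Equiv.Perm.mul_apply, Equiv.Perm.mul_apply]
  -- both sides are compared with the composite matrix
  have s1 := comp_spec (T_spec hA hw hv u) (W_spec hA hw e (T w v u))
  have s2 := comp_spec (W_spec hA hw e u) (T_spec hA hw hv' (W w e u))
  have hc : (e : A) * v * star (e : A) * ci e = (e : A) * v := by
    rw [mul_assoc, star_mul_ci, mul_one]
  set x : A := ((u : Aˣ) : A) with hx
  set a : A := eta w • (w • (e : A) - star w • ci e) - eta w • ((e : A) * v) with ha
  set b : A := eta w • (star w • ci e - star w • (e : A)) + eta w • ((e : A) * v) with hb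
  set c : A := eta w • (w • (e : A) - w • ci e) - eta w • ((e : A) * v) with hcc
  set f : A := eta w • (w • ci e - star w • (e : A)) + eta w • ((e : A) * v) with hf
  have a1 : (w • (e : A) - star w • ci e) * (eta w • (1 : A) - v) +
      (star w • ci e - star w • (e : A)) * -v = a := by
    rw [ha]
    simp only [mul_add, add_mul, mul_sub, sub_mul, smul_mul_assoc, mul_smul_comm, one_mul, mul_one,
      mul_neg, neg_mul, eta, smul_sub, smul_smul]
    module
  have b1 : (w • (e : A) - star w • ci e) * v +
      (star w • ci e - star w • (e : A)) * (eta w • (1 : A) + v) = b := by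
    rw [hb]
    simp only [mul_add, add_mul, mul_sub, sub_mul, smul_mul_assoc, mul_smul_comm, one_mul, mul_one,
      mul_neg, neg_mul, eta, smul_sub, smul_smul]
    module
  have c1 : (w • (e : A) - w • ci e) * (eta w • (1 : A) - v) +
      (w • ci e - star w • (e : A)) * -v = c := by
    rw [hcc]
    simp only [mul_add, add_mul, mul_sub, sub_mul, smul_mul_assoc, mul_smul_comm, one_mul, mul_one,
      mul_neg, neg_mul, eta, smul_sub, smul_smul]
    module
  have f1 : (w • (e : A) - w • ci e) * v +
      (w • ci e - star w • (e : A)) * (eta w • (1 : A) + v) = f := by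
    rw [hf]
    simp only [mul_add, add_mul, mul_sub, sub_mul, smul_mul_assoc, mul_smul_comm, one_mul, mul_one,
      mul_neg, neg_mul, eta, smul_sub, smul_smul]
    module
  have a2 : (eta w • (1 : A) - (e : A) * v * star (e : A)) * (w • (e : A) - star w • ci e) +
      (e : A) * v * star (e : A) * (w • (e : A) - w • ci e) = a := by
    rw [ha]
    simp only [mul_add, add_mul, mul_sub, sub_mul, smul_mul_assoc, mul_smul_comm, one_mul, mul_one,
      mul_neg, neg_mul, hc, eta, smul_sub, smul_smul]
    module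
  have b2 : (eta w • (1 : A) - (e : A) * v * star (e : A)) * (star w • ci e - star w • (e : A)) +
      (e : A) * v * star (e : A) * (w • ci e - star w • (e : A)) = b := by
    rw [hb]
    simp only [mul_add, add_mul, mul_sub, sub_mul, smul_mul_assoc, mul_smul_comm, one_mul, mul_one,
      mul_neg, neg_mul, hc, eta, smul_sub, smul_smul]
    module
  have c2 : -((e : A) * v * star (e : A)) * (w • (e : A) - star w • ci e) +
      (eta w • (1 : A) + (e : A) * v * star (e : A)) * (w • (e : A) - w • ci e) = c := by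
    rw [hcc]
    simp only [mul_add, add_mul, mul_sub, sub_mul, smul_mul_assoc, mul_smul_comm, one_mul, mul_one,
      mul_neg, neg_mul, hc, eta, smul_sub, smul_smul]
    module
  have f2 : -((e : A) * v * star (e : A)) * (star w • ci e - star w • (e : A)) +
      (eta w • (1 : A) + (e : A) * v * star (e : A)) * (w • ci e - star w • (e : A)) = f := by
    rw [hf]
    simp only [mul_add, add_mul, mul_sub, sub_mul, smul_mul_assoc, mul_smul_comm, one_mul, mul_one,
      mul_neg, neg_mul, hc, eta, smul_sub, smul_smul]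
    module
  rw [a1, b1, c1, f1] at s1
  rw [a2, b2, c2, f2] at s2
  refine UA_cancel ?_ s1 s2
  -- the denominator is a product of two units
  have hX : a + b * x = ((w • (e : A) - star w • ci e) +
      (star w • ci e - star w • (e : A)) * ((T w v u : Aˣ) : A)) *
        ((eta w • (1 : A) - v) + v * x) := by
    rw [add_mul (w • (e : A) - star w • ci e) _ ((eta w • (1 : A) - v) + v * x),
      mul_assoc (star w • ci e - star w • (e : A)), T_spec hA hw hv u, ← a1, ← b1]
    noncomm_ring
  rw [hX]
  exact (W_den_unit hA hw e _).mul (T_den_unit hA hw hv u)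

end W

end mob

end Vale.Agent.P011.H21
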