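import Vale.Agent.P011.H21.OneStepE
import Mathlib.LinearAlgebra.FiniteDimensional.Basic

/-!
Instances of `AnisR`, and the group `PE` with its normal commutative subgroup as data for
fixed point theorems.
-/

set_option linter.unusedSectionVars false

namespace Vale.Agent.P011.H21

theorem isUnit_of_injective_finite (k : Type*) {A : Type*} [Field k] [Ring A] [Algebra k A]
    [FiniteDimensional k A] {x : A} (h : ∀ z, x * z = 0 → z = 0) : IsUnit x := by
  have h1 : Function.Injective (LinearMap.mulLeft k x) := by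
    rw [injective_iff_map_eq_zero]
    intro z hz
    exact h z hz
  obtain ⟨y, hy⟩ := (LinearMap.injective_iff_surjective.mp h1) 1
  have hxy : x * y = 1 := hy
  have hyx : y * x = 1 := by
    have h2 : x * (y * x - 1) = 0 := by
      rw [mul_sub, ← mul_assoc, hxy, one_mul, mul_one, sub_self]
    exact sub_eq_zero.mp (h _ h2)
  exact ⟨⟨x, y, hxy, hyx⟩, rfl⟩

/-- A finite-dimensional anisotropic algebra with involution. -/
theorem anisR_of_finite (k : Type*) {A : Type*} [Field k] [Ring A] [StarRing A] [Algebra k A]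
    [FiniteDimensional k A] (h : ∀ x : A, star x * x = 0 → x = 0) : AnisR A where
  an := h
  fin _ hx := isUnit_of_injective_finite k hx

section group

variable {K A E : Type*} [Field K] [StarRing K] [Ring A] [StarRing A] [Algebra K A]
  [StarModule K A] [Field E] [StarRing E] [Algebra K E] [StarModule K E]
  {w : K} {φ : E →ₐ[K] A} (hA : AnisR A) (hw : star w ≠ w)
  (hφ : ∀ x, φ (star x) = star (φ x))

/-- The translations as a subgroup of `PE`. -/
noncomputable def TLP : Subgroup (PE w φ hA hw hφ) := (TL w φ hA hw hφ).subgroupOf _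

theorem mem_TLP {p : PE w φ hA hw hφ} : p ∈ TLP hA hw hφ ↔
    (p : Equiv.Perm (UA A)) ∈ TL w φ hA hw hφ := Iff.rfl

instance TLP_normal : (TLP hA hw hφ).Normal := ⟨fun q hq p => by
  rw [mem_TLP] at hq ⊢
  exact TL_normal hA hw hφ p.2 hq⟩

theorem TLP_comm {p q : PE w φ hA hw hφ} (hp : p ∈ TLP hA hw hφ) (hq : q ∈ TLP hA hw hφ) :
    p * q = q * p :=
  Subtype.ext (TL_comm hA hw hφ hp hq)

theorem TLP_commutator (p q : PE w φ hA hw hφ) : p * q * p⁻¹ * q⁻¹ ∈ TLP hA hw hφ := by
  rw [mem_TLP]
  exact PE_commutator hA hw hφ p.2 q.2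

end group

section unitary

variable {K A E : Type*} [Field K] [StarRing K] [Ring A] [StarRing A] [Algebra K A]
  [StarModule K A] [Field E] [StarRing E] [Algebra K E] [StarModule K E]
  {w : K} {φ : E →ₐ[K] A}

/-- `W e` is a conjugation for `e` of norm one in `E`. -/
theorem WE_unitary (hA : AnisR A) (hw : star w ≠ w)
    (hφ : ∀ x, φ (star x) = star (φ x)) {e : E} (he : e * star e = 1) (u : UA A) :
    ∃ g : UA A, ((g : Aˣ) : A) = φ e ∧ WE w φ e u = g * u * g⁻¹ := by
  have he0 : e ≠ 0 := by
    rintro rfl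
    rw [zero_mul] at he
    exact zero_ne_one he
  have h1 : uE φ e ∈ UA A := by
    rw [mem_UA, uE_coe φ he0, ← hφ, ← map_mul, he, map_one]
  refine ⟨⟨uE φ e, h1⟩, uE_coe φ he0, ?_⟩
  rw [WE]
  exact W_unitary hA hw ⟨uE φ e, h1⟩ u

variable {Q : Type*} [Group Q] (c : UA A →* Q)

/-- The colours of `x` and of `T v x` commute if `v` and `x` commute. -/
theorem colour_commute (hA : AnisR A) (hw : star w ≠ w) {v : A} (hv : star v = v) (x : UA A)
    (hvx : ((x : Aˣ) : A) * v = v * ((x : Aˣ) : A)) : Commute (c x) (c (T w v x)) := by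
  have h := T_commute hA hw hv x hvx
  exact (by rw [← map_mul, ← map_mul, h] : c x * c (T w v x) = c (T w v x) * c x)

/-- The colours of the Cayley transforms of elements of `E` commute. -/
theorem colour_cE_commute (hA : AnisR A) (hw : star w ≠ w)
    (hφ : ∀ x, φ (star x) = star (φ x)) {x y : E} (hx : star x = x) (hy : star y = y) :
    Commute (c (cE w φ x)) (c (cE w φ y)) := by
  have h : cE w φ x * cE w φ y = cE w φ y * cE w φ x := by
    apply UA_ext
    rw [Subgroup.coe_mul, Subgroup.coe_mul, Units.val_mul, Units.val_mul,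
      cE_coe hA hw hφ hx, cE_coe hA hw hφ hy, ← map_mul, ← map_mul, mul_comm]
  exact (by rw [← map_mul, ← map_mul, h] :
    c (cE w φ x) * c (cE w φ y) = c (cE w φ y) * c (cE w φ x))

end unitary

end Vale.Agent.P011.H21
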