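import Vale.Agent.P011.H21.Gauge

/-!
Elements of given colour in general position, close to a given element for finitely many absolute
values.
-/

open Module

set_option linter.unusedSectionVars false

namespace Vale.Agent.P011.H21

section near

variable {F D : Type*} [Field F] [DivisionRing D] [Algebra F D] {o : Type*} [Fintype o]
  (b : Basis o F D) {σ : Type*} [Finite σ] (a : σ → AbsoluteValue F ℝ)

theorem exists_common : ∃ C : ℝ, 1 ≤ C ∧
    ∀ s x y, gg b (a s) (x * y) ≤ C * gg b (a s) x * gg b (a s) y := by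
  have := Fintype.ofFinite σ
  choose C hC1 hC using fun s => exists_gg_mul b (a s)
  refine ⟨1 + ∑ s, C s, ?_, fun s x y => (hC s x y).trans ?_⟩
  · have : 0 ≤ ∑ s, C s := Finset.sum_nonneg fun s _ => zero_le_one.trans (hC1 s)
    linarith
  · have h1 : C s ≤ ∑ s, C s :=
      Finset.single_le_sum (f := C) (fun s _ => zero_le_one.trans (hC1 s)) (Finset.mem_univ s)
    have h2 := mul_nonneg (gg_nonneg b (a s) x) (gg_nonneg b (a s) y)
    nlinarith

variable {a}

/-- The integral elements are infinite in number. -/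
theorem infinite_le_one [Infinite F] {z : F} (hz : z ≠ 0) (hz1 : ∀ s, a s z < 1) :
    {y : F | ∀ s, a s y ≤ 1}.Infinite := by
  rcases isEmpty_or_nonempty σ with hσ | ⟨⟨s₀⟩⟩
  · have : {y : F | ∀ s, a s y ≤ 1} = Set.univ := by
      ext y
      simp
    rw [this]
    exact Set.infinite_univ
  · refine Set.infinite_of_injective_forall_mem (f := fun n : ℕ => z ^ n) (fun n m h => ?_)
      (fun n s => ?_)
    · have h1 : (a s₀ z) ^ n = (a s₀ z) ^ m := by
        rw [← map_pow, ← map_pow]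
        exact congrArg _ h
      exact pow_right_injective₀ ((a s₀).pos hz) (hz1 s₀).ne h1
    · rw [map_pow]
      exact pow_le_one₀ ((a s).nonneg _) (hz1 s).le

variable [StarRing D] {hst : ∀ (r : F) (x : D), star (r • x) = r • star x} {w : D}

/-- The Cayley transforms of a box with infinite sides are close to one. -/
theorem exists_box [Infinite F] (hw' : star w ≠ w) {z : F} (hz : z ≠ 0) (hz1 : ∀ s, a s z < 1)
    {o' : Type*} [Finite o'] (b' : Basis o' F (symF F D hst)) {ε : ℝ} (hε : 0 < ε) :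
    ∃ S : o' → Set F, (∀ i, (S i).Infinite) ∧ ∀ e : symF F D hst, (∀ i, b'.repr e i ∈ S i) →
      ∀ s, gg b (a s) (cay w (e : D) - 1) < ε := by
  have := Fintype.ofFinite o'
  obtain ⟨C, hC1, hC⟩ := exists_common b a
  -- the power
  set Y : σ → ℝ := fun s => ∑ i, gg b (a s) (b' i : D) with hY
  have hYn : ∀ s, 0 ≤ Y s := fun s => Finset.sum_nonneg fun i _ => gg_nonneg b (a s) _
  have hk : ∃ k : ℕ, ∀ s, (C * ((a s z) ^ k * (Y s + gg b (a s) (star w))) ≤ 1 / 2) ∧
      C * gg b (a s) (w - star w) * (C * (a s z) ^ k * gg b (a s) 1 *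
        (2 * gg b (a s) 1)) < ε := by
    have h1 : ∀ s, ∀ᶠ k : ℕ in Filter.atTop,
        (C * ((a s z) ^ k * (Y s + gg b (a s) (star w))) ≤ 1 / 2) ∧
        C * gg b (a s) (w - star w) * (C * (a s z) ^ k * gg b (a s) 1 *
          (2 * gg b (a s) 1)) < ε := by
      intro s
      have h2 : Filter.Tendsto (fun k : ℕ => (a s z) ^ k) Filter.atTop (nhds 0) :=
        tendsto_pow_atTop_nhds_zero_of_lt_one ((a s).nonneg _) (hz1 s)
      have h3 : Filter.Tendsto (fun k : ℕ => C * ((a s z) ^ k * (Y s + gg b (a s) (star w))))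
          Filter.atTop (nhds (C * (0 * (Y s + gg b (a s) (star w))))) :=
        (h2.mul_const _).const_mul _
      have h4 : Filter.Tendsto (fun k : ℕ => C * gg b (a s) (w - star w) *
          (C * (a s z) ^ k * gg b (a s) 1 * (2 * gg b (a s) 1))) Filter.atTop
          (nhds (C * gg b (a s) (w - star w) * (C * 0 * gg b (a s) 1 * (2 * gg b (a s) 1)))) :=
        (((h2.const_mul _).mul_const _).mul_const _).const_mul _
      have h5 : C * (0 * (Y s + gg b (a s) (star w))) < 1 / 2 := by norm_num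
      have h6 : C * gg b (a s) (w - star w) * (C * 0 * gg b (a s) 1 * (2 * gg b (a s) 1)) < ε := by
        simpa using hε
      filter_upwards [h3.eventually_lt_const h5, h4.eventually_lt_const h6] with k h7 h8
      exact ⟨h7.le, h8⟩
    exact (Filter.eventually_all.mpr h1).exists
  obtain ⟨k, hk⟩ := hk
  obtain ⟨one, hone⟩ : ∃ one : symF F D hst, (one : D) = 1 := ⟨⟨1, star_one D⟩, rfl⟩
  have hzk : z ^ k ≠ 0 := pow_ne_zero _ hz
  refine ⟨fun i => (fun y => b'.repr ((z ^ k)⁻¹ • one) i + y) '' {y : F | ∀ s, a s y ≤ 1},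
    fun i => (infinite_le_one hz hz1).image (add_right_injective _).injOn, fun e he s => ?_⟩
  obtain ⟨y, hy⟩ : ∃ y : symF F D hst, y = e - (z ^ k)⁻¹ • one := ⟨_, rfl⟩
  have hyi : ∀ i, a s (b'.repr y i) ≤ 1 := by
    intro i
    obtain ⟨x, hx, hxe⟩ := he i
    have h1 : b'.repr y i = x := by
      rw [hy, map_sub, Finsupp.sub_apply, ← hxe]
      exact add_sub_cancel_left _ _
    rw [h1]
    exact hx s
  have hyg : gg b (a s) (y : D) ≤ Y s := by
    have h1 : (y : D) = ∑ i, b'.repr y i • (b' i : D) := by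
      have h2 := congrArg (symF F D hst).subtype (b'.sum_repr y)
      rw [map_sum] at h2
      exact h2.symm
    rw [h1]
    refine (gg_sum b (a s) _ _).trans (Finset.sum_le_sum fun i _ => ?_)
    rw [gg_smul]
    exact mul_le_of_le_one_left (gg_nonneg b (a s) _) (hyi i)
  have hey : (e : D) + star w = (z ^ k)⁻¹ • (1 - (-((z ^ k) • ((y : D) + star w)))) := by
    rw [sub_neg_eq_add, smul_add, smul_smul, inv_mul_cancel₀ hzk, one_smul, hy]
    simp only [AddSubgroupClass.coe_sub, SetLike.val_smul, hone]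
    abel
  obtain ⟨hk1, hk2⟩ := hk s
  have h1 : C * gg b (a s) (-((z ^ k) • ((y : D) + star w))) ≤ 1 / 2 := by
    rw [gg_neg, gg_smul, map_pow]
    refine le_trans ?_ hk1
    have h2 := gg_add b (a s) (y : D) (star w)
    have h3 : 0 ≤ (a s z) ^ k := pow_nonneg ((a s).nonneg _) _
    have h4 : (a s z) ^ k * gg b (a s) ((y : D) + star w) ≤
        (a s z) ^ k * (Y s + gg b (a s) (star w)) :=
      mul_le_mul_of_nonneg_left (by linarith) h3
    nlinarith
  obtain ⟨h2, h3⟩ := gg_inv b (a s) (hC s) h1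
  rw [cay_sub_one hw' e, hey]
  have h4 : ((z ^ k)⁻¹ • (1 - (-((z ^ k) • ((y : D) + star w)))))⁻¹ =
      ((z ^ k) • (1 : D)) * (1 - (-((z ^ k) • ((y : D) + star w))))⁻¹ := by
    rw [smul_mul_assoc, one_mul]
    apply inv_eq_of_mul_eq_one_left
    rw [smul_mul_smul_comm, mul_inv_cancel₀ hzk, inv_mul_cancel₀ h2, one_smul]
  rw [h4]
  refine lt_of_le_of_lt ?_ hk2
  have h5 := hC s (w - star w) ((z ^ k) • (1 : D) * (1 - (-((z ^ k) • ((y : D) + star w))))⁻¹)
  have h6 := hC s ((z ^ k) • (1 : D)) (1 - (-((z ^ k) • ((y : D) + star w))))⁻¹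
  rw [gg_smul, map_pow] at h6
  refine h5.trans (mul_le_mul_of_nonneg_left (h6.trans ?_) ?_)
  · have h7 : 0 ≤ C * ((a s z) ^ k * gg b (a s) 1) :=
      mul_nonneg (by linarith) (mul_nonneg (pow_nonneg ((a s).nonneg _) _) (gg_nonneg b (a s) _))
    calc C * ((a s z) ^ k * gg b (a s) 1) * gg b (a s) (1 - (-((z ^ k) • ((y : D) + star w))))⁻¹
        ≤ C * ((a s z) ^ k * gg b (a s) 1) * (2 * gg b (a s) 1) :=
          mul_le_mul_of_nonneg_left h3 h7
      _ = C * (a s z) ^ k * gg b (a s) 1 * (2 * gg b (a s) 1) := by ring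
  · exact mul_nonneg (by linarith) (gg_nonneg b (a s) _)

/-- The fundamental estimate for `t₀ x⁻¹ y`. -/
theorem gg_twist {C : ℝ} {a : AbsoluteValue F ℝ} (hC1 : 1 ≤ C)
    (hC : ∀ x y, gg b a (x * y) ≤ C * gg b a x * gg b a y) {t x y : D} {η : ℝ}
    (hx : gg b a (x - 1) < η) (hy : gg b a (y - 1) < η) (hη : C * η ≤ 1 / 2) :
    gg b a (t * x⁻¹ * y - t) ≤ C * (C * gg b a t * (2 * gg b a 1)) * (2 * η) := by
  obtain ⟨hx0, hxi⟩ := gg_inv' b a hC (x := x) (by nlinarith)
  have h1 : t * x⁻¹ * y - t = t * x⁻¹ * (y - x) := by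
    rw [mul_sub, inv_mul_cancel_right₀ hx0]
  have h2 : gg b a (y - x) ≤ 2 * η := by
    have h3 : y - x = (y - 1) - (x - 1) := by abel
    rw [h3]
    exact (gg_sub b a _ _).trans (by linarith)
  have h3 : gg b a (t * x⁻¹) ≤ C * gg b a t * (2 * gg b a 1) :=
    (hC _ _).trans (mul_le_mul_of_nonneg_left hxi (mul_nonneg (by linarith) (gg_nonneg b a _)))
  rw [h1]
  refine (hC _ _).trans ?_
  have h4 : 0 ≤ C * gg b a (t * x⁻¹) := mul_nonneg (by linarith) (gg_nonneg b a _)
  have h5 : C * gg b a (t * x⁻¹) ≤ C * (C * gg b a t * (2 * gg b a 1)) :=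
    mul_le_mul_of_nonneg_left h3 (by linarith)
  calc C * gg b a (t * x⁻¹) * gg b a (y - x) ≤ C * gg b a (t * x⁻¹) * (2 * η) :=
        mul_le_mul_of_nonneg_left h2 h4
    _ ≤ C * (C * gg b a t * (2 * gg b a 1)) * (2 * η) :=
        mul_le_mul_of_nonneg_right h5 (by linarith [gg_nonneg b a (y - x)])

variable {G : Type*} [Group G] {ι : G →* D}

/-- **Elements of given colour in general position, close to a given element** for finitely many
absolute values. -/
theorem exists_colour_seq_close [Infinite F] [FiniteDimensional F D]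
    (hst : ∀ (r : F) (x : D), star (r • x) = r • star x)
    (hw : ∀ x, w * x = x * w) (hw' : star w ≠ w) (hinj : Function.Injective ι)
    (hG : ∀ x : D, (∃ g, ι g = x) ↔ star x * x = 1) {R : Type*} [Group R] [Finite R]
    (c : G →* R) {z : F} (hz : z ≠ 0) (hz1 : ∀ s, a s z < 1) (t₀ : G) {ε : ℝ} (hε : 0 < ε) :
    ∃ t : ℕ → G, (∀ n, c (t n) = c t₀) ∧ (∀ n s, gg b (a s) (ι (t n) - ι t₀) < ε) ∧
      ∀ s : Finset ℕ, s.card ≤ finrank F (symF F D hst) →
      LinearIndepOn F (fun i => (ι (t i) - star (ι (t i))) * (w - star w)⁻¹) s := by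
  have := Fintype.ofFinite σ
  obtain ⟨C, hC1, hC⟩ := exists_common b a
  -- a common bound
  obtain ⟨B, hB0, hB⟩ : ∃ B : ℝ, 0 < B ∧ ∀ s,
      C * (C * gg b (a s) (ι t₀) * (2 * gg b (a s) 1)) * 2 ≤ B := by
    refine ⟨1 + ∑ s, C * (C * gg b (a s) (ι t₀) * (2 * gg b (a s) 1)) * 2, ?_, fun s => ?_⟩
    · have : 0 ≤ ∑ s, C * (C * gg b (a s) (ι t₀) * (2 * gg b (a s) 1)) * 2 :=
        Finset.sum_nonneg fun s _ => by
          have := gg_nonneg b (a s) (ι t₀)
          have := gg_nonneg b (a s) 1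
          positivity
      linarith
    · have : C * (C * gg b (a s) (ι t₀) * (2 * gg b (a s) 1)) * 2 ≤
          ∑ s, C * (C * gg b (a s) (ι t₀) * (2 * gg b (a s) 1)) * 2 :=
        Finset.single_le_sum
          (f := fun s => C * (C * gg b (a s) (ι t₀) * (2 * gg b (a s) 1)) * 2) (fun s _ => by
            have := gg_nonneg b (a s) (ι t₀)
            have := gg_nonneg b (a s) 1
            positivity) (Finset.mem_univ s)
      linarith
  obtain ⟨η, hη0, hη1, hη2⟩ : ∃ η : ℝ, 0 < η ∧ C * η ≤ 1 / 2 ∧ B * η < ε := by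
    refine ⟨min (1 / (2 * C)) (ε / (2 * B)), by positivity, ?_, ?_⟩
    · have h1 := min_le_left (1 / (2 * C)) (ε / (2 * B))
      calc C * min (1 / (2 * C)) (ε / (2 * B)) ≤ C * (1 / (2 * C)) :=
            mul_le_mul_of_nonneg_left h1 (by linarith)
        _ = 1 / 2 := by field_simp
    · have h1 := min_le_right (1 / (2 * C)) (ε / (2 * B))
      calc B * min (1 / (2 * C)) (ε / (2 * B)) ≤ B * (ε / (2 * B)) :=
            mul_le_mul_of_nonneg_left h1 hB0.le
        _ = ε / 2 := by field_simp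
        _ < ε := by linarith
  obtain ⟨S, hS, hSe⟩ := exists_box b hw' hz hz1 (Module.finBasis F (symF F D hst)) hη0
  obtain ⟨t, ht, hs⟩ := exists_colour_seq_near hst hw hw' hinj hG c t₀ _ hS
    {g | ∀ s, gg b (a s) (ι g - 1) < η} (fun e he => by
      obtain ⟨g, hg⟩ := (hG (cay w (e : D))).mpr (star_cay_mul hw hw' e)
      refine ⟨g, fun s => ?_, hg⟩
      rw [hg]
      exact hSe e he s)
  refine ⟨t, fun n => (ht n).1, fun n s => ?_, hs⟩
  obtain ⟨-, x, hx, y, hy, -, h⟩ := ht n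
  have h1 : ι (t n) = ι t₀ * (ι x)⁻¹ * ι y := by
    rw [h, map_mul, map_mul]
    congr 2
    apply eq_inv_of_mul_eq_one_left
    rw [← map_mul, inv_mul_cancel, map_one]
  rw [h1]
  refine lt_of_le_of_lt (gg_twist b hC1 (hC s) (hx s) (hy s) hη1) ?_
  calc C * (C * gg b (a s) (ι t₀) * (2 * gg b (a s) 1)) * (2 * η) =
        (C * (C * gg b (a s) (ι t₀) * (2 * gg b (a s) 1)) * 2) * η := by ring
    _ ≤ B * η := mul_le_mul_of_nonneg_right (hB s) hη0.le
    _ < ε := hη2

end near

end Vale.Agent.P011.H21
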