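import Vale.Agent.P011.H21.OneStep
import Mathlib.Tactic.Group

/-!
The one-step identities over a commutative subfield `E` stable under the involution.
-/

set_option linter.unusedSectionVars false
set_option linter.unusedSimpArgs false

namespace Vale.Agent.P011.H21

section field

variable {K E : Type*} [Field K] [StarRing K] [Field E] [StarRing E] [Algebra K E]
  [StarModule K E]

/-- The image of `w` in `E`. -/
abbrev aw (E : Type*) [Field E] {K : Type*} [Field K] [Algebra K E] (w : K) : E := algebraMap K E w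

theorem star_aw (w : K) : star (aw E w) = aw E (star w) := by
  rw [aw, aw, Algebra.algebraMap_eq_smul_one, star_smul, star_one, ← Algebra.algebraMap_eq_smul_one]

theorem aw_ne {w : K} (hw : star w ≠ w) : aw E (star w) ≠ aw E w :=
  fun h => hw ((algebraMap K E).injective h)

theorem add_aw_ne {w : K} (hw : star w ≠ w) {x : E} (hx : star x = x) : x + aw E w ≠ 0 := by
  intro h
  have h1 : aw E w = -x := by rw [eq_neg_iff_add_eq_zero, add_comm]; exact h
  have h2 : star (aw E w) = aw E w := by rw [h1, star_neg, hx]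
  rw [star_aw] at h2
  exact aw_ne hw h2

theorem add_aw_star_ne {w : K} (hw : star w ≠ w) {x : E} (hx : star x = x) :
    x + aw E (star w) ≠ 0 :=
  add_aw_ne (by rw [star_star]; exact hw.symm) hx

/-- `w + w*`. -/
def s1 (E : Type*) [Field E] {K : Type*} [Field K] [StarRing K] [Algebra K E] (w : K) : E :=
  aw E w + aw E (star w)

theorem star_s1 (w : K) : star (s1 E w) = s1 E w := by
  rw [s1, star_add, star_aw, star_aw, star_star, add_comm]

/-- The norm form `(x + w)(x + w*)`. -/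
def nu (w : K) (x : E) : E := (x + aw E w) * (x + aw E (star w))

theorem nu_ne {w : K} (hw : star w ≠ w) {x : E} (hx : star x = x) : nu w x ≠ 0 :=
  mul_ne_zero (add_aw_ne hw hx) (add_aw_star_ne hw hx)

theorem star_nu (w : K) {x : E} (hx : star x = x) : star (nu w x) = nu w x := by
  rw [nu, star_mul, star_add, star_add, star_aw, star_aw, hx, star_star]

/-- `κ_b = (σ + b + w*)/(σ + w*)`. -/
noncomputable def kap (w : K) (σ b : E) : E := (σ + b + aw E (star w)) / (σ + aw E (star w))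

/-- `s_b = ν(σ+b)/ν(σ)`. -/
noncomputable def sc (w : K) (σ b : E) : E := nu w (σ + b) / nu w σ

/-- `v_b`, the translation part of the one-step map. -/
noncomputable def vb (w : K) (σ b : E) : E := sc w σ b * (σ + s1 E w) - (σ + b + s1 E w)

/-- `v⁻_b`, the translation part of the twin one-step map. -/
noncomputable def vm (w : K) (σ b : E) : E := (σ + b) - sc w σ b * σ

theorem kap_ne {w : K} (hw : star w ≠ w) {σ b : E} (hσ : star σ = σ) (hb : star b = b) :
    kap w σ b ≠ 0 :=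
  div_ne_zero (add_aw_star_ne hw (by rw [star_add, hσ, hb])) (add_aw_star_ne hw hσ)

theorem star_kap {w : K} {σ b : E} (hσ : star σ = σ) (hb : star b = b) :
    star (kap w σ b) = (σ + b + aw E w) / (σ + aw E w) := by
  rw [kap, star_div₀, star_add, star_add, star_add, star_aw, star_star, hσ, hb]

theorem kap_mul_star {w : K} {σ b : E} (hσ : star σ = σ) (hb : star b = b) :
    kap w σ b * star (kap w σ b) = sc w σ b := by
  rw [star_kap hσ hb, kap, sc, nu, nu, div_mul_div_comm, mul_comm (σ + b + aw E (star w)),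
    mul_comm (σ + aw E (star w))]

theorem star_sc {w : K} {σ b : E} (hσ : star σ = σ) (hb : star b = b) :
    star (sc w σ b) = sc w σ b := by
  rw [sc, star_div₀, star_nu w hσ, star_nu w (by rw [star_add, hσ, hb])]

theorem sc_ne {w : K} (hw : star w ≠ w) {σ b : E} (hσ : star σ = σ) (hb : star b = b) :
    sc w σ b ≠ 0 :=
  div_ne_zero (nu_ne hw (by rw [star_add, hσ, hb])) (nu_ne hw hσ)

theorem star_vb {w : K} {σ b : E} (hσ : star σ = σ) (hb : star b = b) :
    star (vb w σ b) = vb w σ b := by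
  rw [vb, star_sub, star_mul, star_add, star_add, star_add, star_s1, hσ, hb, star_sc hσ hb,
    mul_comm]

theorem star_vm {w : K} {σ b : E} (hσ : star σ = σ) (hb : star b = b) :
    star (vm w σ b) = vm w σ b := by
  rw [vm, star_sub, star_mul, star_add, hσ, hb, star_sc hσ hb, mul_comm]

/-- Explicit form of `v_b`. -/
theorem vb_eq {w : K} (hw : star w ≠ w) {σ b : E} (hσ : star σ = σ) :
    vb w σ b = b * ((σ + b + s1 E w) * (σ + s1 E w) - aw E w * aw E (star w)) / nu w σ := by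
  have h := nu_ne hw hσ
  rw [vb, sc, eq_div_iff h, sub_mul, div_mul_eq_mul_div, div_mul_cancel₀ _ h, nu, nu, s1]
  ring

/-- Explicit form of `v⁻_b`. -/
theorem vm_eq {w : K} (hw : star w ≠ w) {σ b : E} (hσ : star σ = σ) :
    vm w σ b = -(b * ((σ + b) * σ - aw E w * aw E (star w)) / nu w σ) := by
  have h := nu_ne hw hσ
  rw [vm, sc, ← neg_div, eq_div_iff h, sub_mul, div_mul_eq_mul_div, div_mul_cancel₀ _ h, nu, nu]
  ring

/-- `v⁻_b = -v_b + (w + w*)(s_b - 1)`. -/
theorem vm_eq_vb {w : K} (σ b : E) :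
    vm w σ b = -vb w σ b + s1 E w * (sc w σ b - 1) := by
  rw [vm, vb]; ring

/-- The cocycle identity behind `g_c g_b g_c⁻¹ = T_{cb(b-c)/ν(σ)} g_b`. -/
theorem vb_comm {w : K} (hw : star w ≠ w) {σ b c : E} (hσ : star σ = σ) :
    vb w σ c + sc w σ c * vb w σ b =
      c * b * (b - c) / nu w σ + (vb w σ b + sc w σ b * vb w σ c) := by
  have h := nu_ne hw hσ
  have hb := vb_eq hw (σ := σ) (b := b) hσ
  have hc := vb_eq hw (σ := σ) (b := c) hσ
  rw [hb, hc, sc, sc]
  field_simp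
  rw [nu, nu, nu, s1]
  ring

end field

section

variable {K A E : Type*} [Field K] [StarRing K] [Ring A] [StarRing A] [Algebra K A]
  [StarModule K A] [Field E] [StarRing E] [Algebra K E] [StarModule K E]

/-- The image in `Aˣ` of an element of `E` (junk value one at zero). -/
noncomputable def uE (φ : E →ₐ[K] A) (e : E) : Aˣ :=
  open Classical in
  if h : e ≠ 0 then Units.map (φ : E →* A) (Units.mk0 e h) else 1

theorem uE_coe (φ : E →ₐ[K] A) {e : E} (he : e ≠ 0) : ((uE φ e : Aˣ) : A) = φ e := by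
  rw [uE, dif_pos he]; rfl

theorem uE_one (φ : E →ₐ[K] A) : uE φ (1 : E) = 1 := by
  apply Units.ext
  rw [uE_coe φ one_ne_zero, map_one, Units.val_one]

theorem uE_mul (φ : E →ₐ[K] A) {e e' : E} (he : e ≠ 0) (he' : e' ≠ 0) :
    uE φ (e * e') = uE φ e * uE φ e' := by
  apply Units.ext
  rw [uE_coe φ (mul_ne_zero he he'), Units.val_mul, uE_coe φ he, uE_coe φ he', map_mul]

theorem uE_inv (φ : E →ₐ[K] A) {e : E} (he : e ≠ 0) : uE φ e⁻¹ = (uE φ e)⁻¹ := by
  rw [eq_inv_iff_mul_eq_one, ← uE_mul φ (inv_ne_zero he) he, inv_mul_cancel₀ he, uE_one]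

theorem ci_uE {φ : E →ₐ[K] A} (hφ : ∀ x, φ (star x) = star (φ x)) {e : E} (he : e ≠ 0) :
    ci (uE φ e) = φ (star e)⁻¹ := by
  rw [ci, ← uE_inv φ he, uE_coe φ (inv_ne_zero he), ← hφ, star_inv₀]

/-- `W e` for `e` in `E`. -/
noncomputable def WE (w : K) (φ : E →ₐ[K] A) (e : E) : Equiv.Perm (UA A) := W w (uE φ e)

/-- `T v` for `v` in `E`. -/
noncomputable def TE (w : K) (φ : E →ₐ[K] A) (v : E) : Equiv.Perm (UA A) := T w (φ v)

theorem star_phi {φ : E →ₐ[K] A} (hφ : ∀ x, φ (star x) = star (φ x)) {v : E} (hv : star v = v) :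
    star (φ v) = φ v := by rw [← hφ, hv]

theorem WE_one {w : K} (hA : AnisR A) (hw : star w ≠ w) (φ : E →ₐ[K] A) :
    WE w φ (1 : E) = 1 := by
  rw [WE, uE_one, W_one hA hw]

theorem WE_mul {w : K} (hA : AnisR A) (hw : star w ≠ w) (φ : E →ₐ[K] A) {e e' : E} (he : e ≠ 0)
    (he' : e' ≠ 0) : WE w φ (e * e') = WE w φ e * WE w φ e' := by
  rw [WE, uE_mul φ he he', W_mul hA hw]; rfl

theorem WE_inv {w : K} (hA : AnisR A) (hw : star w ≠ w) (φ : E →ₐ[K] A) {e : E} (he : e ≠ 0) :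
    WE w φ e⁻¹ = (WE w φ e)⁻¹ := by
  rw [WE, uE_inv φ he, W_inv hA hw]; rfl

theorem TE_add {w : K} (hA : AnisR A) (hw : star w ≠ w) {φ : E →ₐ[K] A}
    (hφ : ∀ x, φ (star x) = star (φ x)) {v v' : E} (hv : star v = v) (hv' : star v' = v') :
    TE w φ (v + v') = TE w φ v * TE w φ v' := by
  rw [TE, map_add, T_add hA hw (star_phi hφ hv) (star_phi hφ hv')]; rfl

theorem TE_zero {w : K} (hA : AnisR A) (hw : star w ≠ w) (φ : E →ₐ[K] A) :
    TE w φ 0 = 1 := by rw [TE, map_zero, T_zero hA hw]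

theorem TE_neg {w : K} (hA : AnisR A) (hw : star w ≠ w) {φ : E →ₐ[K] A}
    (hφ : ∀ x, φ (star x) = star (φ x)) {v : E} (hv : star v = v) :
    TE w φ (-v) = (TE w φ v)⁻¹ := by
  rw [TE, map_neg, T_neg hA hw (star_phi hφ hv)]; rfl

theorem TE_comm {w : K} (hA : AnisR A) (hw : star w ≠ w) {φ : E →ₐ[K] A}
    (hφ : ∀ x, φ (star x) = star (φ x)) {v v' : E} (hv : star v = v) (hv' : star v' = v') :
    TE w φ v * TE w φ v' = TE w φ v' * TE w φ v :=
  T_comm hA hw (star_phi hφ hv) (star_phi hφ hv')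

theorem WE_TE {w : K} (hA : AnisR A) (hw : star w ≠ w) {φ : E →ₐ[K] A}
    (hφ : ∀ x, φ (star x) = star (φ x)) {e v : E} (he : e ≠ 0) (hv : star v = v) :
    WE w φ e * TE w φ v = TE w φ (e * star e * v) * WE w φ e := by
  rw [WE, TE, W_T hA hw (uE φ e) (star_phi hφ hv), TE]
  congr 2
  rw [uE_coe φ he, ← hφ, ← map_mul, ← map_mul]
  congr 1
  ring

/-- The Cayley transform of an element of `E`. -/
noncomputable def cE (w : K) (φ : E →ₐ[K] A) (x : E) : UA A := cy w (φ x)

/-- The Cayley transform in `E`. -/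
noncomputable def te (w : K) (x : E) : E := (x + aw E w) / (x + aw E (star w))

theorem te_ne {w : K} (hw : star w ≠ w) {x : E} (hx : star x = x) : te w x ≠ 0 :=
  div_ne_zero (add_aw_ne hw hx) (add_aw_star_ne hw hx)

theorem cE_coe {w : K} (hA : AnisR A) (hw : star w ≠ w) {φ : E →ₐ[K] A}
    (hφ : ∀ x, φ (star x) = star (φ x)) {x : E} (hx : star x = x) :
    ((cE w φ x : Aˣ) : A) = φ (te w x) := by
  have h1 := cy_spec hA hw (star_phi hφ hx)
  have h2 := cy_den hA hw (star_phi hφ hx)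
  refine h2.mul_right_cancel (h1.trans ?_)
  have e1 : φ x + star w • (1 : A) = φ (x + aw E (star w)) := by
    rw [map_add, aw, AlgHom.commutes, Algebra.algebraMap_eq_smul_one]
  have e2 : φ x + w • (1 : A) = φ (x + aw E w) := by
    rw [map_add, aw, AlgHom.commutes, Algebra.algebraMap_eq_smul_one]
  rw [e1, e2, ← map_mul, te, div_mul_cancel₀ _ (add_aw_star_ne hw hx)]

theorem cE_unit {w : K} (hA : AnisR A) (hw : star w ≠ w) {φ : E →ₐ[K] A}
    (hφ : ∀ x, φ (star x) = star (φ x)) {x : E} (hx : star x = x) :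
    ((cE w φ x : UA A) : Aˣ) = uE φ (te w x) := by
  apply Units.ext
  rw [cE_coe hA hw hφ hx, uE_coe φ (te_ne hw hx)]

/-- `cay(-x - w - w*) = (cay x)⁻¹`. -/
theorem cE_neg {w : K} (hA : AnisR A) (hw : star w ≠ w) {φ : E →ₐ[K] A}
    (hφ : ∀ x, φ (star x) = star (φ x)) {x : E} (hx : star x = x) :
    cE w φ (-x - s1 E w) = (cE w φ x)⁻¹ := by
  have hx' : star (-x - s1 E w) = -x - s1 E w := by rw [star_sub, star_neg, hx, star_s1]
  rw [eq_inv_iff_mul_eq_one]
  apply UA_ext
  rw [Subgroup.coe_mul, Units.val_mul, cE_coe hA hw hφ hx', cE_coe hA hw hφ hx, ← map_mul,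
    Subgroup.coe_one, Units.val_one]
  have h1 := add_aw_ne hw hx
  have h2 := add_aw_star_ne hw hx
  have h3 : te w (-x - s1 E w) * te w x = 1 := by
    rw [te, te, s1]
    have e1 : -x - (aw E w + aw E (star w)) + aw E w = -(x + aw E (star w)) := by ring
    have e2 : -x - (aw E w + aw E (star w)) + aw E (star w) = -(x + aw E w) := by ring
    rw [e1, e2]
    field_simp
  rw [h3, map_one]

theorem TE_cE {w : K} (hA : AnisR A) (hw : star w ≠ w) {φ : E →ₐ[K] A}
    (hφ : ∀ x, φ (star x) = star (φ x)) {v x : E} (hv : star v = v) (hx : star x = x) :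
    TE w φ v (cE w φ x) = cE w φ (x + v) := by
  rw [TE, cE, T_cy hA hw (star_phi hφ hv) (star_phi hφ hx), cE, map_add]

theorem WE_cE {w : K} (hA : AnisR A) (hw : star w ≠ w) {φ : E →ₐ[K] A}
    (hφ : ∀ x, φ (star x) = star (φ x)) {e x : E} (he : e ≠ 0) (hx : star x = x) :
    WE w φ e (cE w φ x) = cE w φ (e * star e * x) := by
  rw [WE, cE, W_cy hA hw _ (star_phi hφ hx), cE]
  congr 1
  rw [uE_coe φ he, ← hφ, ← map_mul, ← map_mul]
  congr 1
  ring

/-- **The one-step map** `g_b = T_{v_b} W_{κ_b}`. -/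
noncomputable def gb (w : K) (φ : E →ₐ[K] A) (σ b : E) : Equiv.Perm (UA A) :=
  TE w φ (vb w σ b) * WE w φ (kap w σ b)

/-- **The twin one-step map** `g⁻_b = T_{v⁻_b} W_{κ_b*}`. -/
noncomputable def gm (w : K) (φ : E →ₐ[K] A) (σ b : E) : Equiv.Perm (UA A) :=
  TE w φ (vm w σ b) * WE w φ (star (kap w σ b))

/-- **First one-step identity** `T_b L_t = L_{t'} g_b`. -/
theorem T_L_eq {w : K} (hA : AnisR A) (hw : star w ≠ w) {φ : E →ₐ[K] A}
    (hφ : ∀ x, φ (star x) = star (φ x)) {σ b : E} (hσ : star σ = σ) (hb : star b = b) :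
    TE w φ b * Lm (cE w φ σ) = Lm (cE w φ (σ + b)) * gb w φ σ b := by
  have hσb : star (σ + b) = σ + b := by rw [star_add, hσ, hb]
  have hk := kap_ne hw hσ hb
  have hv := star_vb (w := w) hσ hb
  ext1 u
  rw [Equiv.Perm.mul_apply, Equiv.Perm.mul_apply, gb, Equiv.Perm.mul_apply, Lm_apply, Lm_apply]
  -- the right-hand side
  have s1' := comp_spec (W_spec hA hw (uE φ (kap w σ b)) u)
    (T_spec hA hw (star_phi hφ hv) (W w (uE φ (kap w σ b)) u))
  -- the left-hand side
  have s2 := T_spec hA hw (star_phi hφ hb) (cE w φ σ * u)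
  set x : A := ((u : Aˣ) : A) with hx
  rw [uE_coe φ hk, ci_uE hφ hk] at s1'
  rw [Subgroup.coe_mul, Units.val_mul, ← hx, cE_coe hA hw hφ hσ] at s2
  have e0 : ∀ z : K, ∀ y : E, z • φ y = φ (algebraMap K E z * y) := fun z y => by
    rw [map_mul, AlgHom.commutes, Algebra.smul_def]
  have e1 : ∀ z : K, z • (1 : A) = φ (algebraMap K E z) := fun z => by
    rw [AlgHom.commutes, Algebra.algebraMap_eq_smul_one]
  simp only [e0, e1, ← map_add, ← map_sub, ← map_mul, ← map_neg] at s1'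
  simp only [e0, e1, ← map_add, ← map_sub, ← map_mul, ← map_neg, ← mul_assoc] at s2
  -- the four entries
  have na := add_aw_ne (E := E) hw hσ
  have nb := add_aw_star_ne (E := E) hw hσ
  have nc := add_aw_ne (E := E) hw hσb
  have nd := add_aw_star_ne (E := E) hw hσb
  have hks : (star (kap w σ b))⁻¹ = (σ + aw E w) / (σ + b + aw E w) := by
    rw [star_kap hσ hb, inv_div]
  have hsc : sc w σ b = (σ + b + aw E w) * (σ + b + aw E (star w)) /
      ((σ + aw E w) * (σ + aw E (star w))) := rfl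
  have he : algebraMap K E (eta w) = aw E w - aw E (star w) := by rw [eta, map_sub]
  have a1 : (algebraMap K E (eta w) - vb w σ b) * (algebraMap K E w * kap w σ b -
      algebraMap K E (star w) * (star (kap w σ b))⁻¹) + vb w σ b *
      (algebraMap K E w * kap w σ b - algebraMap K E w * (star (kap w σ b))⁻¹) =
      algebraMap K E (eta w) * (algebraMap K E (eta w) - b) := by
    rw [hks, he, vb, hsc, kap, s1]
    change (aw E w - aw E (star w) - _) * (aw E w * _ - aw E (star w) * _) + _ *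
      (aw E w * _ - aw E w * _) = _
    field_simp
    ring
  have b1 : (algebraMap K E (eta w) - vb w σ b) * (algebraMap K E (star w) *
      (star (kap w σ b))⁻¹ - algebraMap K E (star w) * kap w σ b) + vb w σ b *
      (algebraMap K E w * (star (kap w σ b))⁻¹ - algebraMap K E (star w) * kap w σ b) =
      algebraMap K E (eta w) * (b * te w σ) := by
    rw [hks, he, vb, hsc, kap, s1, te]
    change (aw E w - aw E (star w) - _) * (aw E (star w) * _ - aw E (star w) * _) + _ *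
      (aw E w * _ - aw E (star w) * _) = _
    field_simp
    ring
  have c1 : te w (σ + b) * (-vb w σ b * (algebraMap K E w * kap w σ b -
      algebraMap K E (star w) * (star (kap w σ b))⁻¹) + (algebraMap K E (eta w) + vb w σ b) *
      (algebraMap K E w * kap w σ b - algebraMap K E w * (star (kap w σ b))⁻¹)) =
      algebraMap K E (eta w) * -b := by
    rw [hks, he, vb, hsc, kap, s1, te]
    change _ * (_ * (aw E w * _ - aw E (star w) * _) + _ * (aw E w * _ - aw E w * _)) = _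
    field_simp
    ring
  have f1 : te w (σ + b) * (-vb w σ b * (algebraMap K E (star w) * (star (kap w σ b))⁻¹ -
      algebraMap K E (star w) * kap w σ b) + (algebraMap K E (eta w) + vb w σ b) *
      (algebraMap K E w * (star (kap w σ b))⁻¹ - algebraMap K E (star w) * kap w σ b)) =
      algebraMap K E (eta w) * ((algebraMap K E (eta w) + b) * te w σ) := by
    rw [hks, he, vb, hsc, kap, s1, te, te]
    change _ * (_ * (aw E (star w) * _ - aw E (star w) * _) + _ *
      (aw E w * _ - aw E (star w) * _)) = _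
    field_simp
    ring
  rw [a1, b1] at s1'
  -- multiply from the left by `t'`
  have s3 := congrArg (fun y => φ (te w (σ + b)) * y) s1'
  beta_reduce at s3
  have s4 : φ (te w (σ + b)) * (φ (-vb w σ b * ((algebraMap K E) w * kap w σ b -
      (algebraMap K E) (star w) * (star (kap w σ b))⁻¹) + ((algebraMap K E) (eta w) + vb w σ b) *
        ((algebraMap K E) w * kap w σ b - (algebraMap K E) w * (star (kap w σ b))⁻¹)) +
      φ (-vb w σ b * ((algebraMap K E) (star w) * (star (kap w σ b))⁻¹ -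
        (algebraMap K E) (star w) * kap w σ b) + ((algebraMap K E) (eta w) + vb w σ b) *
        ((algebraMap K E) w * (star (kap w σ b))⁻¹ - (algebraMap K E) (star w) * kap w σ b)) * x) =
      φ (algebraMap K E (eta w) * -b) + φ (algebraMap K E (eta w) *
        ((algebraMap K E (eta w) + b) * te w σ)) * x := by
    rw [mul_add, ← mul_assoc, ← map_mul, ← map_mul, c1, f1]
  rw [s4, ← e0, ← e0, ← e0, ← e0, smul_mul_assoc, smul_mul_assoc, ← smul_add, ← smul_add,
    mul_smul_comm, mul_smul_comm] at s3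
  have h6 := congrArg (fun y => (eta w)⁻¹ • y) s3
  simp only [smul_smul, inv_mul_cancel₀ (eta_ne hw), one_smul] at h6
  have hd := T_den_unit hA hw (star_phi hφ hb) (cE w φ σ * u)
  have hs := T_spec hA hw (star_phi hφ hb) (cE w φ σ * u)
  rw [Subgroup.coe_mul, Units.val_mul, ← hx, cE_coe hA hw hφ hσ] at hd hs
  refine UA_cancel hd hs ?_
  rw [Subgroup.coe_mul, Units.val_mul, cE_coe hA hw hφ hσb]
  simp only [e0, e1, ← map_add, ← map_sub, ← map_mul, ← map_neg, ← mul_assoc]
  rw [← mul_assoc] at h6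
  exact h6

theorem star_neg_s1 {w : K} {x : E} (hx : star x = x) :
    star (-x - s1 E w) = -x - s1 E w := by rw [star_sub, star_neg, hx, star_s1]

theorem nu_neg (w : K) (x : E) : nu w (-x - s1 E w) = nu w x := by
  rw [nu, nu, s1]; ring

theorem sc_neg (w : K) (σ b : E) : sc w (-σ - s1 E w) (-b) = sc w σ b := by
  rw [sc, sc, nu_neg]
  have h : -σ - s1 E w + -b = -(σ + b) - s1 E w := by ring
  rw [h, nu_neg]

theorem kap_neg {w : K} {σ b : E} (hσ : star σ = σ) (hb : star b = b) :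
    kap w (-σ - s1 E w) (-b) = star (kap w σ b) := by
  rw [star_kap hσ hb, kap, s1]
  have e1 : -σ - (aw E w + aw E (star w)) + -b + aw E (star w) = -(σ + b + aw E w) := by ring
  have e2 : -σ - (aw E w + aw E (star w)) + aw E (star w) = -(σ + aw E w) := by ring
  rw [e1, e2, neg_div_neg_eq]

theorem vb_neg (w : K) (σ b : E) : vb w (-σ - s1 E w) (-b) = vm w σ b := by
  rw [vb, vm, sc_neg]; ring

/-- The twin one-step map is the one-step map with base `(-σ - w - w*, -b)`. -/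
theorem gb_neg {w : K} (φ : E →ₐ[K] A) {σ b : E} (hσ : star σ = σ) (hb : star b = b) :
    gb w φ (-σ - s1 E w) (-b) = gm w φ σ b := by
  rw [gb, gm, vb_neg, kap_neg hσ hb]

/-- **Second one-step identity** `T_{-b} L_{t⁻¹} = L_{t'⁻¹} g⁻_b`. -/
theorem T_L_neg_eq {w : K} (hA : AnisR A) (hw : star w ≠ w) {φ : E →ₐ[K] A}
    (hφ : ∀ x, φ (star x) = star (φ x)) {σ b : E} (hσ : star σ = σ) (hb : star b = b) :
    TE w φ (-b) * Lm (cE w φ σ)⁻¹ = Lm (cE w φ (σ + b))⁻¹ * gm w φ σ b := by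
  have hσb : star (σ + b) = σ + b := by rw [star_add, hσ, hb]
  have hb' : star (-b) = -b := by rw [star_neg, hb]
  have h := T_L_eq hA hw hφ (star_neg_s1 (w := w) hσ) hb'
  have e1 : -σ - s1 E w + -b = -(σ + b) - s1 E w := by ring
  rw [e1, cE_neg hA hw hφ hσ, cE_neg hA hw hφ hσb, gb_neg φ hσ hb] at h
  exact h

/-- `g_b T_l g_b⁻¹ = T_{s_b l}`. -/
theorem gb_TE {w : K} (hA : AnisR A) (hw : star w ≠ w) {φ : E →ₐ[K] A}
    (hφ : ∀ x, φ (star x) = star (φ x)) {σ b l : E} (hσ : star σ = σ) (hb : star b = b)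
    (hl : star l = l) :
    gb w φ σ b * TE w φ l = TE w φ (sc w σ b * l) * gb w φ σ b := by
  have hs : star (sc w σ b * l) = sc w σ b * l := by
    rw [star_mul, hl, star_sc hσ hb, mul_comm]
  rw [gb, mul_assoc, WE_TE hA hw hφ (kap_ne hw hσ hb) hl, kap_mul_star hσ hb, ← mul_assoc,
    TE_comm hA hw hφ (star_vb hσ hb) hs, mul_assoc]

theorem gb_mul_gb {w : K} (hA : AnisR A) (hw : star w ≠ w) {φ : E →ₐ[K] A}
    (hφ : ∀ x, φ (star x) = star (φ x)) {σ b c : E} (hσ : star σ = σ) (hb : star b = b)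
    (hc : star c = c) :
    gb w φ σ c * gb w φ σ b =
      TE w φ (vb w σ c + sc w σ c * vb w σ b) * WE w φ (kap w σ c * kap w σ b) := by
  have hs : star (sc w σ c * vb w σ b) = sc w σ c * vb w σ b := by
    rw [star_mul, star_vb hσ hb, star_sc hσ hc, mul_comm]
  rw [gb, gb, TE_add hA hw hφ (star_vb hσ hc) hs, WE_mul hA hw φ (kap_ne hw hσ hc)
    (kap_ne hw hσ hb), mul_assoc, ← mul_assoc (WE w φ (kap w σ c)),
    WE_TE hA hw hφ (kap_ne hw hσ hc) (star_vb hσ hb), kap_mul_star hσ hc]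
  simp only [mul_assoc]

/-- `g_c g_b g_c⁻¹ = T_{cb(b-c)/ν(σ)} g_b`. -/
theorem gb_conj {w : K} (hA : AnisR A) (hw : star w ≠ w) {φ : E →ₐ[K] A}
    (hφ : ∀ x, φ (star x) = star (φ x)) {σ b c : E} (hσ : star σ = σ) (hb : star b = b)
    (hc : star c = c) :
    gb w φ σ c * gb w φ σ b = TE w φ (c * b * (b - c) / nu w σ) * gb w φ σ b * gb w φ σ c := by
  have h1 : star (c * b * (b - c) / nu w σ) = c * b * (b - c) / nu w σ := by
    rw [star_div₀, star_mul, star_mul, star_sub, hb, hc, star_nu w hσ]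
    ring
  have h2 : star (vb w σ b + sc w σ b * vb w σ c) = vb w σ b + sc w σ b * vb w σ c := by
    rw [star_add, star_mul, star_vb hσ hb, star_vb hσ hc, star_sc hσ hb, mul_comm]
  rw [gb_mul_gb hA hw hφ hσ hb hc, vb_comm hw hσ, TE_add hA hw hφ h1 h2,
    mul_assoc (TE w φ _) (TE w φ _), mul_assoc (TE w φ _) (gb w φ σ b),
    gb_mul_gb hA hw hφ hσ hc hb, mul_comm (kap w σ c)]

/-- `g⁻_b T_l (g⁻_b)⁻¹ = T_{s_b l}`. -/
theorem gm_TE {w : K} (hA : AnisR A) (hw : star w ≠ w) {φ : E →ₐ[K] A}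
    (hφ : ∀ x, φ (star x) = star (φ x)) {σ b l : E} (hσ : star σ = σ) (hb : star b = b)
    (hl : star l = l) :
    gm w φ σ b * TE w φ l = TE w φ (sc w σ b * l) * gm w φ σ b := by
  have hb' : star (-b) = -b := by rw [star_neg, hb]
  have h := gb_TE hA hw hφ (star_neg_s1 (w := w) hσ) hb' hl
  rwa [gb_neg φ hσ hb, sc_neg] at h

/-- `g⁻_c g⁻_b (g⁻_c)⁻¹ = T_{cb(c-b)/ν(σ)} g⁻_b`. -/
theorem gm_conj {w : K} (hA : AnisR A) (hw : star w ≠ w) {φ : E →ₐ[K] A}
    (hφ : ∀ x, φ (star x) = star (φ x)) {σ b c : E} (hσ : star σ = σ) (hb : star b = b)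
    (hc : star c = c) :
    gm w φ σ c * gm w φ σ b = TE w φ (c * b * (c - b) / nu w σ) * gm w φ σ b * gm w φ σ c := by
  have hb' : star (-b) = -b := by rw [star_neg, hb]
  have hc' : star (-c) = -c := by rw [star_neg, hc]
  have h := gb_conj hA hw hφ (star_neg_s1 (w := w) hσ) hb' hc'
  rw [gb_neg φ hσ hb, gb_neg φ hσ hc, nu_neg] at h
  have e : -c * -b * (-b - -c) = c * b * (c - b) := by ring
  rwa [e] at h

/-- The quotient `t'/t` of two Cayley transforms is `κ_b*/κ_b`. -/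
theorem te_div {w : K} (hw : star w ≠ w) {σ b : E} (hσ : star σ = σ) (hb : star b = b) :
    kap w σ b * (te w (σ + b) / te w σ) = star (kap w σ b) := by
  have hσb : star (σ + b) = σ + b := by rw [star_add, hσ, hb]
  have na := add_aw_ne (E := E) hw hσ
  have nb := add_aw_star_ne (E := E) hw hσ
  have nc := add_aw_ne (E := E) hw hσb
  have nd := add_aw_star_ne (E := E) hw hσb
  rw [star_kap hσ hb, kap, te, te]
  field_simp

/-- `W` of a Cayley transform in `E` is a conjugation. -/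
theorem WE_te {w : K} (hA : AnisR A) (hw : star w ≠ w) {φ : E →ₐ[K] A}
    (hφ : ∀ x, φ (star x) = star (φ x)) {x : E} (hx : star x = x) (u : UA A) :
    WE w φ (te w x) u = cE w φ x * u * (cE w φ x)⁻¹ := by
  rw [WE, ← cE_unit hA hw hφ hx, W_unitary hA hw]

/-- `W_{κ_b*} = W_{κ_b} W_{t'/t}`, where `W_{t'/t}` is the conjugation by `t' t⁻¹`. -/
theorem WE_star_kap {w : K} (hA : AnisR A) (hw : star w ≠ w) {φ : E →ₐ[K] A}
    (hφ : ∀ x, φ (star x) = star (φ x)) {σ b : E} (hσ : star σ = σ) (hb : star b = b)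
    (u : UA A) :
    WE w φ (star (kap w σ b)) u = WE w φ (kap w σ b)
      ((cE w φ (σ + b) * (cE w φ σ)⁻¹) * u * (cE w φ (σ + b) * (cE w φ σ)⁻¹)⁻¹) := by
  have hσb : star (σ + b) = σ + b := by rw [star_add, hσ, hb]
  rw [← te_div hw hσ hb, WE_mul hA hw φ (kap_ne hw hσ hb)
    (div_ne_zero (te_ne hw hσb) (te_ne hw hσ)), Equiv.Perm.mul_apply, div_eq_mul_inv,
    WE_mul hA hw φ (te_ne hw hσb) (inv_ne_zero (te_ne hw hσ)), Equiv.Perm.mul_apply]
  congr 1
  rw [WE_te hA hw hφ hσb]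
  have h1 : WE w φ (te w σ)⁻¹ u = (cE w φ σ)⁻¹ * u * cE w φ σ := by
    rw [WE_inv hA hw φ (te_ne hw hσ), Equiv.Perm.inv_eq_iff_eq, WE_te hA hw hφ hσ]
    group
  rw [h1]
  group

section PE

/-- The group of the permutations `T v * W e` with `v` symmetric and `e` nonzero in `E`. -/
noncomputable def PE (w : K) (φ : E →ₐ[K] A) (hA : AnisR A) (hw : star w ≠ w)
    (hφ : ∀ x, φ (star x) = star (φ x)) : Subgroup (Equiv.Perm (UA A)) where
  carrier := {p | ∃ v e : E, star v = v ∧ e ≠ 0 ∧ p = TE w φ v * WE w φ e}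
  one_mem' := ⟨0, 1, star_zero E, one_ne_zero, by rw [TE_zero hA hw, WE_one hA hw, one_mul]⟩
  mul_mem' := by
    rintro p q ⟨v, e, hv, he, rfl⟩ ⟨v', e', hv', he', rfl⟩
    have h1 : star (e * star e * v') = e * star e * v' := by
      rw [star_mul, star_mul, star_star, hv', mul_comm]
    refine ⟨v + e * star e * v', e * e', by rw [star_add, hv, h1], mul_ne_zero he he', ?_⟩
    rw [TE_add hA hw hφ hv h1, WE_mul hA hw φ he he', mul_assoc, ← mul_assoc (WE w φ e),
      WE_TE hA hw hφ he hv']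
    simp only [mul_assoc]
  inv_mem' := by
    rintro p ⟨v, e, hv, he, rfl⟩
    have h1 : star (e⁻¹ * star e⁻¹ * -v) = e⁻¹ * star e⁻¹ * -v := by
      rw [star_mul, star_mul, star_star, star_neg, hv, mul_comm]
    refine ⟨e⁻¹ * star e⁻¹ * -v, e⁻¹, h1, inv_ne_zero he, ?_⟩
    rw [mul_inv_rev, ← WE_inv hA hw φ he, ← TE_neg hA hw hφ hv,
      WE_TE hA hw hφ (inv_ne_zero he) (by rw [star_neg, hv])]

/-- The subgroup of the translations. -/
noncomputable def TL (w : K) (φ : E →ₐ[K] A) (hA : AnisR A) (hw : star w ≠ w)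
    (hφ : ∀ x, φ (star x) = star (φ x)) : Subgroup (Equiv.Perm (UA A)) where
  carrier := {p | ∃ v : E, star v = v ∧ p = TE w φ v}
  one_mem' := ⟨0, star_zero E, by rw [TE_zero hA hw]⟩
  mul_mem' := by
    rintro p q ⟨v, hv, rfl⟩ ⟨v', hv', rfl⟩
    exact ⟨v + v', by rw [star_add, hv, hv'], by rw [TE_add hA hw hφ hv hv']⟩
  inv_mem' := by
    rintro p ⟨v, hv, rfl⟩
    exact ⟨-v, by rw [star_neg, hv], by rw [TE_neg hA hw hφ hv]⟩

variable {w : K} {φ : E →ₐ[K] A} (hA : AnisR A) (hw : star w ≠ w)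
    (hφ : ∀ x, φ (star x) = star (φ x))

theorem mem_PE {p : Equiv.Perm (UA A)} : p ∈ PE w φ hA hw hφ ↔
    ∃ v e : E, star v = v ∧ e ≠ 0 ∧ p = TE w φ v * WE w φ e := Iff.rfl

theorem mem_TL {p : Equiv.Perm (UA A)} : p ∈ TL w φ hA hw hφ ↔
    ∃ v : E, star v = v ∧ p = TE w φ v := Iff.rfl

theorem TE_mem_PE {v : E} (hv : star v = v) : TE w φ v ∈ PE w φ hA hw hφ :=
  ⟨v, 1, hv, one_ne_zero, by rw [WE_one hA hw, mul_one]⟩

theorem WE_mem_PE {e : E} (he : e ≠ 0) : WE w φ e ∈ PE w φ hA hw hφ :=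
  ⟨0, e, star_zero E, he, by rw [TE_zero hA hw, one_mul]⟩

theorem TL_le_PE : TL w φ hA hw hφ ≤ PE w φ hA hw hφ := by
  rintro p ⟨v, hv, rfl⟩
  exact TE_mem_PE hA hw hφ hv

theorem gb_mem_PE {σ b : E} (hσ : star σ = σ) (hb : star b = b) :
    gb w φ σ b ∈ PE w φ hA hw hφ :=
  ⟨vb w σ b, kap w σ b, star_vb hσ hb, kap_ne hw hσ hb, rfl⟩

theorem gm_mem_PE {σ b : E} (hσ : star σ = σ) (hb : star b = b) :
    gm w φ σ b ∈ PE w φ hA hw hφ :=
  ⟨vm w σ b, star (kap w σ b), star_vm hσ hb, by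
    rw [Ne, star_eq_zero]; exact kap_ne hw hσ hb, rfl⟩

/-- Translations commute. -/
theorem TL_comm {p q : Equiv.Perm (UA A)} (hp : p ∈ TL w φ hA hw hφ)
    (hq : q ∈ TL w φ hA hw hφ) : p * q = q * p := by
  obtain ⟨v, hv, rfl⟩ := hp
  obtain ⟨v', hv', rfl⟩ := hq
  exact TE_comm hA hw hφ hv hv'

/-- Commutators of `PE` are translations. -/
theorem PE_commutator {p q : Equiv.Perm (UA A)} (hp : p ∈ PE w φ hA hw hφ)
    (hq : q ∈ PE w φ hA hw hφ) : p * q * p⁻¹ * q⁻¹ ∈ TL w φ hA hw hφ := by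
  obtain ⟨v, e, hv, he, rfl⟩ := hp
  obtain ⟨v', e', hv', he', rfl⟩ := hq
  have h1 : star (e * star e * v') = e * star e * v' := by
    rw [star_mul, star_mul, star_star, hv', mul_comm]
  have h2 : star (e' * star e' * v) = e' * star e' * v := by
    rw [star_mul, star_mul, star_star, hv, mul_comm]
  have h3 : (TE w φ v * WE w φ e) * (TE w φ v' * WE w φ e') =
      TE w φ (v + e * star e * v') * WE w φ (e * e') := by
    rw [TE_add hA hw hφ hv h1, WE_mul hA hw φ he he', mul_assoc, ← mul_assoc (WE w φ e),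
      WE_TE hA hw hφ he hv']
    simp only [mul_assoc]
  have h4 : (TE w φ v' * WE w φ e') * (TE w φ v * WE w φ e) =
      TE w φ (v' + e' * star e' * v) * WE w φ (e * e') := by
    rw [TE_add hA hw hφ hv' h2, mul_comm e e', WE_mul hA hw φ he' he, mul_assoc,
      ← mul_assoc (WE w φ e'), WE_TE hA hw hφ he' hv]
    simp only [mul_assoc]
  have s1' : star (v + e * star e * v') = v + e * star e * v' := by rw [star_add, hv, h1]
  have s2' : star (v' + e' * star e' * v) = v' + e' * star e' * v := by rw [star_add, hv', h2]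
  refine ⟨(v + e * star e * v') - (v' + e' * star e' * v), by rw [star_sub, s1', s2'], ?_⟩
  rw [mul_assoc, ← mul_inv_rev, h3, h4, mul_inv_rev, sub_eq_add_neg,
    TE_add hA hw hφ s1' (by rw [star_neg, s2']), TE_neg hA hw hφ s2']
  group

/-- The translations are normalized by `PE`. -/
theorem TL_normal {p q : Equiv.Perm (UA A)} (hp : p ∈ PE w φ hA hw hφ)
    (hq : q ∈ TL w φ hA hw hφ) : p * q * p⁻¹ ∈ TL w φ hA hw hφ := by
  have h := (TL w φ hA hw hφ).mul_mem (PE_commutator hA hw hφ hp (TL_le_PE hA hw hφ hq)) hq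
  simpa using h

end PE

end

end Vale.Agent.P011.H21
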