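import Mathlib

/-!
Polynomial functions on a finite dimensional vector space over an infinite field, and rational
functions `α(e) β(e)⁻¹` with values in a finite dimensional division algebra.
-/

open Module

namespace Vale.Agent.P011.H21

section poly

variable {F : Type*} [Field F] {V : Type*} [AddCommGroup V] [Module F V]

/-- The algebra of polynomial functions on a vector space. -/
def PolyFun (F V : Type*) [Field F] [AddCommGroup V] [Module F V] : Subalgebra F (V → F) :=
  Algebra.adjoin F (Set.range fun (l : V →ₗ[F] F) => (l : V → F))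

theorem linear_mem (l : V →ₗ[F] F) : (fun v => l v) ∈ PolyFun F V :=
  Algebra.subset_adjoin ⟨l, rfl⟩

theorem const_mem (a : F) : (fun _ => a) ∈ PolyFun F V :=
  (PolyFun F V).algebraMap_mem a

/-- A polynomial function is given by a polynomial in the coordinates. -/
theorem exists_mv {ι : Type*} (b : Basis ι F V) {f : V → F} (hf : f ∈ PolyFun F V)
    [Finite ι] : ∃ p : MvPolynomial ι F, ∀ v, f v = MvPolynomial.eval (b.repr v) p := by
  have := Fintype.ofFinite ι
  induction hf using Algebra.adjoin_induction with
  | mem f hf =>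
    obtain ⟨l, rfl⟩ := hf
    refine ⟨∑ i, MvPolynomial.C (l (b i)) * MvPolynomial.X i, fun v => ?_⟩
    simp only [map_sum, map_mul, MvPolynomial.eval_C, MvPolynomial.eval_X]
    conv_lhs => rw [← b.sum_repr v]
    rw [map_sum]
    refine Finset.sum_congr rfl fun i _ => ?_
    rw [map_smul, smul_eq_mul, mul_comm]
  | algebraMap a =>
    refine ⟨MvPolynomial.C a, fun v => ?_⟩
    simp
  | add f g _ _ hf hg =>
    obtain ⟨p, hp⟩ := hf
    obtain ⟨q, hq⟩ := hg
    refine ⟨p + q, fun v => ?_⟩
    rw [map_add, Pi.add_apply, hp, hq]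
  | mul f g _ _ hf hg =>
    obtain ⟨p, hp⟩ := hf
    obtain ⟨q, hq⟩ := hg
    refine ⟨p * q, fun v => ?_⟩
    rw [map_mul, Pi.mul_apply, hp, hq]

/-- If a product of polynomial functions vanishes on a box with infinite sides, one of the factors
vanishes identically. -/
theorem eq_zero_of_prod {ι κ : Type*} [Finite ι] (b : Basis ι F V) {S : ι → Set F}
    (hS : ∀ i, (S i).Infinite) (s : Finset κ) (f : κ → V → F) (hf : ∀ j ∈ s, f j ∈ PolyFun F V)
    (h : ∀ v, (∀ i, b.repr v i ∈ S i) → ∏ j ∈ s, f j v = 0) : ∃ j ∈ s, ∀ v, f j v = 0 := by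
  have := Fintype.ofFinite ι
  choose! p hp using fun j (hj : j ∈ s) => exists_mv b (hf j hj)
  have h0 : ∏ j ∈ s, p j = 0 := by
    refine MvPolynomial.funext_set S hS fun x hx => ?_
    rw [map_prod, map_zero]
    have h1 := h (∑ i, x i • b i) (fun i => by
      rw [b.repr_sum_self]
      exact hx i (Set.mem_univ i))
    rw [← h1]
    refine Finset.prod_congr rfl fun j hj => ?_
    rw [hp j hj, b.repr_sum_self]
  obtain ⟨j, hj, hj0⟩ := Finset.prod_eq_zero_iff.mp h0
  exact ⟨j, hj, fun v => by rw [hp j hj, hj0, map_zero]⟩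

end poly

section comp

variable {F : Type*} [Field F] {V W : Type*} [AddCommGroup V] [Module F V] [AddCommGroup W]
  [Module F W]

/-- A map between vector spaces is polynomial if its composites with the linear functionals are. -/
def IsPolyMap (F : Type*) {V W : Type*} [Field F] [AddCommGroup V] [Module F V]
    [AddCommGroup W] [Module F W] (g : V → W) : Prop :=
  ∀ l : W →ₗ[F] F, (fun v => l (g v)) ∈ PolyFun F V

theorem IsPolyMap.comp_mem {g : V → W} (hg : IsPolyMap F g) {f : W → F} (hf : f ∈ PolyFun F W) :
    (fun v => f (g v)) ∈ PolyFun F V := by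
  induction hf using Algebra.adjoin_induction with
  | mem f hf =>
    obtain ⟨l, rfl⟩ := hf
    exact hg l
  | algebraMap a => exact const_mem a
  | add f g _ _ hf hg => exact add_mem hf hg
  | mul f g _ _ hf hg => exact mul_mem hf hg

theorem isPolyMap_linear (φ : V →ₗ[F] W) : IsPolyMap F fun v => φ v :=
  fun l => linear_mem (l ∘ₗ φ)

theorem isPolyMap_const (w : W) : IsPolyMap F fun _ : V => w := fun l => const_mem (l w)

theorem IsPolyMap.add {g h : V → W} (hg : IsPolyMap F g) (hh : IsPolyMap F h) :
    IsPolyMap F fun v => g v + h v := fun l => by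
  have : (fun v => l (g v + h v)) = (fun v => l (g v)) + fun v => l (h v) := by
    funext v
    simp
  rw [this]
  exact add_mem (hg l) (hh l)

theorem IsPolyMap.smul {a : V → F} {g : V → W} (ha : a ∈ PolyFun F V) (hg : IsPolyMap F g) :
    IsPolyMap F fun v => a v • g v := fun l => by
  have : (fun v => l (a v • g v)) = a * fun v => l (g v) := by
    funext v
    simp
  rw [this]
  exact mul_mem ha (hg l)

theorem IsPolyMap.sum {ι : Type*} {s : Finset ι} {g : ι → V → W}
    (hg : ∀ i ∈ s, IsPolyMap F (g i)) : IsPolyMap F fun v => ∑ i ∈ s, g i v := fun l => by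
  have : (fun v => l (∑ i ∈ s, g i v)) = ∑ i ∈ s, fun v => l (g i v) := by
    funext v
    simp
  rw [this]
  exact sum_mem fun i hi => hg i hi l

variable {A : Type*} [Ring A] [Algebra F A] [FiniteDimensional F A]

theorem IsPolyMap.mul {g h : V → A} (hg : IsPolyMap F g) (hh : IsPolyMap F h) :
    IsPolyMap F fun v => g v * h v := by
  have hb := Module.finBasis F A
  have h1 : (fun v => g v * h v) = fun v => ∑ i, ∑ j,
      ((Module.finBasis F A).repr (g v) i * (Module.finBasis F A).repr (h v) j) •
        (Module.finBasis F A i * Module.finBasis F A j) := by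
    funext v
    conv_lhs => rw [← (Module.finBasis F A).sum_repr (g v), ← (Module.finBasis F A).sum_repr (h v),
      Finset.sum_mul_sum]
    simp_rw [smul_mul_smul_comm]
  rw [h1]
  refine IsPolyMap.sum fun i _ => IsPolyMap.sum fun j _ => IsPolyMap.smul (mul_mem ?_ ?_)
    (isPolyMap_const _)
  · exact hg ((Module.finBasis F A).coord i)
  · exact hh ((Module.finBasis F A).coord j)

/-- The norm form. -/
noncomputable def nf (F : Type*) {A : Type*} [Field F] [Ring A] [Algebra F A] (x : A) : F :=
  LinearMap.det (LinearMap.mulLeft F x)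

/-- The adjoint, a polynomial map with `x * adj x = nf x`. -/
theorem exists_adj (F A : Type*) [Field F] [Ring A] [Algebra F A] [FiniteDimensional F A] :
    (nf F : A → F) ∈ PolyFun F A ∧
      ∃ ad : A → A, IsPolyMap F ad ∧ ∀ x, x * ad x = algebraMap F A (nf F x) := by
  classical
  set b := Module.finBasis F A with hb
  set M : A → Matrix (Fin (finrank F A)) (Fin (finrank F A)) F := fun x =>
    LinearMap.toMatrix b b (LinearMap.mulLeft F x) with hM
  have hMe : ∀ i j, (fun x => M x i j) ∈ PolyFun F A := by
    intro i j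
    have : (fun x => M x i j) = fun x => ((b.coord i) ∘ₗ (LinearMap.mulRight F (b j))) x := by
      funext x
      simp only [hM, LinearMap.toMatrix_apply, LinearMap.mulLeft_apply, LinearMap.comp_apply,
        LinearMap.mulRight_apply, Basis.coord_apply]
    rw [this]
    exact linear_mem _
  have hdet : ∀ (N : A → Matrix (Fin (finrank F A)) (Fin (finrank F A)) F),
      (∀ i j, (fun x => N x i j) ∈ PolyFun F A) → (fun x => (N x).det) ∈ PolyFun F A := by
    intro N hN
    have : (fun x => (N x).det) = ∑ σ : Equiv.Perm (Fin (finrank F A)),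
        ((Equiv.Perm.sign σ : ℤ) : F) • ∏ i, fun x => N x (σ i) i := by
      funext x
      rw [Matrix.det_apply']
      simp [Finset.sum_apply, Finset.prod_apply]
    rw [this]
    exact sum_mem fun σ _ => Subalgebra.smul_mem _ (prod_mem fun i _ => hN _ _) _
  refine ⟨?_, fun x => ∑ i, ((M x).adjugate.mulVec (b.repr 1)) i • b i, ?_, ?_⟩
  · have : (nf F : A → F) = fun x => (M x).det := by
      funext x
      rw [nf, hM, LinearMap.det_toMatrix]
    rw [this]
    exact hdet M hMe
  · refine IsPolyMap.sum fun i _ => IsPolyMap.smul ?_ (isPolyMap_const _)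
    have : (fun x => ((M x).adjugate.mulVec (b.repr 1)) i) =
        ∑ j, (b.repr 1 j) • fun x => (M x).adjugate i j := by
      funext x
      simp [Matrix.mulVec, dotProduct, Finset.sum_apply, mul_comm]
    rw [this]
    refine sum_mem fun j _ => Subalgebra.smul_mem _ ?_ _
    simp only [Matrix.adjugate_apply]
    refine hdet _ fun k l => ?_
    simp only [Matrix.updateRow_apply]
    split_ifs
    · exact const_mem _
    · exact hMe k l
  · intro x
    apply b.repr.injective
    have h1 : ∀ y, ⇑(b.repr (x * y)) = (M x).mulVec (b.repr y) := fun y => by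
      exact (LinearMap.toMatrix_mulVec_repr b b (LinearMap.mulLeft F x) y).symm
    have h2 : ⇑(b.repr (∑ i, ((M x).adjugate.mulVec (b.repr 1)) i • b i)) =
        (M x).adjugate.mulVec (b.repr 1) := b.repr_sum_self _
    refine DFunLike.coe_injective ?_
    rw [h1, h2, Matrix.mulVec_mulVec, Matrix.mul_adjugate, Matrix.smul_mulVec, Matrix.one_mulVec,
      Algebra.algebraMap_eq_smul_one, map_smul, Finsupp.coe_smul, nf, hM, LinearMap.det_toMatrix]

theorem nf_ne_zero {D : Type*} [DivisionRing D] [Algebra F D] [FiniteDimensional F D] {x : D}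
    (hx : x ≠ 0) : nf F x ≠ 0 := by
  rw [nf]
  have h1 : Function.Injective (LinearMap.mulLeft F x) := fun y z h => by
    simpa [hx] using h
  have h2 : IsUnit (LinearMap.mulLeft F x) := by
    rw [LinearMap.isUnit_iff_ker_eq_bot]
    exact LinearMap.ker_eq_bot.mpr h1
  exact ((LinearMap.isUnit_iff_isUnit_det _).mp h2).ne_zero

end comp

end Vale.Agent.P011.H21
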