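import Vale.Agent.P011.H961.Loc

/-!
# Unitary groups over a field: elements which fix an anisotropic row

Every unitary matrix of size at least two is a product of three unitary matrices each of which
fixes an anisotropic row.
-/

open Matrix Module

set_option linter.unusedSectionVars false

namespace Vale.Agent.P011.H21.R7b

open Vale.Agent.P011.H961 (UH mem_UH)

section form

variable {L : Type*} [Field L] [StarRing L] {n : ℕ} (H : Matrix (Fin n) (Fin n) L)

/-- The form on rows. -/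
def bf (x y : Fin n → L) : L := x ⬝ᵥ (H *ᵥ star y)

theorem bf_add_left (x x' y : Fin n → L) : bf H (x + x') y = bf H x y + bf H x' y :=
  add_dotProduct _ _ _

theorem bf_sub_left (x x' y : Fin n → L) : bf H (x - x') y = bf H x y - bf H x' y :=
  sub_dotProduct _ _ _

theorem bf_smul_left (c : L) (x y : Fin n → L) : bf H (c • x) y = c * bf H x y :=
  smul_dotProduct _ _ _

theorem bf_add_right (x y y' : Fin n → L) : bf H x (y + y') = bf H x y + bf H x y' := by
  unfold bf
  rw [star_add, mulVec_add, dotProduct_add]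

theorem bf_sub_right (x y y' : Fin n → L) : bf H x (y - y') = bf H x y - bf H x y' := by
  unfold bf
  rw [star_sub, mulVec_sub, dotProduct_sub]

theorem bf_smul_right (c : L) (x y : Fin n → L) : bf H x (c • y) = star c * bf H x y := by
  unfold bf
  rw [star_smul, mulVec_smul, dotProduct_smul, smul_eq_mul]

variable {H}

theorem star_bf (hH : Hᴴ = H) (x y : Fin n → L) : star (bf H x y) = bf H y x := by
  unfold bf
  rw [← star_dotProduct_star, star_mulVec, star_star, hH, ← dotProduct_mulVec]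

/-- Isometries. -/
theorem bf_of_mem {T : Matrix (Fin n) (Fin n) L} (hT : T * H * Tᴴ = H) (x y : Fin n → L) :
    bf H (x ᵥ* T) (y ᵥ* T) = bf H x y := by
  unfold bf
  rw [star_vecMul, mulVec_mulVec, ← dotProduct_mulVec, mulVec_mulVec, ← mul_assoc, hT]

theorem mem_of_bf {T : Matrix (Fin n) (Fin n) L}
    (h : ∀ x y : Fin n → L, bf H (x ᵥ* T) (y ᵥ* T) = bf H x y) : T * H * Tᴴ = H := by
  ext i j
  have h1 := h (Pi.single i 1) (Pi.single j 1)
  unfold bf at h1
  rw [star_vecMul, mulVec_mulVec, ← dotProduct_mulVec, mulVec_mulVec, ← mul_assoc] at h1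
  have e : ∀ M : Matrix (Fin n) (Fin n) L,
      (Pi.single i 1 : Fin n → L) ⬝ᵥ (M *ᵥ star (Pi.single j 1 : Fin n → L)) = M i j := by
    intro M
    rw [← Pi.single_star, star_one, mulVec_single_one, single_one_dotProduct]
    rfl
  rwa [e, e] at h1

/-- A unitary matrix as a unit. -/
noncomputable def uOf (hdet : H.det ≠ 0) (T : Matrix (Fin n) (Fin n) L) (hT : T * H * Tᴴ = H) :
    (Matrix (Fin n) (Fin n) L)ˣ where
  val := T
  inv := H * Tᴴ * H⁻¹
  val_inv := by
    rw [← mul_assoc, ← mul_assoc, hT]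
    exact Matrix.mul_nonsing_inv _ (isUnit_iff_ne_zero.mpr hdet)
  inv_val := by
    rw [mul_eq_one_comm, ← mul_assoc, ← mul_assoc, hT]
    exact Matrix.mul_nonsing_inv _ (isUnit_iff_ne_zero.mpr hdet)

theorem eq_zero_of_bf (hdet : H.det ≠ 0) {x : Fin n → L} (h : ∀ y, bf H x y = 0) : x = 0 := by
  have h1 : x ᵥ* H = 0 := by
    funext j
    have h2 := h (Pi.single j 1)
    unfold bf at h2
    rw [← Pi.single_star, star_one, mulVec_single_one] at h2
    exact h2
  have h3 : x = (x ᵥ* H) ᵥ* H⁻¹ := by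
    rw [vecMul_vecMul, Matrix.mul_nonsing_inv _ (isUnit_iff_ne_zero.mpr hdet), vecMul_one]
  rw [h3, h1, zero_vecMul]

/-- Polarization. -/
theorem polar (hne : ∃ x : L, star x ≠ x) {S : Set (Fin n → L)} (h0 : ∀ x ∈ S, bf H x x = 0)
    (hadd : ∀ x ∈ S, ∀ y ∈ S, x + y ∈ S) (hsm : ∀ (c : L), ∀ x ∈ S, c • x ∈ S)
    {x y : Fin n → L} (hx : x ∈ S) (hy : y ∈ S) : bf H x y = 0 := by
  obtain ⟨c, hc⟩ := hne
  have h1 := h0 _ (hadd x hx y hy)
  have h2 := h0 _ (hadd _ (hsm c x hx) y hy)
  simp only [bf_add_left, bf_add_right, bf_smul_left, bf_smul_right, h0 x hx, h0 y hy, mul_zero,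
    zero_add, add_zero] at h1 h2
  have h3 : (c - star c) * bf H x y = 0 := by linear_combination h2 - star c * h1
  exact (mul_eq_zero.mp h3).resolve_left (fun h => hc (sub_eq_zero.mp h).symm)

theorem exists_aniso (hdet : H.det ≠ 0) (hne : ∃ x : L, star x ≠ x) (hn : 0 < n) :
    ∃ e, bf H e e ≠ 0 := by
  by_contra hcon
  push Not at hcon
  have h1 : (Pi.single (⟨0, hn⟩ : Fin n) (1 : L) : Fin n → L) = 0 :=
    eq_zero_of_bf hdet fun y => polar hne (S := Set.univ) (fun x _ => hcon x)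
      (fun _ _ _ _ => Set.mem_univ _) (fun _ _ _ => Set.mem_univ _) (Set.mem_univ _)
      (Set.mem_univ y)
  have h2 := congrFun h1 ⟨0, hn⟩
  rw [Pi.single_eq_same] at h2
  exact one_ne_zero h2

theorem exists_perp (hdet : H.det ≠ 0) (hne : ∃ x : L, star x ≠ x) (hn : 2 ≤ n)
    {y : Fin n → L} (hy : bf H y y ≠ 0) : ∃ x, bf H x y = 0 ∧ bf H x x ≠ 0 := by
  by_contra hcon
  push Not at hcon
  let ℓ : (Fin n → L) →ₗ[L] L :=
    { toFun := fun x => bf H x y
      map_add' := fun x x' => bf_add_left H x x' y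
      map_smul' := fun c x => bf_smul_left H c x y }
  have hker : LinearMap.ker ℓ ≠ ⊥ := by
    apply LinearMap.ker_ne_bot_of_finrank_lt
    rw [finrank_fin_fun, finrank_self]
    omega
  obtain ⟨x, hx, hx0⟩ := (Submodule.ne_bot_iff _).mp hker
  have hxy : bf H x y = 0 := hx
  apply hx0
  refine eq_zero_of_bf hdet fun z => ?_
  have h1 : bf H (z - (bf H z y * (bf H y y)⁻¹) • y) y = 0 := by
    rw [bf_sub_left, bf_smul_left, inv_mul_cancel_right₀ hy, sub_self]
  have h2 : bf H x (z - (bf H z y * (bf H y y)⁻¹) • y) = 0 := by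
    refine polar hne (S := {x | bf H x y = 0}) (fun x hx => hcon x hx) ?_ ?_ hxy h1
    · intro a ha b hb
      rw [Set.mem_ofPred_eq] at ha hb ⊢
      rw [bf_add_left, ha, hb, add_zero]
    · intro c a ha
      rw [Set.mem_ofPred_eq] at ha ⊢
      rw [bf_smul_left, ha, mul_zero]
  rw [bf_sub_right, bf_smul_right, hxy, mul_zero, sub_zero] at h2
  exact h2

/-- The rank one operator. -/
def Q1 (H : Matrix (Fin n) (Fin n) L) (y : Fin n → L) : Matrix (Fin n) (Fin n) L :=
  vecMulVec (H *ᵥ star y) y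

theorem vecMul_Q1 (x y : Fin n → L) : x ᵥ* Q1 H y = bf H x y • y := by
  funext j
  unfold Q1 bf
  rw [vecMul, Pi.smul_apply, smul_eq_mul, dotProduct, dotProduct, Finset.sum_mul]
  refine Finset.sum_congr rfl fun i _ => ?_
  rw [vecMulVec_apply, mul_assoc]

/-- The quasi-reflection. -/
def qr (H : Matrix (Fin n) (Fin n) L) (y : Fin n → L) (s : L) : Matrix (Fin n) (Fin n) L :=
  1 - s⁻¹ • Q1 H y

theorem vecMul_qr (x y : Fin n → L) (s : L) : x ᵥ* qr H y s = x - (s⁻¹ * bf H x y) • y := by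
  rw [qr, vecMul_sub, vecMul_one, vecMul_smul, vecMul_Q1, smul_smul]

theorem qr_mem (hH : Hᴴ = H) {y : Fin n → L} {s : L} (hs : s ≠ 0) (h : s + star s = bf H y y) :
    qr H y s * H * (qr H y s)ᴴ = H := by
  refine mem_of_bf fun x z => ?_
  rw [vecMul_qr, vecMul_qr, bf_sub_left, bf_sub_right, bf_sub_right, bf_smul_left, bf_smul_left,
    bf_smul_right, bf_smul_right, star_mul', star_bf hH, star_inv₀, ← h]
  have hs' : star s ≠ 0 := star_ne_zero.mpr hs
  field_simp
  ring

end form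

section factor

variable {L : Type*} [NormedField L] [StarRing L] {n : ℕ} {H : Matrix (Fin n) (Fin n) L}

/-- The unitary matrices which fix an anisotropic row. -/
def Fx (H : Matrix (Fin n) (Fin n) L) : Set (Matrix (Fin n) (Fin n) L)ˣ :=
  {A | A ∈ UH H ∧ ∃ e : Fin n → L, bf H e e ≠ 0 ∧ e ᵥ* (A : Matrix (Fin n) (Fin n) L) = e}

theorem fx_inv {A : (Matrix (Fin n) (Fin n) L)ˣ} (hA : A ∈ Fx H) : A⁻¹ ∈ Fx H := by
  obtain ⟨h1, e, he, hA⟩ := hA
  refine ⟨(UH H).inv_mem h1, e, he, ?_⟩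
  conv_lhs => rw [← hA]
  rw [vecMul_vecMul, A.mul_inv, vecMul_one]

theorem qr_fx (hH : Hᴴ = H) (hdet : H.det ≠ 0) (hne : ∃ x : L, star x ≠ x) (hn : 2 ≤ n)
    {y : Fin n → L} (hy : bf H y y ≠ 0) {s : L} (hs : s ≠ 0) (h : s + star s = bf H y y) :
    uOf hdet (qr H y s) (qr_mem hH hs h) ∈ Fx H := by
  obtain ⟨x, hx, hx0⟩ := exists_perp hdet hne hn hy
  refine ⟨qr_mem hH hs h, x, hx0, ?_⟩
  change x ᵥ* qr H y s = x
  rw [vecMul_qr, hx, mul_zero, zero_smul, sub_zero]

/-- **Three factors.** -/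
theorem three_factor (hH : Hᴴ = H) (hdet : H.det ≠ 0) (h2 : (2 : L) ≠ 0)
    (hne : ∃ x : L, star x ≠ x) (hinf : {ζ : L | ζ * star ζ = 1}.Infinite) (hn : 2 ≤ n)
    {T : (Matrix (Fin n) (Fin n) L)ˣ} (hT : T ∈ UH H) :
    ∃ A ∈ Fx H, ∃ B ∈ Fx H, ∃ C ∈ Fx H, T = A * B * C := by
  classical
  obtain ⟨e, he⟩ := exists_aniso hdet hne (by omega : 0 < n)
  set a := bf H e e with ha
  have has : star a = a := star_bf hH e e
  set f : Fin n → L := e ᵥ* (T : Matrix (Fin n) (Fin n) L) with hf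
  have hff : bf H f f = a := bf_of_mem hT e e
  set b := bf H e f with hb
  -- the choice of `ζ`
  obtain ⟨ζ, hζ, hζ1, hζb⟩ : ∃ ζ : L, ζ * star ζ = 1 ∧ ζ ≠ 1 ∧
      star ζ * b + ζ * star b ≠ 2 * a := by
    by_contra hcon
    push Not at hcon
    apply hinf
    let p : Polynomial L := Polynomial.C (star b) * Polynomial.X ^ 2 -
      Polynomial.C (2 * a) * Polynomial.X + Polynomial.C b
    have hp : p ≠ 0 := by
      intro h0
      have h3 := congrArg (fun q => Polynomial.coeff q 1) h0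
      simp [p, Polynomial.coeff_C] at h3
      rcases h3 with h3 | h3
      · exact h2 h3
      · exact he h3
    refine Set.Finite.subset ((p.roots.toFinset.finite_toSet).union (Set.finite_singleton 1)) ?_
    intro z hz
    rw [Set.mem_ofPred_eq] at hz
    by_cases hz1 : z = 1
    · exact Or.inr hz1
    · left
      have h3 := hcon z hz hz1
      rw [Finset.mem_coe, Multiset.mem_toFinset, Polynomial.mem_roots hp, Polynomial.IsRoot.def]
      simp only [p, Polynomial.eval_add, Polynomial.eval_sub, Polynomial.eval_mul,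
        Polynomial.eval_C, Polynomial.eval_pow, Polynomial.eval_X]
      linear_combination z * h3 - b * hz
  have hζ0 : ζ ≠ 0 := left_ne_zero_of_mul_eq_one hζ
  have h1ζ : 1 - ζ ≠ 0 := sub_ne_zero.mpr (Ne.symm hζ1)
  have h1ζ' : 1 - star ζ ≠ 0 := by
    intro h
    apply h1ζ
    have := congrArg star h
    rwa [star_sub, star_one, star_star, star_zero] at this
  -- the first reflection
  set sR := a * (1 - ζ)⁻¹ with hsR
  have hsR0 : sR ≠ 0 := mul_ne_zero he (inv_ne_zero h1ζ)
  have hsRa : sR + star sR = bf H f f := by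
    rw [hff, hsR, star_mul', star_inv₀, star_sub, star_one, has]
    field_simp
    linear_combination -hζ
  set R := uOf hdet (qr H f sR) (qr_mem hH hsR0 hsRa) with hR
  have hfR : f ᵥ* (R : Matrix (Fin n) (Fin n) L) = ζ • f := by
    change f ᵥ* qr H f sR = _
    rw [vecMul_qr, hff, hsR, mul_inv, inv_inv]
    have : a⁻¹ * (1 - ζ) * a = 1 - ζ := by field_simp
    rw [this, sub_smul, one_smul, sub_sub_cancel]
  -- the second reflection
  set f₁ := ζ • f with hf₁
  have hef : bf H e f₁ = star ζ * b := bf_smul_right H ζ e f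
  have hfe : bf H f₁ e = ζ * star b := by rw [hf₁, bf_smul_left, hb, star_bf hH]
  have hff1 : bf H f₁ f₁ = a := by
    rw [hf₁, bf_smul_left, bf_smul_right, hff]
    linear_combination a * hζ
  set s := a - star ζ * b with hs
  have hsa : s + star s = bf H (e - f₁) (e - f₁) := by
    rw [bf_sub_left, bf_sub_right, bf_sub_right, hff1, hef, hfe, ← ha, hs, star_sub, has,
      star_mul', star_star]
    ring
  have hs1 : s + star s ≠ 0 := by
    rw [hs, star_sub, has, star_mul', star_star]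
    intro h
    apply hζb
    linear_combination -h
  have hs0 : s ≠ 0 := by
    intro h
    apply hs1
    rw [h, star_zero, add_zero]
  set S := uOf hdet (qr H (e - f₁) s) (qr_mem hH hs0 hsa) with hSd
  have heS : e ᵥ* (S : Matrix (Fin n) (Fin n) L) = f₁ := by
    change e ᵥ* qr H (e - f₁) s = _
    rw [vecMul_qr, bf_sub_right, hef, ← ha, ← hs, inv_mul_cancel₀ hs0, one_smul, sub_sub_cancel]
  have hRf : R ∈ Fx H := qr_fx hH hdet hne hn (by rw [hff]; exact he) hsR0 hsRa
  have hSf : S ∈ Fx H := qr_fx hH hdet hne hn (by rw [← hsa]; exact hs1) hs0 hsa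
  -- the third factor
  have hT' : T * R * S⁻¹ ∈ Fx H := by
    refine ⟨(UH H).mul_mem ((UH H).mul_mem hT hRf.1) ((UH H).inv_mem hSf.1), e, he, ?_⟩
    rw [Units.val_mul, Units.val_mul, ← vecMul_vecMul, ← vecMul_vecMul, ← hf, hfR, ← heS,
      vecMul_vecMul, S.mul_inv, vecMul_one]
  exact ⟨_, hT', S, hSf, R⁻¹, fx_inv hRf, by group⟩

end factor

section pert

variable {L : Type*} [Field L] {n : ℕ}

/-- The determinant of a perturbation of the identity by a projection of rank one. -/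
theorem det_proj {R : Type*} [CommRing R] (u w : Fin n → R) (h : w ⬝ᵥ u = 1) (c : R) :
    ((1 - vecMulVec u w) + c • vecMulVec u w).det = c := by
  have h3 := Matrix.det_one_add_replicateCol_mul_replicateRow (ι := Fin 1) ((c - 1) • u) w
  rw [dotProduct_smul, h, smul_eq_mul] at h3
  refine Eq.trans (congrArg det ?_) (h3.trans (by ring))
  ext i j
  simp only [Matrix.add_apply, Matrix.sub_apply, Matrix.smul_apply, vecMulVec_apply,
    Matrix.mul_apply, replicateCol_apply, replicateRow_apply, Pi.smul_apply, smul_eq_mul,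
    Finset.univ_unique, Finset.sum_singleton]
  ring

/-- The characteristic polynomial of the perturbed element. -/
theorem charpoly_pert {A Ai : Matrix (Fin n) (Fin n) L} (hA : A * Ai = 1) {u w : Fin n → L}
    (hwu : w ⬝ᵥ u = 1) (h1 : vecMulVec u w * A = vecMulVec u w)
    (h2 : A * vecMulVec u w = vecMulVec u w) {ζ : L} (hζ : ζ ≠ 0) (hdet : (ζ • A - 1).det ≠ 0) :
    ∃ q : Polynomial L,
      ((ζ • (A * (1 - vecMulVec u w)) + vecMulVec u w) +
        (ζ⁻¹ • (Ai * (1 - vecMulVec u w)) + vecMulVec u w) - (2 : L) • 1).charpoly =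
        Polynomial.X * q ∧ q.eval 0 ≠ 0 := by
  classical
  set Pr := vecMulVec u w with hPr
  have hPP : Pr * Pr = Pr := by
    ext i j
    rw [hPr, Matrix.mul_apply]
    simp only [vecMulVec_apply]
    have : ∀ x, u i * w x * (u x * w j) = (w x * u x) * (u i * w j) := fun x => by ring
    simp only [this]
    rw [← Finset.sum_mul]
    have h3 : ∑ x, w x * u x = 1 := hwu
    rw [h3, one_mul]
  have hAi : Ai * A = 1 := mul_eq_one_comm.mp hA
  have h3 : Ai * Pr = Pr := by
    calc Ai * Pr = Ai * (A * Pr) := by rw [h2]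
      _ = Pr := by rw [← mul_assoc, hAi, one_mul]
  have h4 : Pr * Ai = Pr := by
    calc Pr * Ai = (Pr * A) * Ai := by rw [h1]
      _ = Pr := by rw [mul_assoc, hA, mul_one]
  set M' := (ζ • (A * (1 - Pr)) + Pr) + (ζ⁻¹ • (Ai * (1 - Pr)) + Pr) with hM'
  set M := M' - (2 : L) • 1 with hM
  have hQP : (1 - Pr) * Pr = 0 := by rw [sub_mul, one_mul, hPP, sub_self]
  have hQQ : (1 - Pr) * (1 - Pr) = 1 - Pr := by rw [mul_sub, mul_one, hQP, sub_zero]
  have hMP : M * Pr = 0 := by
    rw [hM, sub_mul, hM', add_mul, add_mul, add_mul, smul_mul_assoc, smul_mul_assoc, mul_assoc,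
      mul_assoc, hQP, mul_zero, mul_zero, smul_zero, smul_zero, zero_add, hPP, smul_mul_assoc,
      one_mul, two_smul, sub_self]
  -- the polynomial matrices
  let c : Matrix (Fin n) (Fin n) L →+* Matrix (Fin n) (Fin n) (Polynomial L) :=
    (Polynomial.C : L →+* Polynomial L).mapMatrix
  have hcP : c Pr = vecMulVec (fun i => Polynomial.C (u i)) (fun i => Polynomial.C (w i)) := by
    ext i j : 2
    rw [RingHom.mapMatrix_apply, Matrix.map_apply, hPr, vecMulVec_apply, vecMulVec_apply, map_mul]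
  set N : Matrix (Fin n) (Fin n) (Polynomial L) := M.charmatrix with hN
  have hNe : N = (Polynomial.X : Polynomial L) • (1 : Matrix (Fin n) (Fin n) (Polynomial L)) -
      c M := by
    rw [hN, charmatrix, smul_one_eq_diagonal]
    rfl
  have hNP : N * c Pr = (Polynomial.X : Polynomial L) • c Pr := by
    rw [hNe, sub_mul, smul_mul_assoc, one_mul, ← map_mul, hMP, map_zero, sub_zero]
  set N₁ := N * (1 - c Pr) + c Pr with hN₁
  set G := (1 - c Pr) + (Polynomial.X : Polynomial L) • c Pr with hG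
  have hcPP : c Pr * c Pr = c Pr := by rw [← map_mul, hPP]
  have hNG : N = N₁ * G := by
    have e1 : (1 - c Pr) * c Pr = 0 := by rw [sub_mul, one_mul, hcPP, sub_self]
    have e2 : c Pr * (1 - c Pr) = 0 := by rw [mul_sub, mul_one, hcPP, sub_self]
    have e3 : (1 - c Pr) * (1 - c Pr) = 1 - c Pr := by rw [mul_sub, mul_one, e1, sub_zero]
    rw [hN₁, hG, add_mul, mul_add, mul_add, mul_assoc, e3, mul_smul_comm, mul_assoc, e1, mul_zero,
      smul_zero, add_zero, e2, zero_add, mul_smul_comm, hcPP, ← hNP, ← mul_add, sub_add_cancel,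
      mul_one]
  have hGdet : G.det = Polynomial.X := by
    rw [hG, hcP]
    refine det_proj _ _ ?_ _
    have : (fun i => Polynomial.C (w i)) ⬝ᵥ (fun i => Polynomial.C (u i)) =
        Polynomial.C (w ⬝ᵥ u) := by
      rw [dotProduct, dotProduct, map_sum]
      exact Finset.sum_congr rfl fun i _ => by rw [map_mul]
    rw [this, hwu, map_one]
  refine ⟨N₁.det, ?_, ?_⟩
  · rw [Matrix.charpoly, ← hN, hNG, det_mul, hGdet, mul_comm]
  · -- the value at two
    let ev : Matrix (Fin n) (Fin n) (Polynomial L) →+* Matrix (Fin n) (Fin n) L :=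
      (Polynomial.evalRingHom (0 : L)).mapMatrix
    have hevc : ∀ Y, ev (c Y) = Y := by
      intro Y
      ext i j
      simp [ev, c]
    have hev : N₁.det.eval 0 = (ev N₁).det := by
      rw [← Polynomial.coe_evalRingHom, RingHom.map_det]
    have hevN : ev N = (2 : L) • 1 - M' := by
      have e0 : (2 : L) • (1 : Matrix (Fin n) (Fin n) L) - M' = 0 - M := by
        rw [hM]
        abel
      rw [hNe, map_sub, hevc, e0]
      congr 1
      ext i j
      simp only [ev, RingHom.mapMatrix_apply, Matrix.map_apply, Matrix.smul_apply, smul_eq_mul,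
        Polynomial.coe_evalRingHom]
      rw [Polynomial.eval_mul, Polynomial.eval_X, zero_mul, Matrix.zero_apply]
    rw [hev, hN₁, map_add, map_mul, map_sub, map_one, hevc, hevN]
    -- the factorization
    set W := ζ • A - 1 with hW
    have hWu : IsUnit W := (Matrix.isUnit_iff_isUnit_det _).mpr (isUnit_iff_ne_zero.mpr hdet)
    set Z := -(W * W * (ζ⁻¹ • Ai)) with hZ
    have hZe : ((2 : L) • 1 - M') * (1 - Pr) = Z * (1 - Pr) := by
      have e1 : M' * (1 - Pr) = (ζ • A + ζ⁻¹ • Ai) * (1 - Pr) := by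
        have e2 : Pr * (1 - Pr) = 0 := by rw [mul_sub, mul_one, hPP, sub_self]
        rw [hM', add_mul, add_mul, add_mul, add_mul, smul_mul_assoc, smul_mul_assoc, mul_assoc,
          mul_assoc, hQQ, e2, add_zero, add_zero, smul_mul_assoc, smul_mul_assoc]
      rw [sub_mul, e1, ← sub_mul]
      congr 1
      have e3 : W * (ζ⁻¹ • Ai) = 1 - ζ⁻¹ • Ai := by
        rw [hW, sub_mul, one_mul, smul_mul_smul_comm, hA, mul_inv_cancel₀ hζ, one_smul]
      rw [hZ, mul_assoc, e3, mul_sub, mul_one, e3, hW, two_smul]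
      abel
    rw [hZe]
    have hZP : Z * Pr = Pr * Z := by
      have e1 : W * Pr = Pr * W := by
        rw [hW, sub_mul, mul_sub, smul_mul_assoc, mul_smul_comm, h1, h2, one_mul, mul_one]
      have e2 : (ζ⁻¹ • Ai) * Pr = Pr * (ζ⁻¹ • Ai) := by
        rw [smul_mul_assoc, mul_smul_comm, h3, h4]
      rw [hZ, neg_mul, mul_neg, mul_assoc, e2, ← mul_assoc, ← mul_assoc Pr, ← mul_assoc Pr, ← e1,
        mul_assoc W Pr, ← e1, mul_assoc W W, mul_assoc, mul_assoc]
    have hZu : IsUnit Z := by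
      rw [hZ]
      refine IsUnit.neg ((hWu.mul hWu).mul ?_)
      refine ⟨⟨ζ⁻¹ • Ai, ζ • A, ?_, ?_⟩, rfl⟩
      · rw [smul_mul_smul_comm, hAi, inv_mul_cancel₀ hζ, one_smul]
      · rw [smul_mul_smul_comm, hA, mul_inv_cancel₀ hζ, one_smul]
    obtain ⟨Zu, hZu⟩ := hZu
    have hZiP : ((Zu⁻¹ : (Matrix (Fin n) (Fin n) L)ˣ) : Matrix (Fin n) (Fin n) L) * Pr =
        Pr * ((Zu⁻¹ : (Matrix (Fin n) (Fin n) L)ˣ) : Matrix (Fin n) (Fin n) L) := by
      have h5 : Commute (Zu : Matrix (Fin n) (Fin n) L) Pr := by rw [hZu]; exact hZP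
      exact h5.units_inv_left
    have hprod : (Z * (1 - Pr) + Pr) *
        (((Zu⁻¹ : (Matrix (Fin n) (Fin n) L)ˣ) : Matrix (Fin n) (Fin n) L) * (1 - Pr) + Pr) =
        1 := by
      have e1 : (1 - Pr) * (((Zu⁻¹ : (Matrix (Fin n) (Fin n) L)ˣ) : Matrix (Fin n) (Fin n) L) *
          (1 - Pr)) = ((Zu⁻¹ : (Matrix (Fin n) (Fin n) L)ˣ) : Matrix (Fin n) (Fin n) L) *
          (1 - Pr) := by
        rw [← mul_assoc, sub_mul, one_mul, ← hZiP, ← mul_one_sub, mul_assoc, hQQ]
      have e2 : Pr * (((Zu⁻¹ : (Matrix (Fin n) (Fin n) L)ˣ) : Matrix (Fin n) (Fin n) L) *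
          (1 - Pr)) = 0 := by
        rw [← mul_assoc, ← hZiP, mul_assoc, mul_sub, mul_one, hPP, sub_self, mul_zero]
      rw [add_mul, mul_add, mul_add, mul_assoc, e1, ← mul_assoc, ← hZu, Zu.mul_inv, one_mul,
        mul_assoc, hQP, mul_zero, add_zero, e2, zero_add, hPP, sub_add_cancel]
    intro h0
    have h6 := congrArg Matrix.det hprod
    rw [det_mul, h0, zero_mul, det_one] at h6
    exact zero_ne_one h6

end pert

end Vale.Agent.P011.H21.R7b
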