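import Vale.Agent.P011.H271.CritF
import Vale.Agent.P011.H271.PmF
import Vale.Agent.P011.H487.Coord
import Vale.Agent.P011.H511.Large
import Vale.Agent.P011.H167.RhoFA

/-!
Function fields: the local points of the sieve at the places where the fixed element is bad, and
the places above a given place in a quadratic extension.
-/

open Module

set_option linter.unusedSectionVars false

namespace Vale.Agent.P011.H21.Sig

open Vale.Agent.P011.H775 Vale.Agent.P011.H948 Vale.Agent.P011.H738 Vale.Agent.P011.H271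

section real

/-- The two cases of a nonflat polygon. -/
theorem nonflat_cases {a b c : ℝ} (ha : 0 ≤ a) (hb : 0 ≤ b) (hc : 0 ≤ c)
    (h : c < a ^ 3 ∨ c ^ 2 < b ^ 3) :
    (b < a ^ 2 ∧ c < a ^ 3) ∨ (a * c < b ^ 2 ∧ c ^ 2 < b ^ 3) := by
  by_contra hcon
  rw [not_or, not_and_or, not_and_or, not_lt, not_lt, not_lt, not_lt] at hcon
  obtain ⟨hA, hB⟩ := hcon
  rcases h with h | h
  · have h1 : a ^ 2 ≤ b := hA.resolve_right (not_le.mpr h)
    have ha0 : 0 < a := by
      rcases ha.eq_or_lt with h0 | h0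
      · rw [← h0] at h
        norm_num at h
        linarith
      · exact h0
    have h2 : (a ^ 2) ^ 2 ≤ b ^ 2 := pow_le_pow_left₀ (by positivity) h1 2
    have h3 : (a ^ 2) ^ 3 ≤ b ^ 3 := pow_le_pow_left₀ (by positivity) h1 3
    rcases hB with h4 | h4
    · have h5 : a * c < a * a ^ 3 := mul_lt_mul_of_pos_left h ha0
      nlinarith
    · have h5 : c ^ 2 < (a ^ 3) ^ 2 := pow_lt_pow_left₀ h hc (by norm_num)
      nlinarith
  · have h1 : b ^ 2 ≤ a * c := hB.resolve_right (not_le.mpr h)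
    have hb0 : 0 < b := by
      rcases hb.eq_or_lt with h0 | h0
      · rw [← h0] at h
        norm_num at h
        nlinarith [sq_nonneg c]
      · exact h0
    rcases hA with h4 | h4
    · have h2 : (b ^ 2) ^ 2 ≤ (a * c) ^ 2 := pow_le_pow_left₀ (by positivity) h1 2
      have h3 : a ^ 2 * c ^ 2 ≤ b * c ^ 2 := mul_le_mul_of_nonneg_right h4 (by positivity)
      have h5 : b * c ^ 2 < b * b ^ 3 := mul_lt_mul_of_pos_left h hb0
      nlinarith
    · have h2 : (b ^ 2) ^ 3 ≤ (a * c) ^ 3 := pow_le_pow_left₀ (by positivity) h1 3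
      have h3 : a ^ 3 * c ^ 3 ≤ c * c ^ 3 := mul_le_mul_of_nonneg_right h4 (by positivity)
      have h5 : (c ^ 2) ^ 2 < (b ^ 3) ^ 2 := pow_lt_pow_left₀ h (by positivity) (by norm_num)
      nlinarith

end real

section val

variable {K : Type} [Field K]

theorem abv_add_eq {V : Place K} {x y : K} (h : V.abv y < V.abv x) :
    V.abv (x + y) = V.abv x := abv_eq_of_close (by rwa [add_sub_cancel_left])

theorem abv_lt_of {V : Place K} {x y : K} {r : ℝ} (hx : V.abv x < r) (hy : V.abv y < r) :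
    V.abv (x + y) < r := (abv_add_le V x y).trans_lt (max_lt hx hy)

theorem abv_three_le (V : Place K) (x : K) : V.abv (3 * x) ≤ V.abv x := by
  rw [map_mul]
  exact mul_le_of_le_one_left (V.abv.nonneg _) (S3.abv_ofNat_le V 3)

/-- The nonflatness is preserved by taking cubes. -/
theorem nonflat_cube (V : Place K) {t s n : K}
    (h : V.abv n < V.abv t ^ 3 ∨ V.abv n ^ 2 < V.abv s ^ 3) :
    V.abv (n ^ 3) < V.abv (t ^ 3 - 3 * (t * s) + 3 * n) ^ 3 ∨
      V.abv (n ^ 3) ^ 2 < V.abv (s ^ 3 - 3 * (s * (n * t)) + 3 * n ^ 2) ^ 3 := by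
  have ht := V.abv.nonneg t
  have hs := V.abv.nonneg s
  have hn := V.abv.nonneg n
  rcases nonflat_cases ht hs hn h with ⟨h1, h2⟩ | ⟨h1, h2⟩
  · left
    have ht0 : 0 < V.abv t := by
      rcases ht.eq_or_lt with h0 | h0
      · rw [← h0] at h2
        norm_num at h2
        linarith
      · exact h0
    have e : t ^ 3 - 3 * (t * s) + 3 * n = t ^ 3 + (3 * (-(t * s)) + 3 * n) := by ring
    have h3 : V.abv (t ^ 3 - 3 * (t * s) + 3 * n) = V.abv t ^ 3 := by
      rw [e, abv_add_eq, map_pow]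
      refine abv_lt_of ((abv_three_le V _).trans_lt ?_) ((abv_three_le V _).trans_lt ?_)
      · rw [V.abv.map_neg, map_mul, map_pow]
        calc V.abv t * V.abv s < V.abv t * V.abv t ^ 2 := mul_lt_mul_of_pos_left h1 ht0
          _ = _ := by ring
      · rwa [map_pow]
    rw [h3, map_pow]
    exact pow_lt_pow_left₀ h2 hn (by norm_num)
  · right
    have hs0 : 0 < V.abv s := by
      rcases hs.eq_or_lt with h0 | h0
      · rw [← h0] at h2
        norm_num at h2
        nlinarith [sq_nonneg (V.abv n)]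
      · exact h0
    have e : s ^ 3 - 3 * (s * (n * t)) + 3 * n ^ 2 =
        s ^ 3 + (3 * (-(s * (n * t))) + 3 * n ^ 2) := by ring
    have h3 : V.abv (s ^ 3 - 3 * (s * (n * t)) + 3 * n ^ 2) = V.abv s ^ 3 := by
      rw [e, abv_add_eq, map_pow]
      refine abv_lt_of ((abv_three_le V _).trans_lt ?_) ((abv_three_le V _).trans_lt ?_)
      · rw [V.abv.map_neg, map_mul, map_mul, map_pow, mul_comm (V.abv n)]
        calc V.abv s * (V.abv t * V.abv n) < V.abv s * V.abv s ^ 2 :=
              mul_lt_mul_of_pos_left h1 hs0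
          _ = _ := by ring
      · rwa [map_pow, map_pow]
    rw [h3, map_pow]
    have h4 := pow_lt_pow_left₀ h2 (by positivity) (n := 3) (by norm_num)
    calc (V.abv n ^ 3) ^ 2 = (V.abv n ^ 2) ^ 3 := by ring
      _ < _ := h4

end val

section cube

variable {K D : Type} [Field K] [DivisionRing D] [Algebra K D] (C : Cub K D)

theorem T_cube (x : D) : C.T (x ^ 3) = C.T x ^ 3 - 3 * (C.T x * C.S x) + 3 * C.N x := by
  have h1 := congrArg C.T (C.cayley x)
  have h2 := H511.T_sq C x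
  rw [pow_two] at h2
  simp only [map_sub, map_add, map_smul, map_zero, smul_eq_mul, C.T_one] at h1
  rw [h2] at h1
  have e : x ^ 3 = x * x * x := by rw [pow_succ, pow_two]
  rw [e]
  linear_combination h1

theorem adj_pow3 (x : D) : C.adj (x ^ 3) = C.adj x ^ 3 := by
  have e : x ^ 3 = x * x * x := by rw [pow_succ, pow_two]
  have e' : C.adj x ^ 3 = C.adj x * (C.adj x * C.adj x) := by
    rw [pow_succ', pow_two]
  rw [e, e', C.adj_mul_distrib, C.adj_mul_distrib]

theorem S_adj (x : D) : C.S (C.adj x) = C.N x * C.T x := by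
  rw [Cub.S, C.adj_adj, map_smul, smul_eq_mul]

theorem N_adj (x : D) : C.N (C.adj x) = C.N x ^ 2 := by
  by_cases hx : x = 0
  · subst hx
    rw [C.adj_zero, C.N_zero]
    ring
  · have h1 := congrArg C.N (C.mul_adj x)
    rw [C.N_mul, C.N_smul, C.N_one, mul_one] at h1
    have h2 := C.N_ne_zero hx
    exact mul_left_cancel₀ h2 (by rw [h1]; ring)

theorem S_cube (x : D) : C.S (x ^ 3) =
    C.S x ^ 3 - 3 * (C.S x * (C.N x * C.T x)) + 3 * C.N x ^ 2 := by
  have h1 := T_cube C (C.adj x)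
  rw [S_adj, N_adj] at h1
  rw [Cub.S, adj_pow3, h1]
  rfl

theorem N_cube (x : D) : C.N (x ^ 3) = C.N x ^ 3 := by
  have e : x ^ 3 = x * x * x := by rw [pow_succ, pow_two]
  rw [e, C.N_mul, C.N_mul]
  ring

/-- A nonflat element has a nonflat cube. -/
theorem nonflat_pow (V : Place K) {x : D}
    (h : V.abv (C.N x) < V.abv (C.T x) ^ 3 ∨ V.abv (C.N x) ^ 2 < V.abv (C.S x) ^ 3) :
    V.abv (C.N (x ^ 3)) < V.abv (C.T (x ^ 3)) ^ 3 ∨
      V.abv (C.N (x ^ 3)) ^ 2 < V.abv (C.S (x ^ 3)) ^ 3 := by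
  rw [T_cube, S_cube, N_cube]
  exact nonflat_cube V h

/-- The scaled version. -/
theorem nonflat_smul (V : Place K) {x : D} {c : K} (hc : c ≠ 0)
    (h : V.abv (C.N x) < V.abv (C.T x) ^ 3 ∨ V.abv (C.N x) ^ 2 < V.abv (C.S x) ^ 3) :
    V.abv (C.N (c • x)) < V.abv (C.T (c • x)) ^ 3 ∨
      V.abv (C.N (c • x)) ^ 2 < V.abv (C.S (c • x)) ^ 3 := by
  have hc0 : 0 < V.abv c := V.abv.pos hc
  rw [C.N_smul, C.S_smul, map_smul, smul_eq_mul]
  simp only [map_mul, map_pow]
  refine h.imp (fun h => ?_) fun h => ?_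
  · rw [mul_pow]
    exact mul_lt_mul_of_pos_left h (by positivity)
  · calc (V.abv c ^ 3 * V.abv (C.N x)) ^ 2 = (V.abv c ^ 2) ^ 3 * V.abv (C.N x) ^ 2 := by ring
      _ < (V.abv c ^ 2) ^ 3 * V.abv (C.S x) ^ 3 := mul_lt_mul_of_pos_left h (by positivity)
      _ = _ := by rw [← mul_pow]

theorem N_zpow {t : D} (hN : C.N t = 1) (j : ℤ) : C.N (t ^ j) = 1 := by
  have ht : t ≠ 0 := by
    rintro rfl
    rw [C.N_zero] at hN
    exact zero_ne_one hN
  induction j using Int.induction_on with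
  | zero => rw [zpow_zero, C.N_one]
  | succ n ih => rw [zpow_add_one₀ ht, C.N_mul, ih, hN, one_mul]
  | pred n ih => rw [zpow_sub_one₀ ht, C.N_mul, C.N_inv, ih, hN, inv_one, one_mul]

end cube

section sig

variable {K D : Type} [Field K] [StarRing K] [DivisionRing D] [StarRing D] [Algebra K D]
  [FiniteDimensional K D]

/-- **The local point at a bad place.** -/
theorem exists_sig (C : Cub K D) (hC : SCub C) (h2 : (2 : K) ≠ 0) {e h : D}
    (he : e * star e = 1) (hh : C.T h ≠ 0) (V : Place K)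
    (hV : V.abv (C.N e) < V.abv (C.T e) ^ 3 ∨ V.abv (C.N e) ^ 2 < V.abv (C.S e) ^ 3) :
    ∃ w : D, w ≠ 0 ∧ H487.In K e w ∧ 1 < V.abv (C.T (h * H487.tz C w)) := by
  have he0 : e ≠ 0 := left_ne_zero_of_mul_eq_one he
  have hN0 : C.N e ≠ 0 := C.N_ne_zero he0
  set τ : D := (C.N e)⁻¹ • e ^ 3 with hτ
  have hNτ : C.N τ = 1 := by
    rw [hτ, C.N_smul, N_cube]
    field_simp
  have hτ0 : τ ≠ 0 := smul_ne_zero (inv_ne_zero hN0) (pow_ne_zero 3 he0)
  have hNN : C.N e * star (C.N e) = 1 := by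
    have h1 := congrArg C.N he
    rwa [C.N_mul, hC.N, C.N_one] at h1
  have hee : star e = e⁻¹ := (inv_eq_of_mul_eq_one_right he).symm
  have hτu : star τ = τ⁻¹ := by
    have h1 : star (C.N e) = (C.N e)⁻¹ := (inv_eq_of_mul_eq_one_right hNN).symm
    rw [hτ, hC.smul, star_inv₀, h1, inv_inv, star_pow, hee]
    refine (inv_eq_of_mul_eq_one_right ?_).symm
    rw [smul_mul_smul_comm, inv_mul_cancel₀ hN0, one_smul, inv_pow,
      mul_inv_cancel₀ (pow_ne_zero 3 he0)]
  -- the cube of `τ` is not integral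
  have hnf := nonflat_pow C V (nonflat_smul C V (inv_ne_zero hN0) (nonflat_pow C V hV))
  rw [← hτ, N_cube, hNτ, one_pow, map_one, one_pow] at hnf
  have hone : ∀ a : K, 1 < V.abv a ^ 3 → 1 < V.abv a := fun a h1 => by
    by_contra hcon
    rw [not_lt] at hcon
    exact absurd h1 (not_lt.mpr (pow_le_one₀ (V.abv.nonneg _) hcon))
  have hbig : 1 < V.abv (C.T (τ ^ 3)) ∨ 1 < V.abv (C.S (τ ^ 3)) :=
    hnf.imp (hone _) (hone _)
  have hvr : ∀ a : K, 1 < V.abv a ↔ 1 < ConF.vr V a := fun a => by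
    rw [← not_le, ← not_le, ConF.vr_le_one]
  obtain ⟨j, hj⟩ := H511.large C (ConF.vr V) (t := τ ^ 3) (h := h)
    (by rw [N_cube, hNτ, one_pow]) (hbig.imp (hvr _).mp (hvr _).mp) hh
  have hjN : C.N (τ ^ j) = 1 := N_zpow C hNτ j
  have hju : τ ^ j * star (τ ^ j) = 1 := by
    rw [star_zpow₀, hτu, inv_zpow, mul_inv_cancel₀ (zpow_ne_zero j hτ0)]
  have h0 : 1 + τ ^ j ≠ 0 := by
    intro h0
    have h3 : τ ^ j = -1 := (neg_eq_of_add_eq_zero_right h0).symm
    rw [h3, C.N_neg, C.N_one] at hjN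
    apply h2
    linear_combination -hjN
  refine ⟨1 + τ ^ j, h0, (H487.In.one e).add ?_, ?_⟩
  · have h4 : τ ^ j = (((C.N e)⁻¹) ^ j) • e ^ (3 * j) := by
      have h5 : τ = algebraMap K D (C.N e)⁻¹ * e ^ 3 := by rw [hτ, Algebra.smul_def]
      have h6 : Commute (algebraMap K D (C.N e)⁻¹) (e ^ 3) := Algebra.commutes _ _
      rw [h5, h6.mul_zpow, ← map_zpow₀, ← Algebra.smul_def, zpow_mul]
      norm_cast
    rw [h4]
    exact (H487.In.zpow C he0 _).smul _
  · rw [H487.tz_one_add C hC hju hjN h0]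
    have h5 : (τ ^ j) ^ 3 = (τ ^ 3) ^ j := by
      rw [← zpow_natCast, ← zpow_mul, ← zpow_natCast τ 3, ← zpow_mul, mul_comm]
    rw [h5]
    exact (hvr _).mpr hj

end sig

section above

variable {k K : Type} [Field k] [GFF k] [Field K] [GFF K] [StarRing K] [Algebra k K]

/-- The conjugate place. -/
theorem exists_conj (V : Place K) : ∃ W : Place K, ∀ x : K, W.abv x ≤ 1 ↔ V.abv (star x) ≤ 1 := by
  have hne : (toPl V).1.comap (starRingEnd K) ≠ ⊤ := by
    intro h
    refine (toPl V).2 (eq_top_iff.mpr fun x _ => ?_)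
    have h1 : star x ∈ (toPl V).1.comap (starRingEnd K) := by
      rw [h]
      trivial
    rw [ValuationSubring.mem_comap, starRingEnd_apply, star_star] at h1
    exact h1
  obtain ⟨W, hW⟩ := toPl_surjective (k := K) ⟨(toPl V).1.comap (starRingEnd K), hne⟩
  refine ⟨W, fun x => ?_⟩
  rw [← toPl_le_one W, ← toPl_le_one V, ← (toPl W).mem_iff, ← (toPl V).mem_iff, hW]
  rfl

theorem lt_one_of_le {W V : Place K} (h : ∀ x : K, W.abv x ≤ 1 ↔ V.abv (star x) ≤ 1) (x : K) :
    W.abv x < 1 ↔ V.abv (star x) < 1 := by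
  by_cases hx : x = 0
  · subst hx
    rw [star_zero, map_zero, map_zero]
  · have h1 := h x⁻¹
    have hsx : star x ≠ 0 := by rwa [Ne, star_eq_zero]
    rw [star_inv₀, map_inv₀, map_inv₀, inv_le_one₀ (W.abv.pos hx), inv_le_one₀ (V.abv.pos hsx)]
      at h1
    rw [← not_le, ← not_le, h1]

/-- **The places above a place in a quadratic extension.** -/
theorem above_or (hfix : ∀ x : K, star x = x ↔ x ∈ Set.range (algebraMap k K)) {V V' : Place K}
    {v : Place k} (h : S3.Ab V v) (h' : S3.Ab V' v) :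
    (∀ x, V'.abv x ≤ 1 ↔ V.abv x ≤ 1) ∨ (∀ x, V'.abv x ≤ 1 ↔ V.abv (star x) ≤ 1) := by
  classical
  obtain ⟨W, hW⟩ := exists_conj V
  obtain ⟨W', hW'⟩ := exists_conj V'
  by_cases h1 : V' = V
  · left
    intro x
    rw [h1]
  by_cases h2 : V' = W
  · right
    intro x
    rw [h2, hW]
  exfalso
  have h3 : W' ≠ V := by
    intro h3
    refine h2 (S3.place_ext fun x => ?_)
    rw [hW, ← h3, hW', star_star]
  have h4 : W' ≠ W := by
    intro h4
    refine h1 (S3.place_ext fun x => ?_)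
    have h5 := hW (star x)
    rw [star_star] at h5
    rw [← h5, ← h4, hW', star_star]
  obtain ⟨q, hq⟩ := H167.RhoF.exists_notMem (k := K) {V, W, V', W'}
  obtain ⟨y, hy, -⟩ := AvoidF.approx hq (fun P => if P = V' ∨ P = W' then 1 else 0)
    (fun _ => 1) (fun _ _ => one_pos)
  have hvr : ∀ (P : Place K) (a : K), ConF.vr P a < 1 → P.abv a < 1 := fun P a h5 => by
    rw [← ConF.coe_vr]
    exact_mod_cast h5
  have hV : V.abv y < 1 := by
    have h5 := hvr _ _ (hy V (by simp))
    rwa [if_neg (by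
      rintro (h6 | h6)
      · exact h1 h6.symm
      · exact h3 h6.symm), sub_zero] at h5
  have hWy : V.abv (star y) < 1 := by
    have h5 := hvr _ _ (hy W (by simp))
    rw [if_neg (by
      rintro (h6 | h6)
      · exact h2 h6.symm
      · exact h4 h6.symm), sub_zero] at h5
    exact (lt_one_of_le hW y).mp h5
  have hV' : V'.abv y = 1 := by
    have h5 := hvr _ _ (hy V' (by simp))
    rw [if_pos (Or.inl rfl)] at h5
    have h6 := abv_eq_of_close (V := V') (r := y) (b := 1) (by rwa [map_one])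
    rwa [map_one] at h6
  have hWy' : V'.abv (star y) = 1 := by
    have h5 := hvr _ _ (hy W' (by simp))
    rw [if_pos (Or.inr rfl)] at h5
    have h6 := (lt_one_of_le hW' (y - 1)).mp h5
    rw [star_sub, star_one] at h6
    have h7 := abv_eq_of_close (V := V') (r := star y) (b := 1) (by rwa [map_one])
    rwa [map_one] at h7
  obtain ⟨z, hz⟩ := (hfix (y * star y)).mp (by rw [star_mul, star_star])
  have h5 : V.abv (algebraMap k K z) < 1 := by
    rw [hz, map_mul]
    exact mul_lt_one_of_nonneg_of_lt_one_left (V.abv.nonneg _) hV hWy.le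
  have h6 : V'.abv (algebraMap k K z) = 1 := by
    rw [hz, map_mul, hV', hWy', one_mul]
  rcases lt_or_ge (v.abv z) 1 with h7 | h7
  · exact absurd h6 (h'.lt_one h7).ne
  · exact absurd h5 (not_lt.mpr (h.one_le h7))

end above

end Vale.Agent.P011.H21.Sig
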